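import Vale.Agent.P004C.Wa.St
import Vale.Agent.P017.H185.Cl

/-!
# P004 C, block WA: the conjugation of `K`, bases of inverse ideals
-/

open NumberField Module
open scoped Classical ComplexConjugate UpperHalfPlane

noncomputable section

namespace Vale.Agent.P004C.Wa.Cj

open Vale.Agent.P017.H185

variable {K : Type} [Field K] [NumberField K] {J : K →+* ℂ} {D : ℕ} {θ : 𝓞 K}

theorem ex_qf (h : Kd J D θ) : ∃ q : QF K D, q.θ = θ := by
  have : Algebra.IsQuadraticExtension ℚ K := ⟨h.two⟩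
  have hcard : Nat.card Gal(K/ℚ) = 2 := by rw [IsGalois.card_aut_eq_finrank, h.two]
  obtain ⟨σ, hσ1⟩ : ∃ σ : Gal(K/ℚ), σ ≠ 1 := by
    have : Nontrivial Gal(K/ℚ) := by
      rw [← Finite.one_lt_card_iff_nontrivial, hcard]; norm_num
    exact exists_ne 1
  have hall : ∀ τ : Gal(K/ℚ), τ = 1 ∨ τ = σ := by
    intro τ
    by_contra hcon
    push Not at hcon
    have := Fintype.ofFinite Gal(K/ℚ)
    have h3 : ({1, σ, τ} : Finset Gal(K/ℚ)).card = 3 := by
      rw [Finset.card_eq_three]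
      exact ⟨1, σ, τ, hσ1.symm, hcon.1.symm, hcon.2.symm, rfl⟩
    have h4 := Finset.card_le_univ ({1, σ, τ} : Finset Gal(K/ℚ))
    rw [← Nat.card_eq_fintype_card, hcard, h3] at h4
    omega
  have hfix : ∀ z : K, σ z = z → ∃ r : ℚ, z = r := by
    intro z hz
    have : z ∈ Set.range (algebraMap ℚ K) := by
      rw [IsGalois.mem_range_algebraMap_iff_fixed]
      intro τ
      rcases hall τ with rfl | rfl
      · rfl
      · exact hz
    obtain ⟨r, hr⟩ := this
    exact ⟨r, by rw [← hr]; simp⟩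
  have hσσ : ∀ z, σ (σ z) = z := by
    intro z
    have h2 : σ * σ = 1 := by
      rcases hall (σ * σ) with h | h
      · exact h
      · exact absurd (mul_left_cancel (h.trans (mul_one σ).symm)) hσ1
    calc σ (σ z) = (σ * σ) z := rfl
      _ = z := by rw [h2]; rfl
  have hsq : (θ : K) ^ 2 = -(D : K) := by
    have := congrArg (algebraMap (𝓞 K) K) h.sq
    simpa using this
  have him := h.im
  have h0 : (θ : K) ≠ 0 := by
    intro h0
    rw [h0] at him
    simp at him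
  have hσ : σ (θ : K) = -θ := by
    have e : (σ (θ : K) - θ) * (σ (θ : K) + θ) = 0 := by
      have : σ (θ : K) ^ 2 = -(D : K) := by rw [← map_pow, hsq]; simp
      linear_combination this - hsq
    rcases mul_eq_zero.mp e with e | e
    · obtain ⟨r, hr⟩ := hfix θ (sub_eq_zero.mp e)
      rw [hr] at him
      simp at him
    · linear_combination e
  refine ⟨⟨θ, hsq, h.sqf, σ, hσ, fun z => ?_⟩, rfl⟩
  obtain ⟨u, hu⟩ := hfix ((z + σ z) / 2) (by rw [map_div₀, map_add, hσσ, map_ofNat]; ring)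
  obtain ⟨v, hv⟩ := hfix ((z - σ z) / 2 / θ) (by
    rw [map_div₀, map_div₀, map_sub, hσσ, map_ofNat, hσ]
    field_simp
    ring)
  refine ⟨u, v, ?_⟩
  rw [← hu, ← hv]
  field_simp
  ring

theorem absNorm_map (s : 𝓞 K ≃+* 𝓞 K) (I : Ideal (𝓞 K)) :
    Ideal.absNorm (I.map s) = Ideal.absNorm I := by
  rw [Ideal.absNorm_apply, Ideal.absNorm_apply, Submodule.cardQuot_apply, Submodule.cardQuot_apply]
  exact (Nat.card_congr (Ideal.quotientEquiv I (I.map s) s rfl).toEquiv).symm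

theorem absNorm_nat (h : Kd J D θ) (n : ℕ) : Ideal.absNorm (Ideal.span {(n : 𝓞 K)}) = n ^ 2 := by
  rw [Ideal.absNorm_span_natCast, RingOfIntegers.rank, h.two]

theorem jt_re (h : Kd J D θ) : (J θ).re = 0 ∧ J θ ^ 2 = -(D : ℂ) := by
  have hsq : J θ ^ 2 = -(D : ℂ) := by
    have := congrArg (fun x : 𝓞 K => J x) h.sq
    simpa using this
  refine ⟨?_, hsq⟩
  have := congrArg Complex.im hsq
  have him := h.im
  simp only [sq, Complex.mul_im, Complex.neg_im, Complex.natCast_im, neg_zero] at this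
  have h2 : (J θ).re * (2 * (J θ).im) = 0 := by linarith
  exact (mul_eq_zero.mp h2).resolve_right (by positivity)

/-- the conjugation of the ring of integers -/
structure Cg (J : K →+* ℂ) (θ : 𝓞 K) (s : 𝓞 K ≃+* 𝓞 K) : Prop where
  cj : ∀ x : 𝓞 K, J (s x) = conj (J x)
  ss : ∀ x, s (s x) = x
  st : s θ = -θ
  nm : ∀ I : Ideal (𝓞 K), I * I.map s = Ideal.span {(Ideal.absNorm I : 𝓞 K)}
  ab : ∀ x : 𝓞 K, (Ideal.absNorm (Ideal.span {x}) : ℝ) = ‖J x‖ ^ 2
  sub : ∀ x, ∃ k : ℤ, x - s x = k * θ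
  one : ∃ x, x - s x = θ
  fix : ∀ x, s x = x → ∃ k : ℤ, x = k

theorem ex_cg (h : Kd J D θ) : ∃ s, Cg J θ s := by
  obtain ⟨q, hq⟩ := ex_qf h
  have ht : q.t = θ := QF.ext' (by rw [q.coe_t, hq])
  have hc : conj (J θ) = -J θ := by
    apply Complex.ext <;> simp [(jt_re h).1]
  have cj : ∀ x : 𝓞 K, J (q.s x) = conj (J x) := by
    intro x
    have e1 : ((q.s x : 𝓞 K) : K) = q.σ x := rfl
    rw [e1, q.σ_apply]
    conv_rhs => rw [q.eq_re_im x]
    simp [hq, hc, sub_eq_add_neg]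
  have hN : ∀ (I : Ideal (𝓞 K)) n, q.HasN I n → Ideal.absNorm I = n := by
    intro I n hn
    have := congrArg Ideal.absNorm hn
    rw [map_mul, absNorm_map, absNorm_nat h, ← sq] at this
    exact Nat.pow_left_injective two_ne_zero this
  have sub : ∀ x, ∃ k : ℤ, x - q.s x = k * θ := by
    intro x
    obtain ⟨a, b, e, -⟩ := q.int_coords (QF.isInt x)
    have e2 := congrArg q.σ e
    rw [map_mul, map_add, map_mul, q.hσ, map_ofNat, map_intCast, map_intCast] at e2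
    refine ⟨b, QF.ext' ?_⟩
    rw [map_sub, q.coe_s, map_mul, map_intCast, ← ht, q.coe_t]
    linear_combination (1 / 2 : K) * e - (1 / 2 : K) * e2
  refine ⟨q.s, cj, q.s_s, by rw [← ht, q.s_t], fun I => ?_, fun x => ?_, sub, ?_, fun x hx => ?_⟩
  · by_cases hI : I = ⊥
    · simp [hI]
    · obtain ⟨n, -, hn⟩ := q.exists_hasN hI
      rw [hN I n hn]
      exact hn
  · rw [hN _ _ (q.hasN_span x)]
    have := congrArg (fun y : 𝓞 K => J y) (q.mul_s x)
    simp only [map_mul, map_natCast] at this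
    have e := cj x
    simp only [RingOfIntegers.coe_eq_algebraMap] at e
    rw [e, Complex.mul_conj, Complex.normSq_eq_norm_sq] at this
    exact_mod_cast this.symm
  · obtain ⟨z, hz, e⟩ := q.of_coords (a := 1) (b := 1) (by have := h.md; omega)
    have e2 := congrArg q.σ e
    rw [map_mul, map_add, map_mul, q.hσ, map_ofNat, map_intCast] at e2
    obtain ⟨y, rfl⟩ := QF.exists_of_isInt hz
    refine ⟨y, QF.ext' ?_⟩
    rw [map_sub, q.coe_s, ← ht, q.coe_t]
    push_cast at e e2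
    linear_combination (1 / 2 : K) * e - (1 / 2 : K) * e2
  · have e := q.σ_apply x
    have e1 : q.σ (x : K) = x := congrArg (algebraMap (𝓞 K) K) hx
    have e2 := q.eq_re_im x
    have e3 : (x : K) = (q.re x : ℚ) := by linear_combination (1 / 2 : K) * (e2 - e1 + e)
    have e4 : IsIntegral ℤ ((q.re x : ℚ) : K) := e3 ▸ QF.isInt x
    obtain ⟨k, hk⟩ := QF.int_of_isIntegral e4
    refine ⟨k, QF.ext' ?_⟩
    rw [map_intCast]
    refine e3.trans ?_
    rw [hk]
    simp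

omit [NumberField K] in
theorem jinj (J : K →+* ℂ) {x y : 𝓞 K} (h : J x = J y) : x = y :=
  RingOfIntegers.ext (J.injective h)

theorem th_ne (h : Kd J D θ) : θ ≠ 0 := by
  intro h0
  have := h.im
  simp [h0] at this

variable {s : 𝓞 K ≃+* 𝓞 K}

theorem Cg.mem_map (c : Cg J θ s) {I : Ideal (𝓞 K)} {x : 𝓞 K} : x ∈ I.map s ↔ s x ∈ I := by
  rw [Ideal.mem_map_iff_of_surjective s s.surjective]
  exact ⟨fun ⟨y, hy, e⟩ => by rwa [← e, c.ss], fun hx => ⟨s x, hx, c.ss x⟩⟩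

theorem Cg.map_map (c : Cg J θ s) (I : Ideal (𝓞 K)) : (I.map s).map s = I := by
  ext x
  rw [c.mem_map, c.mem_map, c.ss]

theorem Cg.uniq (c : Cg J θ s) {I I' : Ideal (𝓞 K)} (hI : I ≠ ⊥)
    (e : I * I' = Ideal.span {(Ideal.absNorm I : 𝓞 K)}) : I' = I.map s :=
  mul_left_cancel₀ hI (e.trans (c.nm I).symm)

theorem Cg.int_dvd (c : Cg J θ s) {m k : ℤ} (h : (m : 𝓞 K) ∣ k) : m ∣ k := by
  obtain ⟨z, hz⟩ := h
  by_cases hm : m = 0
  · subst hm
    have : (k : 𝓞 K) = 0 := by simpa using hz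
    have : k = 0 := by exact_mod_cast this
    simp [this]
  · have e := congrArg s hz
    rw [map_mul, map_intCast, map_intCast, hz] at e
    obtain ⟨j, rfl⟩ := c.fix z (mul_left_cancel₀ (by exact_mod_cast hm) e).symm
    exact ⟨j, by exact_mod_cast hz⟩

section

variable {m : ℕ} {n n' : Ideal (𝓞 K)}

theorem sp_ne (h : Sp m n n') : n ≠ ⊥ ∧ n' ≠ ⊥ := by
  have h0 : n * n' ≠ ⊥ := by
    rw [h.mul, Ne, Ideal.span_singleton_eq_bot]
    exact_mod_cast h.pos.ne'
  exact ⟨fun e => h0 (by simp [e]), fun e => h0 (by simp [e])⟩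

theorem Cg.sp (c : Cg J θ s) (h : Sp m n n') : n.map s = n' ∧ n'.map s = n := by
  have e : n' = n.map s := c.uniq (sp_ne h).1 (by rw [h.nm, h.mul])
  exact ⟨e.symm, by rw [e, c.map_map]⟩

theorem Cg.sp_mem (c : Cg J θ s) (h : Sp m n n') {x : 𝓞 K} :
    (s x ∈ n ↔ x ∈ n') ∧ (s x ∈ n' ↔ x ∈ n) :=
  ⟨by rw [← c.mem_map, (c.sp h).1], by rw [← c.mem_map, (c.sp h).2]⟩

theorem Cg.sp_nm (c : Cg J θ s) (h : Sp m n n') : Ideal.absNorm n' = m := by
  rw [← (c.sp h).1, absNorm_map, h.nm]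

theorem sp_m (h : Sp m n n') : (m : 𝓞 K) ∈ n ∧ (m : 𝓞 K) ∈ n' := by
  have : (m : 𝓞 K) ∈ n * n' := h.mul ▸ Ideal.mem_span_singleton_self _
  exact ⟨Ideal.mul_le_left this, Ideal.mul_le_right this⟩

theorem Cg.sp_int (c : Cg J θ s) (h : Sp m n n') (k : ℤ) : (k : 𝓞 K) ∈ n' ↔ (m : ℤ) ∣ k := by
  refine ⟨fun hk => c.int_dvd ?_, fun ⟨j, e⟩ => ?_⟩
  · have h1 : (k : 𝓞 K) ∈ n := by
      have := (c.sp_mem h).1.mpr hk
      rwa [map_intCast] at this
    have h2 : (k : 𝓞 K) ∈ n * n' := by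
      rw [Ideal.mul_eq_inf_of_isCoprime (Ideal.isCoprime_iff_sup_eq.mpr h.cop)]
      exact ⟨h1, hk⟩
    rw [h.mul, Ideal.mem_span_singleton] at h2
    exact_mod_cast h2
  · rw [e]
    push_cast
    exact Ideal.mul_mem_right _ _ (sp_m h).2

end

theorem Cg.iv (c : Cg J θ s) {I : Ideal (𝓞 K)} (hI : I ≠ ⊥) (z : ℂ) :
    z ∈ Iv J I ↔ ∃ w ∈ I.map s, J w = Ideal.absNorm I * z := by
  have hN : (Ideal.absNorm I : ℂ) ≠ 0 := by simpa [Ideal.absNorm_eq_zero_iff] using hI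
  constructor
  · intro hz
    obtain ⟨w, hw⟩ := hz _ (Ideal.absNorm_mem I)
    refine ⟨w, ?_, by rw [← hw]; simp⟩
    rw [← Ideal.span_singleton_le_iff_mem, ← Ideal.dvd_iff_le, ← mul_dvd_mul_iff_left hI, c.nm,
      Ideal.dvd_iff_le, Ideal.mul_le]
    intro x hx y hy
    obtain ⟨t, rfl⟩ := Ideal.mem_span_singleton'.mp hy
    obtain ⟨y, e⟩ := hz x hx
    refine Ideal.mem_span_singleton'.mpr ⟨t * y, jinj J ?_⟩
    simp only [map_mul, map_natCast] at hw ⊢
    rw [← hw, ← e]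
    ring
  · rintro ⟨w, hw, e⟩ x hx
    have : x * w ∈ Ideal.span {(Ideal.absNorm I : 𝓞 K)} := c.nm I ▸ Ideal.mul_mem_mul hx hw
    obtain ⟨y, hy⟩ := Ideal.mem_span_singleton'.mp this
    refine ⟨y, mul_left_cancel₀ hN ?_⟩
    have := congrArg (fun t : 𝓞 K => J t) hy
    simp only [map_mul, map_natCast] at this
    rw [e] at this
    linear_combination -this

/-- `I⁻¹ = (ℤ q + ℤ p) / N I` -/
structure Ba (J : K →+* ℂ) (θ : 𝓞 K) (s : 𝓞 K ≃+* 𝓞 K) (I : Ideal (𝓞 K)) (ω : ℂ) (τ : ℍ)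
    (p q : 𝓞 K) : Prop where
  hp : J p = Ideal.absNorm I * ω
  ne : p ≠ 0
  hq : J q = J p * τ
  mem : ∀ z : 𝓞 K, z ∈ I.map s ↔ ∃ u v : ℤ, z = u * q + v * p
  cov : q * s p - p * s q = θ * Ideal.absNorm I

theorem Cg.ex_ba (c : Cg J θ s) (h : Kd J D θ) {I : Ideal (𝓞 K)} (hI : I ≠ ⊥) {ω : ℂ} {τ : ℍ}
    (b : Bs (Iv J I) ω τ) : ∃ p q, Ba J θ s I ω τ p q := by
  have hN : (Ideal.absNorm I : ℂ) ≠ 0 := by simpa [Ideal.absNorm_eq_zero_iff] using hI
  have hN' : (Ideal.absNorm I : 𝓞 K) ≠ 0 := by simpa [Ideal.absNorm_eq_zero_iff] using hI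
  obtain ⟨p, -, hp⟩ := (c.iv hI ω).mp ((b.2 _).mpr ⟨0, 1, by simp⟩)
  obtain ⟨q, -, hq⟩ := (c.iv hI (ω * τ)).mp ((b.2 _).mpr ⟨1, 0, by simp⟩)
  have hp0 : J p ≠ 0 := hp ▸ mul_ne_zero hN b.1
  have hq' : J q = J p * τ := by rw [hp, hq, mul_assoc]
  have mem : ∀ z : 𝓞 K, z ∈ I.map s ↔ ∃ u v : ℤ, z = u * q + v * p := by
    intro z
    constructor
    · intro hz
      obtain ⟨u, v, e⟩ := (b.2 (J z / Ideal.absNorm I)).mp ((c.iv hI _).mpr ⟨z, hz, by field_simp⟩)
      refine ⟨u, v, jinj J ?_⟩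
      simp only [map_add, map_mul, map_intCast]
      rw [div_eq_iff hN] at e
      rw [e, hp, hq]
      ring
    · rintro ⟨u, v, e⟩
      obtain ⟨w, hw, e2⟩ := (c.iv hI _).mp ((b.2 _).mpr ⟨u, v, rfl⟩)
      have : z = w := by
        refine e.trans (jinj J ?_)
        simp only [map_add, map_mul, map_intCast]
        rw [e2, hp, hq]
        ring
      exact this ▸ hw
  refine ⟨p, q, hp, fun e => hp0 (by simp [e]), hq', mem, ?_⟩
  have hm : I.map s * I = Ideal.span {(Ideal.absNorm I : 𝓞 K)} := by rw [mul_comm, c.nm]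
  have all : ∀ w ∈ I.map s * I, ∃ k : ℤ, w - s w = k * (q * s p - p * s q) := by
    intro w hw
    refine Submodule.mul_induction_on hw (fun x hx y hy => ?_) ?_
    · obtain ⟨u, v, rfl⟩ := (mem x).mp hx
      obtain ⟨u', v', e⟩ := (mem (s y)).mp (by rwa [c.mem_map, c.ss])
      have e2 : y = u' * s q + v' * s p := by
        rw [← c.ss y, e]; simp
      refine ⟨u * v' - v * u', ?_⟩
      rw [map_mul, e, e2]
      simp only [map_add, map_mul, map_intCast]
      push_cast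
      ring
    · rintro x y ⟨k, hk⟩ ⟨l, hl⟩
      exact ⟨k + l, by rw [map_add]; push_cast; linear_combination hk + hl⟩
  obtain ⟨x, hx⟩ := c.one
  obtain ⟨k, hk⟩ := all (x * Ideal.absNorm I) (hm ▸ Ideal.mem_span_singleton'.mpr ⟨x, rfl⟩)
  have hqp : q * s p ∈ I.map s * I :=
    Ideal.mul_mem_mul ((mem q).mpr ⟨1, 0, by simp⟩) (c.mem_map.mp ((mem p).mpr ⟨0, 1, by simp⟩))
  obtain ⟨w, hw⟩ := Ideal.mem_span_singleton'.mp (hm ▸ hqp)
  obtain ⟨j, hj⟩ := c.sub w
  have hw2 := congrArg s hw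
  rw [map_mul, map_mul, map_natCast, c.ss] at hw2
  have d : q * s p - p * s q = j * (θ * Ideal.absNorm I) := by
    linear_combination -hw + hw2 + (Ideal.absNorm I : 𝓞 K) * hj
  rw [map_mul, map_natCast, d] at hk
  have kj : k * j = 1 := by
    have : ((k * j : ℤ) : 𝓞 K) * (θ * Ideal.absNorm I) = 1 * (θ * Ideal.absNorm I) := by
      push_cast
      linear_combination (Ideal.absNorm I : 𝓞 K) * hx - hk
    exact_mod_cast mul_right_cancel₀ (mul_ne_zero (th_ne h) hN') this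
  have jp : 0 < j := by
    have e := congrArg (fun t : 𝓞 K => J t) d
    have e1 := c.cj p
    have e2 := c.cj q
    simp only [map_mul, map_sub, map_natCast, map_intCast] at e
    rw [e1, e2, hq', map_mul] at e
    have e3 : J p * τ * conj (J p) - J p * (conj (J p) * conj (τ : ℂ)) =
        (Complex.normSq (J p) : ℂ) * (τ - conj (τ : ℂ)) := by
      rw [← Complex.mul_conj]; ring
    rw [e3] at e
    have e4 := congrArg Complex.im e
    simp [(jt_re h).1] at e4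
    have a1 : 0 < Complex.normSq (J p) := Complex.normSq_pos.mpr hp0
    have a2 := τ.im_pos
    have a3 := h.im
    have a4 : (0 : ℝ) < Ideal.absNorm I := by
      exact_mod_cast Nat.pos_of_ne_zero (by exact_mod_cast hN)
    have a5 : (0 : ℝ) < j * ((J θ).im * Ideal.absNorm I) := by
      rw [← e4]; positivity
    exact_mod_cast pos_of_mul_pos_left a5 (by positivity)
  rw [d, Int.eq_one_of_mul_eq_one_left jp.le kj]
  simp

end Vale.Agent.P004C.Wa.Cj
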