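import Vale.Agent.P004C.Wa.Tg
import Vale.Agent.P022.H724.Bas

/-!
# P004 C, block WA: the character of the theta series of a quadratic field
-/

open NumberField Module
open scoped Classical NumberTheorySymbols

noncomputable section

namespace Vale.Agent.P004C.Wa.Th

theorem jac_per {D : ℤ} (h : D % 4 = 0 ∨ D % 4 = 1) {n n' : ℕ} (hn : Odd n) (hn' : Odd n')
    (hd : D ∣ n - n') : J(D | n) = J(D | n') := by
  rcases h with h | h
  · obtain ⟨E, rfl⟩ := Int.dvd_of_emod_eq_zero h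
    rw [jacobiSym.mul_left, jacobiSym.mul_left, jacobiSym.at_four hn, jacobiSym.at_four hn',
      jacobiSym.mod_right E hn, jacobiSym.mod_right E hn']
    congr 2
    refine (Nat.modEq_iff_dvd.2 ?_).symm
    rw [← Int.natAbs_dvd, Int.natAbs_mul] at hd
    exact hd
  · have key : ∀ k : ℕ, Odd k → J(D | k) = J(k | D.natAbs) := fun k hk => by
      rcases Int.natAbs_eq D with e | e
      · nth_rw 1 [e]
        exact jacobiSym.quadratic_reciprocity_one_mod_four (by omega) hk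
      · nth_rw 1 [e]
        have h3 : D.natAbs % 4 = 3 := by omega
        rw [jacobiSym.neg _ hk]
        rcases Nat.odd_mod_four_iff.1 (Nat.odd_iff.1 hk) with k1 | k3
        · rw [ZMod.χ₄_nat_one_mod_four k1, one_mul]
          exact jacobiSym.quadratic_reciprocity_one_mod_four' (Nat.odd_iff.2 (by omega)) k1
        · rw [ZMod.χ₄_nat_three_mod_four k3, jacobiSym.quadratic_reciprocity_three_mod_four h3 k3]
          ring
    rw [key n hn, key n' hn']
    exact jacobiSym.mod_left' (Int.modEq_iff_dvd.2 (Int.natAbs_dvd.2 hd)).symm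

theorem jac_w {D : ℤ} (h : D ≠ 0) : J(D | 4 * D.natAbs - 1) = if D < 0 then -1 else 1 := by
  have h0 : 0 < D.natAbs := Int.natAbs_pos.2 h
  have ho : Odd (4 * D.natAbs - 1) := Nat.odd_iff.2 (by omega)
  have h1 : J(D.natAbs | 4 * D.natAbs - 1) = 1 := by
    have e : J(4 * D.natAbs | 4 * D.natAbs - 1) = J(1 | 4 * D.natAbs - 1) :=
      jacobiSym.mod_left' (Int.modEq_iff_dvd.2 ⟨-1, by omega⟩)
    rwa [jacobiSym.mul_left, jacobiSym.at_four ho, jacobiSym.one_left, one_mul] at e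
  split_ifs with h2
  · have e : D = -(D.natAbs : ℤ) := by omega
    nth_rw 1 [e]
    rw [jacobiSym.neg _ ho, h1, ZMod.χ₄_nat_three_mod_four (by omega), mul_one]
  · have e : D = (D.natAbs : ℤ) := by omega
    nth_rw 1 [e]
    exact h1

/-- the Kronecker symbol at odd integers -/
def kap (D d : ℤ) : ℤ := (if D < 0 then d.sign else 1) * J(D | d.natAbs)

theorem kap_eq {D d : ℤ} (h : D ≠ 0) (hd : Odd d) :
    ∃ n : ℕ, Odd n ∧ D ∣ d - n ∧ kap D d = J(D | n) := by
  have h0 : 0 < D.natAbs := Int.natAbs_pos.2 h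
  have ho : Odd (4 * D.natAbs - 1) := Nat.odd_iff.2 (by omega)
  have hn : Odd d.natAbs := Int.natAbs_odd.2 hd
  rcases lt_trichotomy d 0 with h1 | rfl | h1
  · refine ⟨(4 * D.natAbs - 1) * d.natAbs, ho.mul hn, ?_, ?_⟩
    · refine Int.natAbs_dvd.1 ⟨4 * d, ?_⟩
      rw [Nat.cast_mul, Nat.cast_sub (by omega), show (d.natAbs : ℤ) = -d by omega]
      push_cast
      ring
    · rw [jacobiSym.mul_right' _ ho.pos.ne' hn.pos.ne', jac_w h, kap, Int.sign_eq_neg_one_of_neg h1]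
  · exact absurd hd (by decide)
  · refine ⟨d.natAbs, hn, ⟨0, by omega⟩, ?_⟩
    rw [kap, Int.sign_eq_one_of_pos h1, ite_self, one_mul]

theorem kap_per {D d e : ℤ} (h0 : D ≠ 0) (h : D % 4 = 0 ∨ D % 4 = 1) (hd : Odd d) (he : Odd e)
    (k : D ∣ d - e) : kap D d = kap D e := by
  obtain ⟨n, a1, a2, a3⟩ := kap_eq h0 hd
  obtain ⟨n', b1, b2, b3⟩ := kap_eq h0 he
  rw [a3, b3]
  refine jac_per h a1 b1 ?_
  rw [show (n : ℤ) - n' = d - e - (d - n) + (e - n') by ring]
  exact (k.sub a2).add b2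

variable {L : Type} [Field L] [NumberField L] {sg : L → ℂ} {f : Ideal (𝓞 L)}
  {ψ : Ideal (𝓞 L) → ℂ}

theorem disc_mod (h2 : finrank ℚ L = 2) : discr L % 4 = 0 ∨ discr L % 4 = 1 := by
  obtain ⟨B⟩ := P022.H724.exists_qb h2
  rw [B.discr_eq]
  rcases Int.even_or_odd' B.q with ⟨k, e | e⟩ <;> rw [e]
  · left
    rw [show (2 * k) ^ 2 + 4 * B.p = 4 * (k ^ 2 + B.p) by ring, Int.mul_emod_right]
  · right
    rw [show (2 * k + 1) ^ 2 + 4 * B.p = 1 + 4 * (k ^ 2 + k + B.p) by ring, Int.add_mul_emod_self_left]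
    rfl

theorem disc_neg (h2 : finrank ℚ L = 2) : discr L < 0 ↔ IsEmpty (L →+* ℝ) := by
  have h1 := InfinitePlace.card_add_two_mul_card_eq_rank L
  have h3 := InfinitePlace.card_real_embeddings L
  have h4 := sign_discr L
  rw [h2] at h1
  constructor
  · intro h
    refine ⟨fun σ => ?_⟩
    have : 0 < InfinitePlace.nrRealPlaces L := by
      rw [← h3]
      exact Fintype.card_pos_iff.2 ⟨⟨Complex.ofRealHom.comp σ, RingHom.ext fun x => by
        simp [ComplexEmbedding.conjugate_coe_eq]⟩⟩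
    rw [show InfinitePlace.nrComplexPlaces L = 0 by omega, Int.sign_eq_neg_one_of_neg h] at h4
    exact absurd h4 (by decide)
  · intro h
    have : InfinitePlace.nrRealPlaces L = 0 := by
      rw [← h3]
      exact Fintype.card_eq_zero_iff.2 ⟨fun φ => h.false φ.2.embedding⟩
    rw [show InfinitePlace.nrComplexPlaces L = 1 by omega] at h4
    exact Int.sign_eq_neg_one_iff_neg.1 h4

omit [NumberField L] in
theorem sg_mul (h : Sg sg) (x y : L) : sg (x * y) = sg x * sg y := by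
  rcases h with ⟨-, h⟩ | ⟨σ, h⟩ <;> simp [h, sign_mul]

omit [NumberField L] in
theorem sg_sq (h : Sg sg) {x : L} (hx : x ≠ 0) : sg x * sg x = 1 := by
  rcases h with ⟨-, h⟩ | ⟨σ, h⟩
  · simp [h]
  · rcases lt_or_gt_of_ne ((map_ne_zero σ).2 hx) with k | k
    · simp [h, sign_neg k]
    · simp [h, sign_pos k]

theorem sg_int (h2 : finrank ℚ L = 2) (h : Sg sg) (d : ℤ) :
    (d.sign : ℂ) = ((if discr L < 0 then d.sign else 1 : ℤ) : ℂ) * sg ((d : 𝓞 L) : L) := by
  rcases h with ⟨k, h⟩ | ⟨σ, h⟩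
  · rw [if_pos ((disc_neg h2).2 k), h, mul_one]
  · rw [if_neg fun k => ((disc_neg h2).1 k).false σ, h]
    rcases lt_trichotomy d 0 with k | rfl | k
    · simp [Int.sign_eq_neg_one_of_neg k, sign_neg (show (d : ℝ) < 0 by exact_mod_cast k)]
    · simp
    · simp [Int.sign_eq_one_of_pos k, sign_pos (show (0 : ℝ) < d by exact_mod_cast k)]

omit [NumberField L] in
theorem psi_mul (r : RC sg f ψ) (x y : 𝓞 L) :
    ψ (Ideal.span {x * y}) = ψ (Ideal.span {x}) * ψ (Ideal.span {y}) := by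
  rw [← r.mul, Ideal.span_singleton_mul_span_singleton]

omit [NumberField L] in
theorem psi_pow (r : RC sg f ψ) (I : Ideal (𝓞 L)) (n : ℕ) : ψ (I ^ n) = ψ I ^ n := by
  induction n with
  | zero => rw [pow_zero, pow_zero, r.one]
  | succ n ih => rw [pow_succ, pow_succ, r.mul, ih]

omit [NumberField L] in
/-- the finite part is periodic -/
theorem chi_per (h : Sg sg) (r : RC sg f ψ) (hf : f ≠ ⊤) {x y : 𝓞 L}
    (hx : Ideal.span {x} ⊔ f = ⊤) (k : x - y ∈ f) :
    ψ (Ideal.span {x}) * sg x = ψ (Ideal.span {y}) * sg y := by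
  obtain ⟨a, ha, b, hb, e⟩ := Submodule.mem_sup.1 ((Ideal.eq_top_iff_one _).1 hx)
  obtain ⟨z, rfl⟩ := Ideal.mem_span_singleton'.1 ha
  have nz : ∀ w : 𝓞 L, w - 1 ∈ f → w ≠ 0 := fun w hw e => hf (by
    rw [e, zero_sub, neg_mem_iff] at hw
    exact (Ideal.eq_top_iff_one _).2 hw)
  have m1 : z * x - 1 ∈ f := by
    rw [show z * x - 1 = -b by linear_combination e]
    exact neg_mem hb
  have m2 : z * y - 1 ∈ f := by
    rw [show z * y - 1 = z * x - 1 - z * (x - y) by ring]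
    exact sub_mem m1 (f.mul_mem_left _ k)
  have e1 := r.prn _ (nz _ m1) m1
  have e2 := r.prn _ (nz _ m2) m2
  have s1 := sg_sq h (RingOfIntegers.coe_ne_zero_iff.2 (right_ne_zero_of_mul (nz _ m1)))
  have s2 := sg_sq h (RingOfIntegers.coe_ne_zero_iff.2 (right_ne_zero_of_mul (nz _ m2)))
  have s3 := sg_sq h (RingOfIntegers.coe_ne_zero_iff.2 (left_ne_zero_of_mul (nz _ m2)))
  rw [psi_mul r] at e1 e2
  simp only [RingOfIntegers.coe_eq_algebraMap, map_mul, sg_mul h] at e1 e2 s1 s2 s3 ⊢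
  have hz : ψ (Ideal.span {z}) ≠ 0 := fun e => by
    rw [e, zero_mul] at e2
    exact mul_ne_zero (left_ne_zero_of_mul_eq_one s3) (left_ne_zero_of_mul_eq_one s2) e2.symm
  refine mul_left_cancel₀ hz ?_
  rw [← mul_assoc, ← mul_assoc, e1, e2, mul_assoc, mul_assoc, s1, s2]

/-- finite order -/
theorem psi_ord (h : Sg sg) (r : RC sg f ψ) (I : Ideal (𝓞 L)) :
    ψ I = 0 ∨ ∃ k, 0 < k ∧ ψ I ^ k = 1 := by
  by_cases h0 : ψ I = 0
  · exact Or.inl h0
  right
  have h1 := not_or.1 (mt (r.zero I).2 h0)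
  have h3 : ClassGroup.mk0 (⟨I, mem_nonZeroDivisors_of_ne_zero h1.1⟩ ^
      Fintype.card (ClassGroup (𝓞 L))) = 1 := by rw [map_pow, pow_card_eq_one]
  obtain ⟨x, hx⟩ := (ClassGroup.mk0_eq_one_iff _).1 h3
  have hx' : I ^ Fintype.card (ClassGroup (𝓞 L)) = Ideal.span {x} := hx
  have h4 : ψ (Ideal.span {x}) ≠ 0 := by
    rw [← hx', psi_pow r]
    exact pow_ne_zero _ h0
  have h5 := not_or.1 (mt (r.zero _).2 h4)
  obtain ⟨a, ha, b, hb, e⟩ := Submodule.mem_sup.1 ((Ideal.eq_top_iff_one _).1 (not_not.1 h5.2))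
  obtain ⟨z, rfl⟩ := Ideal.mem_span_singleton'.1 ha
  have := Ideal.finiteQuotientOfFreeOfNeBot f r.ne
  have hu : IsUnit (Ideal.Quotient.mk f x) := IsUnit.of_mul_eq_one (Ideal.Quotient.mk f z) (by
    rw [← map_mul, ← map_one (Ideal.Quotient.mk f), Ideal.Quotient.eq,
      show x * z - 1 = -b by linear_combination e]
    exact neg_mem hb)
  obtain ⟨k, k0, hk⟩ := isOfFinOrder_iff_pow_eq_one.1 (isOfFinOrder_of_finite hu.unit)
  have h6 : x ^ k - 1 ∈ f := by
    rw [← Ideal.Quotient.eq, map_pow, map_one]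
    simpa using congrArg Units.val hk
  have x0 : x ^ k ≠ 0 := pow_ne_zero _ fun e => h5.1 (by simp [e])
  refine ⟨Fintype.card (ClassGroup (𝓞 L)) * k * 2, by positivity, ?_⟩
  rw [pow_mul, ← psi_pow r, pow_mul, hx', Ideal.span_singleton_pow, r.prn _ x0 h6, sq]
  exact sg_sq h (RingOfIntegers.coe_ne_zero_iff.2 x0)

theorem psi_nrm (h : Sg sg) (r : RC sg f ψ) {I : Ideal (𝓞 L)} (hI : ψ I ≠ 0) : ‖ψ I‖ = 1 := by
  obtain ⟨k, k0, hk⟩ := (psi_ord h r I).resolve_left hI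
  exact (pow_eq_one_iff_of_nonneg (norm_nonneg _) k0.ne').1 (by rw [← norm_pow, hk, norm_one])

theorem psi_le (h : Sg sg) (r : RC sg f ψ) (I : Ideal (𝓞 L)) : ‖ψ I‖ ≤ 1 := by
  by_cases hI : ψ I = 0
  · simp [hI]
  · exact (psi_nrm h r hI).le

omit [NumberField L] in
theorem cop_int {m₀ : ℕ} (hm : (m₀ : 𝓞 L) ∈ f) {d : ℤ} (hd : IsCoprime d (m₀ : ℤ)) :
    Ideal.span {(d : 𝓞 L)} ⊔ f = ⊤ := by
  obtain ⟨u, v, e⟩ := hd
  refine (Ideal.eq_top_iff_one _).2 (Submodule.mem_sup.2 ⟨u * d, Ideal.mem_span_singleton'.2 ⟨u, rfl⟩,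
    v * m₀, f.mul_mem_left _ hm, ?_⟩)
  exact_mod_cast congrArg (Int.cast : ℤ → 𝓞 L) e

theorem eps_eq (h2 : finrank ℚ L = 2) (h : Sg sg) {m : ℕ} {d : ℤ} (hd : IsCoprime d (m : ℤ)) :
    eps m ψ d = kap (discr L) d * (ψ (Ideal.span {(d : 𝓞 L)}) * sg ((d : 𝓞 L) : L)) := by
  rw [eps, if_pos hd, Int.cast_mul, sg_int h2 h, kap, Int.cast_mul]
  ring

/-- the character -/
theorem chr (h2 : finrank ℚ L = 2) (h : Sg sg) (r : RC sg f ψ) (hf : f ≠ ⊤) {m₀ m : ℕ}
    (hm : (m₀ : 𝓞 L) ∈ f) (k2 : 2 ∣ m₀) (k : (discr L).natAbs * m₀ ∣ m) : Chr m (eps m ψ) := by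
  have d0 : (m₀ : ℤ) ∣ m := Int.natCast_dvd_natCast.2 ((dvd_mul_left _ _).trans k)
  have dD : discr L ∣ (m : ℤ) :=
    Int.natAbs_dvd.1 (Int.natCast_dvd_natCast.2 ((dvd_mul_right _ _).trans k))
  have od : ∀ d : ℤ, IsCoprime d (m : ℤ) → Odd d := fun d hd =>
    Int.isCoprime_two_right.1 (hd.of_isCoprime_of_dvd_right
      ((Int.natCast_dvd_natCast.2 k2).trans d0))
  have p1 : ψ ⊤ = 1 := by rw [← Ideal.one_eq_top, r.one]
  refine ⟨?_, fun a b => ?_, fun a b hab => ?_, fun a => ⟨fun e ha => ?_, fun ha => if_neg ha⟩, ?_⟩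
  · simp [eps, p1, isCoprime_one_left]
  · by_cases ha : IsCoprime a (m : ℤ)
    · by_cases hb : IsCoprime b (m : ℤ)
      · rw [eps, eps, eps, if_pos ha, if_pos hb, if_pos (ha.mul_left hb), Int.sign_mul,
          Int.natAbs_mul, jacobiSym.mul_right' _ (Int.natAbs_odd.2 (od a ha)).pos.ne'
            (Int.natAbs_odd.2 (od b hb)).pos.ne', Int.cast_mul a b, psi_mul r]
        push_cast
        ring
      · rw [eps, eps, eps, if_neg hb, if_neg fun e => hb e.of_mul_left_right, mul_zero]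
    · rw [eps, eps, if_neg ha, if_neg fun e => ha e.of_mul_left_left, zero_mul]
  · obtain ⟨c, hc⟩ := hab
    have iff : IsCoprime a (m : ℤ) ↔ IsCoprime b (m : ℤ) := by
      rw [show a = b + m * c by linear_combination hc, IsCoprime.add_mul_left_left_iff]
    by_cases ha : IsCoprime a (m : ℤ)
    · rw [eps_eq h2 h ha, eps_eq h2 h (iff.1 ha), kap_per (discr_ne_zero L) (disc_mod h2) (od a ha)
        (od b (iff.1 ha)) (dD.trans ⟨c, hc⟩), chi_per h r hf
          (cop_int hm (ha.of_isCoprime_of_dvd_right d0)) (y := b)]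
      obtain ⟨u, hu⟩ := d0
      rw [← Int.cast_sub, hc, hu, mul_assoc, Int.cast_mul, Int.cast_natCast]
      exact f.mul_mem_right _ hm
    · rw [eps, eps, if_neg ha, if_neg fun e => ha (iff.2 e)]
  · have a0 : a ≠ 0 := fun e => absurd (e ▸ od a ha) (by decide)
    rw [eps, if_pos ha] at e
    rcases mul_eq_zero.1 e with e | e
    · rcases mul_eq_zero.1 (Int.cast_eq_zero.1 e) with e | e
      · exact a0 (Int.sign_eq_zero_iff_zero.1 e)
      · refine jacobiSym.ne_zero ?_ e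
        rw [← Int.isCoprime_iff_gcd_eq_one, Int.natCast_natAbs, IsCoprime.abs_right_iff]
        exact (ha.of_isCoprime_of_dvd_right dD).symm
    · rcases (r.zero _).1 e with e | e
      · exact a0 (by simpa using e)
      · exact e (cop_int hm (ha.of_isCoprime_of_dvd_right d0))
  · simp [eps, p1, isCoprime_one_left.neg_left, Ideal.span_singleton_neg]

end Vale.Agent.P004C.Wa.Th
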