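import Vale.Agent.P004C.Wa.Cms1

/-!
# P004 C, block WA, row CMS: splitting of the kernel at a pair of CM points
-/

open NumberField Module UpperHalfPlane
open scoped Classical ComplexConjugate Real ArithmeticFunction.Moebius

noncomputable section

namespace Vale.Agent.P004C.Wa

namespace Cms

open Cj Lt

variable {K : Type} [Field K] [NumberField K] {J : K →+* ℂ} {D M : ℕ} {θ : 𝓞 K}
  {s : 𝓞 K ≃+* 𝓞 K} {n n' : Ideal (𝓞 K)} {I₁ I₂ : Ideal (𝓞 K)} {q₁ r₁ q₂ r₂ : 𝓞 K}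
  {ε : ℤ → ℂ} {a : Ideal (𝓞 K) → ℂ}

/-- the summand of `kV` without the Ramanujan sum -/
def gg (M N : ℕ) (ε : ℤ → ℂ) (τ₁ τ₂ τ : ℍ) (X : ℤ × ℤ × ℤ × ℤ) : ℂ :=
  ε (-X.2.2.1) * conj (pp M N τ₁ τ₂ X) *
    ee (N * (τ * (‖pp M N (conj τ₁) τ₂ X‖ ^ 2 : ℝ) - conj (τ : ℂ) * (‖pp M N τ₁ τ₂ X‖ ^ 2 : ℝ)) /
      (4 * τ₁.im * τ₂.im))

theorem term (c : Cg J θ s) (k : Kd J D θ) (h : Sp M n n') (hD : D.Coprime M) (hε : Chr M ε)
    (ha : Ha J n' ε a) (b₁ : Ad θ s M n' I₁ q₁ r₁) (b₂ : Ad θ s M n' I₂ q₂ r₂) {τ₁ τ₂ : ℍ}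
    (h₁ : J q₁ = J θ * J r₁ * τ₁) (h₂ : J q₂ = J θ * J r₂ * τ₂) {ω₁ ω₂ : ℂ}
    (o₁ : J θ * J r₁ = Ideal.absNorm I₁ * ω₁) (o₂ : J θ * J r₂ = Ideal.absNorm I₂ * ω₂)
    {e f : ℕ} (hef : e * f = M) {B : Ideal (𝓞 K)}
    (hB : Ideal.absNorm B = e * Ideal.absNorm I₁ * Ideal.absNorm I₂) (τ τ' : ℍ)
    (hτ : (τ' : ℂ) = f * τ) (X : ℤ × ℤ × ℤ × ℤ) (y : Lv (n * I₁ * I₂)) (x : Lv B)
    (hy : (y : K) = be θ M q₁ r₁ q₂ r₂ X / (M * Ideal.absNorm I₁ * Ideal.absNorm I₂ : 𝓞 K))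
    (hx : (x : K) = al θ s M q₁ r₁ q₂ r₂ X / (M * Ideal.absNorm I₁ * Ideal.absNorm I₂ : 𝓞 K)) :
    a n * (a I₁ / ε (Ideal.absNorm I₁)) * (a I₂ / ε (Ideal.absNorm I₂)) * (M * D : ℕ) /
        (τ₁.im * τ₂.im * ω₁ * ω₂) * gg M (M * D) ε τ₁ τ₂ τ X =
      4 / ε D * (a (Lt.id _ y) * (Ideal.absNorm (n * I₁ * I₂) * (‖J y‖ : ℂ) ^ 2) *
        conj (ee (Ideal.absNorm (n * I₁ * I₂) * (‖J y‖ : ℂ) ^ 2 * τ)) *
        ee (Ideal.absNorm B * (‖J x‖ : ℂ) ^ 2 * τ')) := by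
  have hM : (M : ℂ) ≠ 0 := by exact_mod_cast h.pos.ne'
  have hM' : (M : 𝓞 K) ≠ 0 := by exact_mod_cast h.pos.ne'
  have n₁ : (Ideal.absNorm I₁ : ℂ) ≠ 0 := by simpa [Ideal.absNorm_eq_zero_iff] using b₁.ne
  have n₂ : (Ideal.absNorm I₂ : ℂ) ≠ 0 := by simpa [Ideal.absNorm_eq_zero_iff] using b₂.ne
  have y₁ : (τ₁.im : ℂ) ≠ 0 := by exact_mod_cast τ₁.im_pos.ne'
  have y₂ : (τ₂.im : ℂ) ≠ 0 := by exact_mod_cast τ₂.im_pos.ne'
  have u : ∀ m : ℕ, m.Coprime M → ε m ≠ 0 := fun m hm h0 =>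
    (hε.zero _).mp h0 (Nat.isCoprime_iff_coprime.mpr hm)
  have u₁ := u _ b₁.cp
  have u₂ := u _ b₂.cp
  have uD := u _ hD
  have hT := (jt_re k).2
  have cT := cj_th c
  have v₁ := b₁.vol c h₁
  have v₂ := b₂.vol c h₂
  have hN : (Ideal.absNorm I₁ : ℂ) * Ideal.absNorm I₂ =
      4 * D * (J r₁ * conj (J r₁)) * (J r₂ * conj (J r₂)) * τ₁.im * τ₂.im := by
    have : (Ideal.absNorm I₁ : ℂ) * Ideal.absNorm I₂ =
        (-(Ideal.absNorm I₁ : ℂ)) * (-(Ideal.absNorm I₂ : ℂ)) := by ring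
    rw [this, ← v₁, ← v₂]
    linear_combination 4 * (J r₁ * conj (J r₁)) * (J r₂ * conj (J r₂)) * τ₁.im * τ₂.im *
      (J θ ^ 2 * Complex.I_sq - hT)
  have w₁ : ω₁ ≠ 0 := by
    rintro rfl
    rw [← mul_assoc (J θ), o₁] at v₁
    exact n₁ (by simpa using v₁)
  have w₂ : ω₂ ≠ 0 := by
    rintro rfl
    rw [← mul_assoc (J θ), o₂] at v₂
    exact n₂ (by simpa using v₂)
  have eb := pp_be k h.pos h₁ h₂ X
  have ea := pp_al c k h.pos h₁ h₂ X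
  have cb := congrArg conj eb
  have ca := congrArg conj ea
  simp only [map_mul, map_natCast, cT, Complex.conj_conj] at cb ca
  have jy : J y = J (be θ M q₁ r₁ q₂ r₂ X) / (M * Ideal.absNorm I₁ * Ideal.absNorm I₂) := by
    rw [hy]; simp
  have jx : J x = J (al θ s M q₁ r₁ q₂ r₂ X) / (M * Ideal.absNorm I₁ * Ideal.absNorm I₂) := by
    rw [hx]; simp
  have hA : (Ideal.absNorm (n * I₁ * I₂) : ℂ) = M * Ideal.absNorm I₁ * Ideal.absNorm I₂ := by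
    rw [map_mul, map_mul, h.nm]; push_cast; rfl
  have zA : Ideal.absNorm (n * I₁ * I₂) * (‖J y‖ : ℂ) ^ 2 =
      J (be θ M q₁ r₁ q₂ r₂ X) * conj (J (be θ M q₁ r₁ q₂ r₂ X)) /
        (M * Ideal.absNorm I₁ * Ideal.absNorm I₂) := by
    rw [hA, nsq, jy]
    simp only [map_div₀, map_mul, map_natCast]
    field_simp
  have zB : Ideal.absNorm B * (‖J x‖ : ℂ) ^ 2 * τ' =
      J (al θ s M q₁ r₁ q₂ r₂ X) * conj (J (al θ s M q₁ r₁ q₂ r₂ X)) /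
        (M * Ideal.absNorm I₁ * Ideal.absNorm I₂) * τ := by
    rw [hB, nsq, jx, hτ]
    have : (M : ℂ) = e * f := by rw [← hef, Nat.cast_mul]
    simp only [map_div₀, map_mul, map_natCast]
    push_cast
    field_simp
    rw [this]
    ring
  have xb : J (be θ M q₁ r₁ q₂ r₂ X) * conj (J (be θ M q₁ r₁ q₂ r₂ X)) /
      (M * Ideal.absNorm I₁ * Ideal.absNorm I₂) = M * D *
        (pp M (M * D) τ₁ τ₂ X * conj (pp M (M * D) τ₁ τ₂ X)) / (4 * τ₁.im * τ₂.im) := by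
    rw [div_eq_div_iff (by simp [hM, n₁, n₂]) (by simp [y₁, y₂]), cb, eb,
      mul_assoc (M : ℂ) (Ideal.absNorm I₁ : ℂ), hN]
    linear_combination (pp M (M * D) τ₁ τ₂ X * conj (pp M (M * D) τ₁ τ₂ X)) * M ^ 2 * 4 *
      (J r₁ * conj (J r₁)) * (J r₂ * conj (J r₂)) * τ₁.im * τ₂.im * (J θ ^ 2 - D) * hT
  have xa : J (al θ s M q₁ r₁ q₂ r₂ X) * conj (J (al θ s M q₁ r₁ q₂ r₂ X)) /
      (M * Ideal.absNorm I₁ * Ideal.absNorm I₂) = M * D * (pp M (M * D) (conj τ₁) τ₂ X *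
        conj (pp M (M * D) (conj τ₁) τ₂ X)) / (4 * τ₁.im * τ₂.im) := by
    rw [div_eq_div_iff (by simp [hM, n₁, n₂]) (by simp [y₁, y₂]), ca, ea,
      mul_assoc (M : ℂ) (Ideal.absNorm I₁ : ℂ), hN]
    linear_combination (pp M (M * D) (conj τ₁) τ₂ X * conj (pp M (M * D) (conj τ₁) τ₂ X)) *
      M ^ 2 * 4 * (J r₁ * conj (J r₁)) * (J r₂ * conj (J r₂)) * τ₁.im * τ₂.im * (J θ ^ 2 - D) * hT
  have ex : ((M * D : ℕ) : ℂ) * (τ * (‖pp M (M * D) (conj τ₁) τ₂ X‖ ^ 2 : ℝ) -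
      conj (τ : ℂ) * (‖pp M (M * D) τ₁ τ₂ X‖ ^ 2 : ℝ)) / (4 * τ₁.im * τ₂.im) =
      Ideal.absNorm B * (‖J x‖ : ℂ) ^ 2 * τ' -
        conj (Ideal.absNorm (n * I₁ * I₂) * (‖J y‖ : ℂ) ^ 2 * τ) := by
    rw [zB, xa, map_mul conj, map_mul conj, map_natCast, map_pow, Complex.conj_ofReal, zA, xb]
    push_cast
    rw [nsq, nsq]
    ring
  have co : a (Lt.id _ y) * (Ideal.absNorm (n * I₁ * I₂) * (‖J y‖ : ℂ) ^ 2) =
      a n * a I₁ * a I₂ * conj (J (be θ M q₁ r₁ q₂ r₂ X)) * (ε (-X.2.2.1) * ε D) /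
        (ε (Ideal.absNorm I₁) * ε (Ideal.absNorm I₂)) := by
    rw [zA]
    by_cases h0 : be θ M q₁ r₁ q₂ r₂ X = 0
    · simp [h0]
    · have t0 : ((M * Ideal.absNorm I₁ * Ideal.absNorm I₂ : 𝓞 K) : K) ≠ 0 := by
        exact_mod_cast mul_ne_zero (mul_ne_zero hM' b₁.nz) b₂.nz
      have := chr c k h hε ha b₁ b₂ X h0 (mul_id y (by rw [hy]; field_simp))
      field_simp
      linear_combination conj (J (be θ M q₁ r₁ q₂ r₂ X)) * this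
  have pf : ((M * D : ℕ) : ℂ) * conj (pp M (M * D) τ₁ τ₂ X) / (τ₁.im * τ₂.im * ω₁ * ω₂) =
      4 * conj (J (be θ M q₁ r₁ q₂ r₂ X)) := by
    rw [div_eq_iff (by simp [y₁, y₂, w₁, w₂]), cb]
    apply mul_left_cancel₀ (mul_ne_zero n₁ n₂)
    have : (Ideal.absNorm I₁ : ℂ) * Ideal.absNorm I₂ * (ω₁ * ω₂) = J θ * J r₁ * (J θ * J r₂) := by
      rw [o₁, o₂]; ring
    push_cast
    linear_combination M * D * conj (pp M (M * D) τ₁ τ₂ X) * hN -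
      4 * M * conj (pp M (M * D) τ₁ τ₂ X) * conj (J r₁) * conj (J r₂) * τ₁.im * τ₂.im *
        (J θ ^ 2 * this + J r₁ * J r₂ * (J θ ^ 2 - D) * hT)
  rw [gg, ex, ee_sub, co]
  calc _ = a n * (a I₁ / ε (Ideal.absNorm I₁)) * (a I₂ / ε (Ideal.absNorm I₂)) * ε (-X.2.2.1) *
        (((M * D : ℕ) : ℂ) * conj (pp M (M * D) τ₁ τ₂ X) / (τ₁.im * τ₂.im * ω₁ * ω₂)) *
        (ee (Ideal.absNorm B * (‖J x‖ : ℂ) ^ 2 * τ') *
          conj (ee (Ideal.absNorm (n * I₁ * I₂) * (‖J y‖ : ℂ) ^ 2 * τ))) := by ring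
    _ = _ := by
      rw [pf]
      field_simp

theorem hs {ι κ : Type} {p : ι → Prop} [DecidablePred p] {Φ : {X // p X} → κ}
    (bij : Function.Bijective Φ) {F : ι → ℂ} {G : κ → ℂ} {S S' : ℂ} (hG : HasSum G S)
    (h : ∀ X : {X // p X}, F X = G (Φ X)) (e : S' = S) :
    HasSum (fun X => if p X then F X else 0) S' := by
  rw [← (Equiv.ofBijective Φ bij).hasSum_iff] at hG
  rw [e, ← Function.Injective.hasSum_iff (g := (Subtype.val : {X // p X} → ι))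
    Subtype.val_injective (fun X hX => if_neg fun hd => hX ⟨⟨X, hd⟩, rfl⟩)]
  convert hG using 1
  funext X
  simp only [Function.comp_apply, if_pos X.2, Equiv.ofBijective_apply, h]

theorem hm {α β : Type} {f : α → ℂ} {g : β → ℂ} {S T : ℂ}
    (hf : (Summable fun x => ‖f x‖) ∧ HasSum f S) (hg : (Summable fun x => ‖g x‖) ∧ HasSum g T)
    (c : ℂ) : HasSum (fun x : α × β => c * (f x.1 * g x.2)) (c * (S * T)) :=
  (hf.2.mul hg.2 (summable_mul_of_summable_norm hf.1 hg.1)).mul_left c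

theorem piece (c : Cg J θ s) (k : Kd J D θ) (h : Sp M n n') (hD : D.Coprime M) (hε : Chr M ε)
    (ha : Ha J n' ε a) (b₁ : Ad θ s M n' I₁ q₁ r₁) (b₂ : Ad θ s M n' I₂ q₂ r₂) {τ₁ τ₂ : ℍ}
    (h₁ : J q₁ = J θ * J r₁ * τ₁) (h₂ : J q₂ = J θ * J r₂ * τ₂) {ω₁ ω₂ : ℂ}
    (o₁ : J θ * J r₁ = Ideal.absNorm I₁ * ω₁) (o₂ : J θ * J r₂ = Ideal.absNorm I₂ * ω₂)
    {e : ℕ} (he : e ∣ M) (τ : ℍ) :
    HasSum (fun X : ℤ × ℤ × ℤ × ℤ => if (M : ℤ) ∣ e * X.1 then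
      a n * (a I₁ / ε (Ideal.absNorm I₁)) * (a I₂ / ε (Ideal.absNorm I₂)) * (M * D : ℕ) /
        (τ₁.im * τ₂.im * ω₁ * ω₂) * gg M (M * D) ε τ₁ τ₂ τ X else 0)
      (8 / ε D * TA a (cl (n * I₁ * I₂)) τ *
        up (M / e) (TE (cl ((n' ⊔ Ideal.span {(e : 𝓞 K)}) * I₁.map s * I₂))) τ) := by
  have hM' : (M : 𝓞 K) ≠ 0 := by exact_mod_cast h.pos.ne'
  have ht : (M * Ideal.absNorm I₁ * Ideal.absNorm I₂ : 𝓞 K) ≠ 0 :=
    mul_ne_zero (mul_ne_zero hM' b₁.nz) b₂.nz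
  have hef : e * (M / e) = M := Nat.mul_div_cancel' he
  have hf : 0 < M / e := Nat.pos_of_ne_zero fun h0 => by
    have := h.pos
    rw [← hef, h0] at this
    simp at this
  have et : Ideal.span {(M * Ideal.absNorm I₁ * Ideal.absNorm I₂ : 𝓞 K)} =
      n * n' * (I₁ * I₁.map s) * (I₂ * I₂.map s) := by
    rw [h.mul, c.nm, c.nm, Ideal.span_singleton_mul_span_singleton,
      Ideal.span_singleton_mul_span_singleton]
  have eA : n * I₁ * I₂ * (n' * I₁.map s * I₂.map s) =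
      Ideal.span {(M * Ideal.absNorm I₁ * Ideal.absNorm I₂ : 𝓞 K)} := by rw [et]; ring
  have eB : (n' ⊔ Ideal.span {(e : 𝓞 K)}) * I₁.map s * I₂ *
      ((n' ⊔ Ideal.span {((M / e : ℕ) : 𝓞 K)}) * (n * I₁ * I₂.map s)) =
      Ideal.span {(M * Ideal.absNorm I₁ * Ideal.absNorm I₂ : 𝓞 K)} := by
    rw [et]
    conv_rhs => rw [← sup_mul h hef]
    ring
  have nz : ∀ {A A' : Ideal (𝓞 K)}, A * A' =
      Ideal.span {(M * Ideal.absNorm I₁ * Ideal.absNorm I₂ : 𝓞 K)} → A ≠ ⊥ := by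
    rintro _ A' e rfl
    exact ht (Ideal.span_singleton_eq_bot.mp (by rw [← e, Ideal.bot_mul]))
  have hτ : ((ofComplex (((M / e : ℕ) : ℂ) * τ) : ℍ) : ℂ) = ((M / e : ℕ) : ℂ) * τ := by
    rw [ofComplex_apply_of_im_pos]
    have := τ.im_pos
    simp only [Complex.mul_im, Complex.natCast_re, Complex.natCast_im, coe_im, zero_mul, add_zero]
    positivity
  have s5 := hm (ta k h hε ha (nz eA) τ) (te k (nz eB) (ofComplex (((M / e : ℕ) : ℂ) * τ)))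
    (4 / ε D)
  let Φ : {X : ℤ × ℤ × ℤ × ℤ // (M : ℤ) ∣ e * X.1} → Lv (n * I₁ * I₂) ×
      Lv ((n' ⊔ Ideal.span {(e : 𝓞 K)}) * I₁.map s * I₂) := fun X =>
    (toLv eA ht _ (be_mem h b₁ b₂ X), toLv eB ht _ ((al_iff c k h hD b₁ b₂ hef X).mpr X.2))
  have bij : Function.Bijective Φ := by
    refine ⟨fun X Y hXY => Subtype.ext (ab_inj c k h b₁ b₂
      (toLv_inj eB ht (Prod.mk.inj hXY).2) (toLv_inj eA ht (Prod.mk.inj hXY).1)), ?_⟩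
    rintro ⟨y, x⟩
    obtain ⟨β, hβ, rfl⟩ := toLv_surj eA ht y
    obtain ⟨α, hα, rfl⟩ := toLv_surj eB ht x
    obtain ⟨X, rfl, rfl⟩ := ab_surj c k h b₁ b₂ (Ideal.mul_le_right hα) hβ
    exact ⟨⟨X, (al_iff c k h hD b₁ b₂ hef X).mp hα⟩, rfl⟩
  refine hs bij s5 (fun X => ?_) (by rw [up]; ring)
  exact term c k h hD hε ha b₁ b₂ h₁ h₂ o₁ o₂ hef
    (by rw [map_mul, map_mul, sup_nm c h he, absNorm_map]) τ _ hτ X _ _ rfl rfl

end Cms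

open Cj Cms in
/-- **row CMS** -/
theorem cms : CMS := by
  intro K _ _ J D θ k M n n' ε a h hD hε ha I₁ I₂ I₁' ω₁ ω₂ τ₁ τ₂ c₁ c₂ e₁ B₁ B₂ a₁ a₂ τ
  obtain ⟨s, c⟩ := ex_cg k
  have nz : ∀ {I : Ideal (𝓞 K)}, (Ideal.absNorm I).Coprime (M * D) → I ≠ ⊥ := by
    rintro _ hI rfl
    have := k.md
    rw [Ideal.absNorm_bot, Nat.coprime_zero_left] at hI
    rw [Nat.eq_one_of_mul_eq_one_left hI] at this
    omega
  obtain rfl := c.uniq (nz c₁) e₁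
  obtain ⟨p₁, q₁, d₁⟩ := c.ex_ba k (nz c₁) B₁
  obtain ⟨p₂, q₂, d₂⟩ := c.ex_ba k (nz c₂) B₂
  obtain ⟨r₁, rfl, b₁⟩ := ex_ad c k h (nz c₁) c₁.coprime_mul_right_right d₁ a₁
  obtain ⟨r₂, rfl, b₂⟩ := ex_ad c k h (nz c₂) c₂.coprime_mul_right_right d₂ a₂
  have S := hasSum_sum (s := M.divisors) fun e he => (piece c k h hD hε ha b₁ b₂
    (by simpa using d₁.hq) (by simpa using d₂.hq) (ω₁ := J ω₁) (ω₂ := J ω₂) (by simpa using d₁.hp)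
    (by simpa using d₂.hp) (Nat.dvd_of_mem_divisors he) τ).mul_left ((μ e : ℂ) / e)
  rw [mul_div_right_comm, kV, ← tsum_mul_left, Finset.mul_sum]
  refine (tsum_congr fun X => ?_).trans (S.tsum_eq.trans (Finset.sum_congr rfl fun e _ => by ring))
  rw [ram, Finset.sum_mul, Finset.sum_mul, Finset.sum_mul, Finset.mul_sum]
  refine Finset.sum_congr rfl fun e _ => ?_
  split_ifs
  · rw [gg]
    ring
  · simp

end Vale.Agent.P004C.Wa
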