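import Vale.Agent.P004C.Wa.St
import Vale.Agent.P004N.H461.Op

/-!
# P004 C, block WA, row FRI: the Fricke involution
-/

set_option linter.all false

open UpperHalfPlane CongruenceSubgroup MeasureTheory P004N.H461
open scoped MatrixGroups Manifold ModularForm ComplexConjugate ENNReal

noncomputable section

namespace Vale.Agent.P004C.Wa

open Vale.Agent.P004Z.W2 Vale.Agent.P004.H26.H86

namespace Fi

/-! ### characters -/

section
variable {N : ℕ} {ε : ℤ → ℂ} (h : Chr N ε)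
include h

theorem chr_pow (a : ℤ) (k : ℕ) : ε (a ^ k) = ε a ^ k := by
  induction k with
  | zero => simp [h.one]
  | succ k ih => rw [pow_succ, h.mul, ih, pow_succ]

theorem chr_inv {a d : ℤ} (e : (N : ℤ) ∣ a * d - 1) : ε a * ε d = 1 := by
  rw [← h.mul, h.per _ _ e, h.one]

theorem chr_norm (hN : 0 < N) {a : ℤ} (e : IsCoprime a N) : conj (ε a) * ε a = 1 := by
  have : NeZero N := ⟨hN.ne'⟩
  obtain ⟨u, hu⟩ := (ZMod.coe_int_isUnit_iff_isCoprime a N).2 e.symm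
  have k : ε a ^ Fintype.card (ZMod N)ˣ = 1 := by
    rw [← chr_pow h, ← h.one]
    refine h.per _ _ ((ZMod.intCast_eq_intCast_iff_dvd_sub _ _ _).1 ?_)
    rw [Int.cast_pow, ← hu, ← Units.val_pow_eq_pow_val, pow_card_eq_one]
    simp
  rw [Complex.conj_mul', Complex.norm_eq_one_of_pow_eq_one k Fintype.card_ne_zero]
  simp

theorem chr_conj (hN : 0 < N) {a d : ℤ} (e : (N : ℤ) ∣ a * d - 1) : ε a = conj (ε d) := by
  obtain ⟨c, hc⟩ := id e
  linear_combination conj (ε d) * chr_inv h e -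
    ε a * chr_norm h hN (a := d) ⟨a, -c, by linear_combination hc⟩

theorem chr_bar : Chr N fun a => conj (ε a) :=
  ⟨by simp [h.one], fun a b => by simp [h.mul], fun a b e => by rw [h.per a b e],
    fun a => by rw [← h.zero, map_eq_zero], by simp [h.odd]⟩

end

/-! ### the slash operator of weight one -/

/-- slash action of weight one of an integer matrix -/
def s1 (F : ℍ → ℂ) (m : M2) : ℍ → ℂ := if h : 0 < m.det then F ∣[(1 : ℤ)] gl m h else 0

variable {F G : ℍ → ℂ} {m n : M2} {N : ℕ} {ε : ℤ → ℂ}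

theorem s1_pos (h : 0 < m.det) : s1 F m = F ∣[(1 : ℤ)] gl m h := dif_pos h

theorem s1_mul (hm : 0 < m.det) (hn : 0 < n.det) : s1 F (m * n) = s1 (s1 F m) n := by
  have h : 0 < (m * n).det := by rw [Matrix.det_mul]; positivity
  rw [s1_pos h, s1_pos hn, s1_pos hm, gl_mul m n hm hn, SlashAction.slash_mul]

theorem s1_SL (γ : SL(2, ℤ)) : s1 F γ.1 = F ∣[(1 : ℤ)] γ := by
  rw [s1_pos (by simp), gl_SL, ModularForm.SL_slash]

theorem gl_smul (h : 0 < m.det) (z : ℍ) : gl m h • z =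
    ofComplex (((m 0 0 : ℂ) * z + (m 0 1 : ℂ)) / ((m 1 0 : ℂ) * z + (m 1 1 : ℂ))) := by
  rw [← coe_smul_gl m h, ofComplex_apply]

theorem s1_gl (h : 0 < m.det) (z : ℍ) :
    s1 F m z = F (gl m h • z) / ((m 1 0 : ℂ) * z + (m 1 1 : ℂ)) := by
  rw [s1_pos h, ModularForm.slash_apply, σ_gl, denom_gl]
  simp [div_eq_mul_inv]

theorem s1_smul (c : ℂ) : s1 (c • F) m = c • s1 F m := by
  by_cases h : 0 < m.det
  · rw [s1_pos h, s1_pos h, ModularForm.smul_slash, σ_gl]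
  · simp [s1, h]

theorem s1_sum {ι : Type*} (s : Finset ι) (F : ι → ℍ → ℂ) :
    s1 (∑ i ∈ s, F i) m = ∑ i ∈ s, s1 (F i) m := by
  by_cases h : 0 < m.det
  · simp only [s1_pos h]
    rw [SlashAction.sum_slash]
  · simp [s1, h]

theorem s1_bdd (hF : ∀ γ : SL(2, ℤ), IsBoundedAtImInfty (F ∣[(1 : ℤ)] γ)) (h : 0 < m.det)
    (γ : SL(2, ℤ)) : IsBoundedAtImInfty (s1 F m ∣[(1 : ℤ)] γ) := by
  obtain ⟨δ, a, b, d, k, e⟩ := hermite (m * γ.1) (by simpa using h)
  have hd : 0 < (!![a, b; 0, d] : M2).det := by simpa using k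
  rw [← s1_SL, ← s1_mul h (by simp), e, s1_mul (by simp) hd, s1_SL, s1_pos hd]
  exact IsBoundedAtImInfty.slash 1 (by simp [gl_apply]) (hF δ)

theorem jj_ne (γ : SL(2, ℤ)) (τ : ℍ) : jj γ τ ≠ 0 := by
  have := denom_ne_zero (gl γ.1 (by simp)) τ
  rwa [denom_gl] at this

theorem s1_jj (γ : SL(2, ℤ)) (τ : ℍ) : s1 F γ.1 τ = F (γ • τ) / jj γ τ := by
  rw [s1_gl (by simp), gl_SL]
  rfl

theorem inv (h : MW N ε F) (hm : G0 N m) : s1 F m = ε (m 1 1) • F := funext fun τ => by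
  refine (s1_jj ⟨m, hm.1⟩ τ).trans ((div_eq_iff (jj_ne _ τ)).2 ?_)
  exact (h.law ⟨m, hm.1⟩ ((G0_iff N _).2 hm) τ).trans (mul_right_comm _ _ _)

/-- the translate of a form -/
theorem mw_s1 {N' : ℕ} {ε' : ℤ → ℂ} (h : MW N ε F) (hn : 0 < n.det)
    (k : ∀ m, G0 N' m → ∃ m', G0 N m' ∧ n * m = m' * n ∧ ε (m' 1 1) = ε' (m 1 1)) :
    MW N' ε' (s1 F n) := by
  refine ⟨s1_pos (F := F) hn ▸ h.hol.slash 1 _, fun γ hγ τ => ?_, s1_bdd h.bdd hn⟩
  obtain ⟨m', a, b, c⟩ := k _ ((G0_iff N' γ).1 hγ)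
  rw [← div_mul_cancel₀ (s1 F n (γ • τ)) (jj_ne γ τ), ← s1_jj, ← s1_mul hn (by simp), b,
    s1_mul a.det hn, inv h a, s1_smul, c, Pi.smul_apply, smul_eq_mul]
  ring

theorem up_eq {t : ℕ} (ht : 0 < t) : up t F = s1 F !![t, 0; 0, 1] := funext fun τ => by
  rw [s1_gl (by simpa using ht), gl_smul]
  simp [up]

theorem mw_up (h : MW N ε F) {t : ℕ} (ht : 0 < t) : MW (N * t) ε (up t F) := by
  rw [up_eq ht]
  refine mw_s1 h (by simpa using ht) fun m ⟨a, c, e⟩ =>
    ⟨!![m 0 0, t * m 0 1; N * c, m 1 1], ⟨?_, by simp⟩, ?_, by simp⟩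
  · rw [← a, Matrix.det_fin_two m, e]
    simp
    ring
  · ext i j
    fin_cases i <;> fin_cases j <;> simp [Matrix.mul_apply, e] <;> ring

/-! ### the involution -/

/-- the matrix of Fricke -/
def Wm (N : ℕ) : M2 := !![0, -1; N, 0]

/-- conjugation by it -/
def fl (N : ℕ) (m : M2) : M2 := !![m 1 1, -(m 1 0 / N); -(N * m 0 1), m 0 0]

theorem W_det (hN : 0 < N) : 0 < (Wm N).det := by simpa [Wm] using hN

theorem W_mul (h : (N : ℤ) ∣ m 1 0) : Wm N * m = fl N m * Wm N ∧ m * Wm N = Wm N * fl N m := by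
  have := Int.mul_ediv_cancel' h
  constructor <;> ext i j <;> fin_cases i <;> fin_cases j <;>
    simp [Wm, fl, Matrix.mul_apply] <;> linarith

theorem fl_det (h : (N : ℤ) ∣ m 1 0) : (fl N m).det = m.det := by
  rw [Matrix.det_fin_two m, fl, Matrix.det_fin_two_of]
  linear_combination -m 0 1 * Int.mul_ediv_cancel' h

theorem fl_G0 (h : G0 N m) : G0 N (fl N m) := ⟨(fl_det h.2).trans h.1, by simp [fl]⟩

theorem fl_fl (hN : 0 < N) (h : (N : ℤ) ∣ m 1 0) : fl N (fl N m) = m := by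
  have := Int.mul_ediv_cancel' h
  have k : (N : ℤ) ≠ 0 := by exact_mod_cast hN.ne'
  ext i j
  fin_cases i <;> fin_cases j <;> simp [fl, this, Int.neg_ediv_of_dvd, Int.mul_ediv_cancel_left _ k]

theorem W_smul (hN : 0 < N) (τ : ℍ) : gl _ (W_det hN) • τ = ofComplex (-1 / (N * τ)) := by
  rw [gl_smul]
  simp [Wm]

theorem fr_eq (hN : 0 < N) : fr N F = s1 F (Wm N) := funext fun τ => by
  rw [s1_gl (W_det hN), W_smul hN]
  simp [fr, Wm]

theorem G0_dvd (h : G0 N m) : (N : ℤ) ∣ m 0 0 * m 1 1 - 1 := by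
  rw [← h.1, Matrix.det_fin_two, sub_sub_cancel]
  exact h.2.mul_left _

theorem mw_fr (hN : 0 < N) (hε : Chr N ε) (h : MW N ε F) :
    MW N (fun a => conj (ε a)) (fr N F) := by
  rw [fr_eq hN]
  exact mw_s1 h (W_det hN) fun m k => ⟨_, fl_G0 k, (W_mul k.2).1, chr_conj hε hN (G0_dvd k)⟩

/-! ### Hecke operators -/

theorem hk_iff {p : ℕ} (hp : p.Prime) {x : ℂ} :
    Hk ε F p x ↔ ∑ i, ε (al p i 0 0) • s1 F (al p i) = x • F := by
  have d : ∀ i, 0 < (al p i).det := fun i => by rw [al_det]; exact_mod_cast hp.pos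
  rw [funext_iff]
  refine forall_congr' fun τ => Eq.congr_left ?_
  rw [Nat.sum_divisorsAntidiagonal fun a b => ε a * ∑ j ∈ Finset.range b,
    F (ofComplex ((a * τ + j) / b)) / b, hp.sum_divisors, Nat.div_self hp.pos, Nat.div_one,
    Finset.sum_apply, Fintype.sum_option, Finset.sum_range, Finset.sum_range, Finset.mul_sum,
    Finset.mul_sum]
  simp only [Pi.smul_apply, s1_gl (d _), gl_smul]
  simp [al]

theorem hk_rep (hε : Chr N ε) (h : MW N ε F) {p : ℕ} (hp : p.Prime) (hN : ¬ p ∣ N)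
    {β : Option (Fin p) → M2} (h1 : ∀ i, (β i).det = p) (h2 : ∀ i, (N : ℤ) ∣ β i 1 0)
    (h3 : ∀ i i' δ, G0 N δ → β i = δ * β i' → i = i') :
    ∑ i, ε (β i 0 0) • s1 F (β i) = ∑ i, ε (al p i 0 0) • s1 F (al p i) := by
  choose j δ k e using fun i => al_rep hp hN (β i) (h1 i) (h2 i)
  refine Fintype.sum_bijective j (Finite.injective_iff_bijective.1 fun i i' q => ?_) _ _ fun i => ?_
  · refine h3 i i' (δ i * (δ i').adjugate) ⟨by simp [(k _).1, Matrix.det_adjugate], ?_⟩ ?_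
    · simpa [Matrix.mul_apply, Matrix.adjugate_fin_two] using
        ((k i).2.mul_right _).add ((k i').2.mul_left _).neg_right
    · rw [e i', e i, q, Matrix.mul_assoc, ← Matrix.mul_assoc (δ i').adjugate, Matrix.adjugate_mul,
        (k _).1]
      simp
  · have : (δ i * al p (j i)) 0 0 = δ i 0 0 * al p (j i) 0 0 := by
      cases j i <;> simp [al, Matrix.mul_apply]
    rw [e i, s1_mul (k i).det (by rw [al_det]; exact_mod_cast hp.pos), inv h (k i), s1_smul, this,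
      smul_smul, hε.mul, mul_right_comm, chr_inv hε (G0_dvd (k i)), one_mul]

theorem hk_fr (hN : 0 < N) (hε : Chr N ε) (h : MW N ε F) {p : ℕ} (hp : p.Prime)
    (hc : p.Coprime N) {x : ℂ} (k : Hk ε F p x) :
    Hk (fun a => conj (ε a)) (fr N F) p (conj (ε p) * x) := by
  have d : ∀ i, 0 < (al p i).det := fun i => by rw [al_det]; exact_mod_cast hp.pos
  have c : ∀ i, (N : ℤ) ∣ al p i 1 0 := fun i => by cases i <;> simp [al]
  rw [hk_iff hp] at k ⊢
  rw [fr_eq hN, mul_smul, ← s1_smul x, ← k, ← hk_rep hε h hp (hp.coprime_iff_not_dvd.1 hc)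
    (β := fun i => fl N (al p i)) (fun i => by rw [fl_det (c i), al_det]) (fun i => by simp [fl])
    fun i i' δ a b => al_inj hp i i' (fl N δ) (fl_G0 a).1 ?_, s1_sum, Finset.smul_sum]
  · refine Finset.sum_congr rfl fun i _ => ?_
    rw [← s1_mul (W_det hN) (d i), (W_mul (c i)).1, s1_smul, smul_smul,
      s1_mul ((fl_det (c i)).symm ▸ d i) (W_det hN)]
    cases i
    · simp [fl, al, hε.one]
    · simp [fl, al, hε.one, chr_norm hε hN (Nat.isCoprime_iff_coprime.2 hc)]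
  · refine (Matrix.isRegular_of_isLeftRegular_det
      (IsRegular.of_ne_zero (W_det hN).ne').left).left ?_
    simp only [← Matrix.mul_assoc, ← (W_mul a.2).2]
    rw [(W_mul (c i)).1, b, Matrix.mul_assoc, Matrix.mul_assoc, (W_mul (c i')).1]

/-! ### integrals -/

/-- two weights give the same integral -/
theorem wt_eq {Γ : Subgroup SL(2, ℤ)} {w w' φ : ℍ → ℝ≥0∞} (h : Wt Γ w) (h' : Wt Γ w')
    (m : Measurable φ) (i : ∀ γ ∈ Γ, ∀ z, φ (γ • z) = φ z) :
    ∫⁻ z, w z * φ z = ∫⁻ z, w' z * φ z := by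
  have := sl_countable
  have a : ∀ {w w' : ℍ → ℝ≥0∞}, Wt Γ w → Wt Γ w' →
      2 * ∫⁻ z, w z * φ z = ∑' γ : Γ, ∫⁻ z, w' (γ.1 • z) * (w z * φ z) := fun {w w'} h h' => by
    rw [← lintegral_tsum (f := fun (γ : Γ) z => w' (γ.1 • z) * (w z * φ z)) fun γ =>
      ((h'.meas.comp (mpS γ.1).measurable).mul (h.meas.mul m)).aemeasurable,
      ← lintegral_const_mul (f := fun z => w z * φ z) _ (h.meas.mul m)]
    exact lintegral_congr_ae (h'.two.mono fun z k => by simp only [ENNReal.tsum_mul_right, k])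
  refine (ENNReal.mul_right_inj two_ne_zero ENNReal.ofNat_ne_top).1 ?_
  rw [a h h', a h' h, ← (Equiv.inv Γ).tsum_eq]
  refine tsum_congr fun γ => ?_
  rw [← (mpS γ.1).lintegral_comp_emb (embS _)]
  simp only [i _ γ.2, Equiv.inv_apply, Subgroup.coe_inv, inv_smul_smul, mul_left_comm]

/-- the involution of the group -/
def fG (hN : 0 < N) : Gamma0 N ≃ Gamma0 N := Function.Involutive.toPerm
  (fun γ => ⟨⟨_, (fl_G0 ((G0_iff N _).1 γ.2)).1⟩, (G0_iff N _).2 (fl_G0 ((G0_iff N _).1 γ.2))⟩)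
  fun γ => Subtype.ext (Subtype.ext (fl_fl hN ((G0_iff N _).1 γ.2).2))

theorem W_SL (hN : 0 < N) (γ : Gamma0 N) (z : ℍ) :
    gl _ (W_det hN) • γ.1 • z = (fG hN γ).1 • gl _ (W_det hN) • z := by
  have h : Wm N * γ.1.1 = (fG hN γ).1.1 * Wm N := (W_mul ((G0_iff N _).1 γ.2).2).1
  rw [ModularGroup.sl_moeb, ModularGroup.sl_moeb, ← gl_SL, ← gl_SL, ← mul_smul, ← mul_smul,
    ← gl_mul _ _ _ _ (by simpa using W_det hN), ← gl_mul _ _ _ _ (by simpa using W_det hN)]
  simp only [h]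

theorem wt_W (hN : 0 < N) : Wt (Gamma0 N) fun z => wt (Gamma0 N) (gl _ (W_det hN) • z) := by
  refine ⟨(wt_wt _).meas.comp (mp _).measurable,
    ((mp (gl _ (W_det hN))).quasiMeasurePreserving.ae (wt_wt (Gamma0 N)).two).mono fun z k => ?_⟩
  rw [← k, ← (fG hN).tsum_eq fun γ => wt (Gamma0 N) (γ.1 • gl _ (W_det hN) • z)]
  exact tsum_congr fun γ => congrArg _ (W_SL hN γ z)

theorem W_W (hN : 0 < N) (z : ℍ) : gl _ (W_det hN) • gl _ (W_det hN) • z = z := by
  ext1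
  have : (N : ℂ) ≠ 0 := by exact_mod_cast hN.ne'
  have := z.ne_zero
  simp [coe_smul_gl, Wm]
  field_simp

theorem map_W (hN : 0 < N) {Φ : ℍ → ℂ} (m : Measurable Φ) (i : ∀ γ ∈ Gamma0 N, ∀ τ, Φ (γ • τ) = Φ τ) :
    (fm (Gamma0 N)).map (fun z => Φ (gl _ (W_det hN) • z)) = (fm (Gamma0 N)).map Φ := by
  have m' : Measurable fun z => Φ (gl _ (W_det hN) • z) := m.comp (mp _).measurable
  refine Measure.ext_of_lintegral _ fun φ p => ?_
  rw [lintegral_map p m, lintegral_map p m', fm,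
    lintegral_withDensity_eq_lintegral_mul _ (wt_wt _).meas (p.fun_comp m),
    lintegral_withDensity_eq_lintegral_mul _ (wt_wt _).meas (p.fun_comp m'),
    ← (mp (gl _ (W_det hN))).lintegral_comp ((wt_wt _).meas.mul (p.fun_comp m'))]
  simp only [Pi.mul_apply, W_W hN]
  exact wt_eq (wt_W hN) (wt_wt _) (p.comp m) fun γ k z => congrArg φ (i γ k z)

end Fi

open Fi in
theorem fri : FRI := fun N hN => by
  refine ⟨fun Φ m i t => ?_, fun ε G hε h => ⟨chr_bar hε, mw_fr hN hε h, fun t => mw_up h,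
    fun p x hp hc => hk_fr hN hε h hp hc⟩⟩
  have m' := (m.comp (mp (gl _ (W_det hN))).measurable).aemeasurable (μ := fm (Gamma0 N))
  simp only [← W_smul hN]
  refine ⟨(integrable_map_measure aestronglyMeasurable_id m').1 ?_, ?_⟩
  · rw [Function.comp_def, map_W hN m i]
    exact (integrable_map_measure aestronglyMeasurable_id m.aemeasurable).2 t
  · refine (integral_map m' aestronglyMeasurable_id).symm.trans ?_
    rw [Function.comp_def, map_W hN m i]
    exact integral_map m.aemeasurable aestronglyMeasurable_id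

end Vale.Agent.P004C.Wa
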