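import Vale.Agent.P004C.Wa.Gs

/-!
# P004 C, block WA: row FRK, the Fricke involution of the theta series
-/

set_option linter.all false
set_option autoImplicit false

open NumberField Module Ideal
open UpperHalfPlane hiding I
open scoped Classical Real ComplexConjugate

noncomputable section

namespace Vale.Agent.P004C.Wa.Tb

open Vale.Agent.P022 Vale.Agent.P022.H724 Vale.Agent.P022.H477

variable {L : Type} [Field L] [NumberField L] {sg : L → ℂ} {f : Ideal (𝓞 L)}
  {ψ : Ideal (𝓞 L) → ℂ} {B : QB L} {u : (𝓞 L)ˣ} {D : Set (𝓞 L)} {T : 𝓞 L →+ ℤ} {c : ℂ}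

theorem ex_adj (h2 : finrank ℚ L = 2) : ∃ a : Ideal (𝓞 L) ≃ Ideal (𝓞 L), a ⊥ = ⊥ ∧
    ∀ I, I * a I = span {(absNorm I : 𝓞 L)} ∧ absNorm (a I) = absNorm I := by
  have ex : ∀ I : Ideal (𝓞 L), ∃ J, I * J = span {(absNorm I : 𝓞 L)} ∧ absNorm J = absNorm I := by
    intro I
    rcases eq_or_ne I ⊥ with rfl | k
    · exact ⟨⊥, by simp⟩
    obtain ⟨J, e⟩ := dvd_iff_le.2 ((span_singleton_le_iff_mem I).2 (absNorm_mem I))
    have := congrArg absNorm e
    rw [absNorm_span_natCast, RingOfIntegers.rank, h2, map_mul, sq] at this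
    exact ⟨J, e.symm, (mul_left_cancel₀ (mt absNorm_eq_zero_iff.1 k) this).symm⟩
  choose a k l using ex
  have z : ∀ I, a I = ⊥ ↔ I = ⊥ := fun I => by rw [← absNorm_eq_zero_iff, l, absNorm_eq_zero_iff]
  have i : Function.Involutive a := fun I => by
    rcases eq_or_ne I ⊥ with rfl | n
    · rw [z, z]
    · exact mul_left_cancel₀ (mt (z I).1 n) (by rw [k, l, mul_comm, k])
  exact ⟨i.toPerm, (z _).2 rfl, fun I => ⟨k I, l I⟩⟩

theorem TS.dvd (H : TS B sg u D T c) {A : Ideal (𝓞 L)} (hA : A ≠ ⊥) {x t : 𝓞 L} (hx : x ∈ A)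
    (ht : t ∈ A) : (absNorm A : ℤ) ∣ T (cj B x * t) := by
  obtain ⟨φ, k, -⟩ := H.bas A hA
  have := k (φ.symm ⟨x, hx⟩) (φ.symm ⟨t, ht⟩)
  simp only [AddEquiv.apply_symm_apply] at this
  exact ⟨_, this⟩

theorem TS.dual (H : TS B sg u D T c) {A : Ideal (𝓞 L)} (hA : A ≠ ⊥) {x : 𝓞 L}
    (h : ∀ t ∈ A, (absNorm A : ℤ) ∣ T (cj B x * t)) : x ∈ A := by
  obtain ⟨φ, k, -⟩ := H.bas A hA
  have n : (absNorm A : ℤ) ≠ 0 := Nat.cast_ne_zero.2 (mt absNorm_eq_zero_iff.1 hA)
  obtain ⟨v, hv⟩ := φ.surjective ⟨absNorm A * x, A.mul_mem_right _ (absNorm_mem A)⟩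
  have e : ∀ w : ℤ × ℤ, (absNorm A : ℤ) ∣ v.1 * w.2 - v.2 * w.1 := fun w => by
    have := k v w
    rw [hv, (cj B).map_mul, map_natCast, mul_assoc, ← nsmul_eq_mul, map_nsmul, nsmul_eq_mul] at this
    exact mul_left_cancel₀ n this ▸ h _ (φ w).2
  obtain ⟨a, ha⟩ : (absNorm A : ℤ) ∣ v.1 := by simpa using e (0, 1)
  obtain ⟨b, hb⟩ : (absNorm A : ℤ) ∣ v.2 := by simpa using e (1, 0)
  have := phi_smul φ (absNorm A) (a, b)
  rw [show (absNorm A : ℤ) • (a, b) = v from Prod.ext ha.symm hb.symm, hv] at this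
  rw [mul_left_cancel₀ (Int.cast_ne_zero.2 n) ((by simpa using this) : _ * x = _ * φ (a, b))]
  exact (φ _).2

theorem psi_cop (h : RC sg f ψ) {I : Ideal (𝓞 L)} (I0 : I ≠ ⊥) {n : 𝓞 L} (hn : n ∈ f)
    (k : IsCoprime I (span {n})) : ψ I ≠ 0 := fun e =>
  ((h.zero _).1 e).elim I0 fun l => l (eq_top_mono
    (sup_le_sup_left ((span_singleton_le_iff_mem _).2 hn) _) (isCoprime_iff_sup_eq.1 k))

theorem sg_conj (hS : Sg sg) (x : L) : conj (sg x) = sg x := by
  rcases hS with ⟨-, e⟩ | ⟨σ, e⟩ <;> simp [e]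

theorem TS.psi (H : TS B sg u D T c) (hS : Sg sg) (h : RC sg f ψ) (hf : f ≠ ⊤) {ι : Type}
    [Fintype ι] {R : ι → Ideal (𝓞 L)} (hR : Sys R) (r0 : ∀ i, ψ (R i) ≠ 0) {w : ℂ} (hw : 0 < w.im) :
    HasSum (fun I => ψ I * ee (absNorm I * w)) (((Subgroup.zpowers u).index : ℂ)⁻¹ *
      ∑ i, (ψ (R i))⁻¹ * tI (R i) (W (sg ·) D (chi sg ψ)) w) := by
  simp only [← tI_mul]
  refine H.dec hS hR (psi_bot hS h) (psi_le hS h hf) (fun i x I e => ?_) hw
  rw [chi, ← e, h.mul]
  rcases eq_or_ne x 0 with rfl | x0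
  · rw [span_singleton_zero, Ideal.mul_eq_bot] at e
    simp [e.resolve_left (hR.1 i), psi_bot hS h]
  · have := r0 i
    field_simp
    rw [sq, sg_sq hS (by simpa using x0), mul_one]

theorem core (h2 : finrank ℚ L = 2) (hS : Sg sg) (h : RC sg f ψ) (hf : f ≠ ⊤) (hP : Pm sg f ψ) :
    ∃ κ : ℂ, (∀ V : AbsoluteValue ℂ ℝ, IsNonarchimedean V → V 2 < 1 →
      (f ⊔ span {2} = ⊤ ∨ ((span {(2 : 𝓞 L)}).IsPrime ∧
        ∃ f' : Ideal (𝓞 L), f = span {2} * f' ∧ f' ⊔ span {2} = ⊤)) →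
      V κ ^ 2 * V ((discr L).natAbs * absNorm f : ℕ) = 1) ∧
    (∀ w : ℂ, 0 < w.im → Summable fun I => ψ I * ee (absNorm I * w)) ∧ ∀ w : ℂ, 0 < w.im →
      ∑' I, ψ I * ee (absNorm I * (-1 / ((discr L).natAbs * absNorm f * w))) =
        κ * ((discr L).natAbs * absNorm f * w) * ∑' I, conj (ψ I) * ee (absNorm I * w) := by
  obtain ⟨B, u, D, T, c, H⟩ := ts h2 hS
  have := finiteQuotientOfFreeOfNeBot f h.ne
  have := Fintype.ofFinite (𝓞 L ⧸ f)
  obtain ⟨a, a0, ha⟩ := ex_adj h2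
  have M0 := mt absNorm_eq_zero_iff.1 h.ne
  have M1 := N0 h.ne
  have Mf := absNorm_mem f
  have f0 : a f ≠ ⊥ := fun e => h.ne (a.injective (e.trans a0.symm))
  obtain ⟨C, g, g0, cC, hg⟩ := H494.cls L _ M0 (a f) f0
  have C0 : C ≠ ⊥ := fun e => g0 (by simpa [e] using hg.symm)
  let l : 𝓞 L → ℂ := fun x => ee (T (g * x) / absNorm f)
  have A : Lam f l := by
    refine ⟨fun x y => by simp only [l, mul_add, map_add, Int.cast_add, add_div, ee_add],
      fun x k => (ee_one M0).2 ?_, fun t k => ?_⟩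
    · obtain ⟨y, e⟩ := mem_span_singleton.1 ((ha f).1.le (mul_comm (a f) f ▸ mul_mem_mul
        (Ideal.mul_le_right (hg.ge (mem_span_singleton_self g))) k))
      rw [e, ← nsmul_eq_mul, map_nsmul, nsmul_eq_mul]
      exact dvd_mul_right _ _
    · have := H.nd (absNorm f) (g * t) fun y => by
        rw [mul_assoc, mul_comm t]; exact (ee_one M0).1 (k y)
      rw [Int.cast_natCast, ← span_singleton_le_span_singleton, ← dvd_iff_le, ← (ha f).1,
        ← span_singleton_mul_span_singleton, ← hg, mul_right_comm, mul_dvd_mul_iff_right f0] at this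
      exact (span_singleton_le_iff_mem _).1 (dvd_iff_le.1 ((cC.of_isCoprime_of_dvd_right
        ⟨_, (ha f).1.symm⟩).symm.dvd_of_dvd_mul_left this))
  obtain ⟨R, hR, cop⟩ := ex_sys (L := L) M0
  have r0 := fun i => psi_cop h (hR.1 i) Mf (cop i)
  have c0 := psi_cop h C0 Mf cC
  have d0 : (0 : ℝ) < (discr L).natAbs := Nat.cast_pos.2 (Int.natAbs_pos.2 (discr_ne_zero L))
  have d1 : ((discr L).natAbs : ℂ) ≠ 0 := by exact_mod_cast d0.ne'
  have d2 : ((√(discr L).natAbs : ℝ) : ℂ) ^ 2 = (discr L).natAbs := by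
    exact_mod_cast Real.sq_sqrt d0.le
  have d3 : ((√(discr L).natAbs : ℝ) : ℂ) ≠ 0 := fun e => d1 (by rw [← d2, e]; simp)
  have g1 := sg_sq hS (x := g) (by simpa using g0)
  refine ⟨-c * gs sg ψ f l 1 * ψ C * sg g / ((√(discr L).natAbs : ℝ) * absNorm f),
    fun V hV v2 k => ?_, fun w hw => (H.psi hS h hf hR r0 hw).summable, fun w hw => ?_⟩
  · obtain ⟨n, n0, e⟩ := (psi_fin hS h hf C).resolve_left c0
    have e1 := gs_val hS h hf A hP B hV v2 k
    have e2 := congrArg V d2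
    have := V.ne_zero M1
    have := V.ne_zero d1
    simp only [Nat.cast_mul, map_mul, map_div₀, V.map_neg, V_root four_pos H.c4, V_root n0 e,
      V_root two_pos ((sq _).trans g1), map_pow, div_pow, mul_pow, one_mul, mul_one, e1] at e2 ⊢
    rw [e2]
    field_simp
  have w0 : w ≠ 0 := fun e => by simp [e] at hw
  have hw' : 0 < (-1 / ((discr L).natAbs * absNorm f * w) : ℂ).im := by
    have : (0 : ℝ) < absNorm f := Nat.cast_pos.2 (Nat.pos_of_ne_zero M0)
    simpa [-Nat.cast_natAbs] using (H527.im_mob (x := 0) (y := -1) (z := 1) (d := 0) rfl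
      (w := (((discr L).natAbs * absNorm f : ℝ) : ℂ) * w)
      (by rw [Complex.im_ofReal_mul]; positivity)).2.1
  choose φ p1 p2 using fun i => H.bas (R i) (hR.1 i)
  have pc : PerO (absNorm f) (chi sg ψ) := fun x y =>
    chi_per hS h hf (by simpa using f.mul_mem_right y Mf)
  let P : ∀ i, 𝓞 L → ℤ × ℤ → ℂ := fun i x v =>
    chi sg ψ (φ i v) * ee (T (cj B x * φ i v) / (absNorm (R i * f) : ℕ))
  let F : ClassGroup (𝓞 L) → 𝓞 L → ℂ := fun i x =>
    ∑ y : Fin (absNorm f) × Fin (absNorm f), P i x (lft y)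
  have rf := fun i => mul_ne_zero (hR.1 i) h.ne
  have rn := fun i => mt absNorm_eq_zero_iff.1 (rf i)
  have sup : ∀ i, ∀ x ∈ R i, F i x ≠ 0 → x ∈ R i * f := fun i x hx n =>
    H.dual (rf i) fun t ht => by
      have k : ∀ v w, (φ i w : 𝓞 L) ∈ f → P i x (v + w) =
          P i x v * ee (T (cj B x * φ i w) / (absNorm (R i * f) : ℕ)) := fun v w k => by
        simp only [P, map_add, AddMemClass.coe_add, mul_add, Int.cast_add, add_div, ee_add]
        rw [chi_per hS h hf (y := φ i v) (by simpa using k), mul_assoc]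
      have := sum_shift (Nat.pos_of_ne_zero M0) (P := P i x) (fun v w => by
        rw [k _ _ (by rw [phi_smul]; exact f.mul_mem_right _ (by simpa using Mf)),
          (ee_one (rn i)).2, mul_one]
        rw [phi_smul, mul_left_comm, ← zsmul_eq_mul, map_zsmul, smul_eq_mul, map_mul, Nat.cast_mul,
          mul_comm]
        exact mul_dvd_mul_left _ (H.dvd (hR.1 i) hx (φ i w).2))
        ((φ i).symm ⟨t, Ideal.mul_le_left ht⟩)
      simp only [k _ _ (show ((φ i) ((φ i).symm ⟨t, Ideal.mul_le_left ht⟩) : 𝓞 L) ∈ f by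
        simpa using Ideal.mul_le_right ht), ← Finset.sum_mul, AddEquiv.apply_symm_apply] at this
      exact (ee_one (rn i)).1 ((mul_right_eq_self₀.1 this).resolve_right n)
  have val : ∀ i x I, R i * f * I = span {x} → (ψ (R i))⁻¹ * F i x * sg (cj B x) =
      absNorm f * gs sg ψ f l 1 * ψ C * sg g * conj (ψ (a I)) := fun i x I e => by
    obtain ⟨z, hz, y, hy, e1⟩ := Submodule.mem_sup.1 ((eq_top_iff_one _).1
      (isCoprime_iff_sup_eq.1 ((cop i).mul_left cC)))
    have z1 : z - 1 ∈ f := by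
      rw [← e1]; simpa using (span_singleton_le_iff_mem _).2 Mf hy
    have hx : x ∈ R i * f := Ideal.mul_le_left (e.ge (mem_span_singleton_self x))
    have k : ∀ r, cj B x * z = absNorm (R i) * g * r →
        F i x = absNorm f * (conj (chi sg ψ r) * gs sg ψ f l 1) := fun r e => by
      rw [← gs_eq hS h hf A hP, gs, ← Sf_lat h.ne (gs_pf hS h hf A r) (φ i) (Ideal.mul_le_left hz) z1]
      refine Finset.sum_congr rfl fun v _ => congrArg (HMul.hMul _) ?_
      obtain ⟨n, hn⟩ := H.dvd (rf i) hx (mul_mem_mul (φ i (lft v)).2 z1)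
      have e2 : (absNorm (R i) : ℤ) * T (g * (r * φ i (lft v))) =
          T (cj B x * φ i (lft v)) + absNorm (R i * f) * n := by
        rw [← hn, ← map_add, ← nsmul_eq_mul, ← map_nsmul, nsmul_eq_mul]
        congr 1
        linear_combination (-φ i (lft v) : 𝓞 L) * e
      have e3 : (T (g * (r * φ i (lft v))) : ℂ) / absNorm f =
          T (cj B x * φ i (lft v)) / (absNorm (R i * f) : ℕ) + (n : ℂ) / (1 : ℕ) := by
        have := congrArg (Int.cast : ℤ → ℂ) e2
        have n1 := N0 (hR.1 i)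
        rw [map_mul absNorm] at this ⊢
        push_cast at this ⊢
        field_simp
        linear_combination this
      rw [show l _ = ee _ from rfl, e3, ee_add, (ee_one one_ne_zero).2 (one_dvd _), mul_one]
    rcases eq_or_ne x 0 with rfl | x0
    · rw [span_singleton_zero, Ideal.mul_eq_bot] at e
      rw [k 0 (by simp), e.resolve_left (rf i), a0]
      simp [chi, psi_bot hS h]
    have I0 : I ≠ ⊥ := fun n => x0 (by simpa [n] using e.symm)
    obtain ⟨Z, hZ⟩ := dvd_iff_le.2 ((span_singleton_le_iff_mem _).2 hz)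
    have e2 : span {cj B x * z} = span {(absNorm (R i) : 𝓞 L) * g} * (a I * Z) := by
      have e3 : span {x} * span {cj B x} = span {((absNorm (span {x}) : ℕ) : 𝓞 L)} := by
        rw [span_singleton_mul_span_singleton, mul_cj, absNorm_span_singleton]
        rcases Int.natAbs_eq (Algebra.norm ℤ x) with q | q <;> rw [q] <;> simp
      rw [← e, map_mul, map_mul, Nat.cast_mul, Nat.cast_mul, ← span_singleton_mul_span_singleton,
        ← span_singleton_mul_span_singleton, ← (ha f).1, ← (ha I).1] at e3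
      rw [← span_singleton_mul_span_singleton, ← span_singleton_mul_span_singleton, hZ, ← hg]
      refine mul_left_cancel₀ (mul_ne_zero h.ne I0) ?_
      convert congrArg (· * (C * Z)) e3 using 1 <;> ring
    obtain ⟨r, hr⟩ := mem_span_singleton.1 (Ideal.mul_le_left (e2.le (mem_span_singleton_self _)))
    have n0 : (absNorm (R i) : 𝓞 L) * g ≠ 0 :=
      mul_ne_zero (Nat.cast_ne_zero.2 (mt absNorm_eq_zero_iff.1 (hR.1 i))) g0
    rw [hr, ← span_singleton_mul_span_singleton] at e2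
    have e3 := mul_left_cancel₀ (mt span_singleton_eq_bot.1 n0) e2
    have e4 := chi_one hS h hf z1
    rw [chi, hZ, h.mul, h.mul] at e4
    have z0 : z ≠ 0 := fun n => hf ((eq_top_iff_one f).2 (by simpa [n] using z1))
    have e5 : sg (cj B x) * sg z = sg g * sg r := by
      have := congrArg (fun t : 𝓞 L => sg t) hr
      simpa [sg_mul hS, sg_nat hS (Nat.pos_of_ne_zero (mt absNorm_eq_zero_iff.1 (hR.1 i)))] using this
    have e6 := psi_conj hS h hf (I := Z) fun n => by simp [n] at e4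
    have e7 := sg_sq hS (x := r) (by
      rw [Ne, RingOfIntegers.coe_eq_zero_iff]
      rintro rfl
      exact mul_ne_zero (cj_ne B x0) z0 (by simpa using hr))
    rw [k r hr, chi, e3, h.mul, map_mul, map_mul, sg_conj hS]
    have := r0 i
    field_simp
    linear_combination (gs sg ψ f l 1 * conj (ψ (a I))) * (ψ (R i) * ψ C * sg r * e5 +
      ψ (R i) * ψ C * sg g * e7 + ψ (R i) * ψ C * sg z * sg r * sg (cj B x) * e6 -
      conj (ψ Z) * sg r * sg (cj B x) * e4)
  have hs := H.dec hS (hR.mul h.ne) (s := fun x => sg (cj B x))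
    (F := fun i x => (ψ (R i))⁻¹ * F i x) (by simp [a0, psi_bot hS h])
    (C := ‖absNorm f * gs sg ψ f l 1 * ψ C * sg g‖) (fun I => by
      rw [norm_mul]
      exact mul_le_of_le_one_right (norm_nonneg _) (by simpa using psi_le hS h hf _)) val hw
  have tr : ∀ i, tI (R i) (W (sg ·) D (chi sg ψ)) (-1 / ((discr L).natAbs * absNorm f * w)) =
      -c * (discr L).natAbs * w / ((√(discr L).natAbs : ℝ) * absNorm f) *
        tI (R i * f) (W (fun x => sg (cj B x)) D (F i)) w := fun i => by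
    have n1 := N0 (hR.1 i)
    rw [p2 i _ (Nat.pos_of_ne_zero M0) _ (F i) pc (chi_unit hS h H.eta) (fun v => ?_) _ hw']
    · congr 1
      · field_simp
      refine ((Set.inclusion_injective (Ideal.mul_le_left : R i * f ≤ R i)).tsum_eq
        fun x hx => ?_).symm.trans (tsum_congr fun x => ?_)
      · exact ⟨⟨x, sup i x x.2 fun n => hx (by simp [tT, W, Set.indicator_apply, n])⟩, rfl⟩
      · rw [tT, tT, map_mul absNorm (R i)]
        congr 2
        push_cast
        field_simp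
    · simp only [F, P, hatF, Fintype.sum_prod_type, p1, lft, ee]
      refine Finset.sum_congr rfl fun s _ => Finset.sum_congr rfl fun t _ => ?_
      congr 2
      rw [map_mul]
      push_cast
      field_simp
  rw [(H.psi hS h hf hR r0 hw').tsum_eq, ← a.tsum_eq]
  have e := hs.tsum_eq
  simp only [mul_assoc _ (conj _), tsum_mul_left, tI_mul] at e
  simp only [tr, (ha _).2, mul_left_comm (ψ _)⁻¹, ← Finset.mul_sum]
  rw [mul_left_comm, ← e]
  field_simp

end Tb

open Tb Vale.Agent.P022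

theorem frk : FRK := by
  intro L _ _ h2 sg f ψ hS h hf hP
  obtain ⟨κ, k1, k2, k3⟩ := core h2 hS h hf hP
  obtain ⟨B⟩ := H724.exists_qb h2
  refine ⟨κ, k1, fun m T m0 mf hT hd τ => ?_⟩
  have sv : ∀ I, dp m ψ I =
      ∑ E ∈ T.powerset, (-1) ^ E.card * if (∏ P ∈ E, P) ∣ I then ψ I else 0 := fun I => by
    have e : ∀ E ∈ T.powerset, ((-1) ^ E.card * if (∏ P ∈ E, P) ∣ I then ψ I else 0) =
        ψ I * ∏ P ∈ E, -(if P ∣ I then (1 : ℂ) else 0) := fun E hE => by
      have : (∏ P ∈ E, P) ∣ I ↔ ∀ P ∈ E, P ∣ I := ⟨fun k P a =>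
        (Finset.dvd_prod_of_mem (fun P => P) a).trans k, Finset.prod_dvd_of_coprime fun P a Q b n => isCoprime_iff_sup_eq.2
          (((hT P).1 (Finset.mem_powerset.1 hE a)).1.coprime_of_ne
            ((hT Q).1 (Finset.mem_powerset.1 hE b)).1 n)⟩
      rw [Finset.prod_neg, Finset.prod_boole, if_congr this rfl rfl]
      split_ifs <;> ring
    rw [Finset.sum_congr rfl e, ← Finset.mul_sum, ← Finset.prod_one_add, dp]
    by_cases n : ψ I = 0
    · simp [n]
    split_ifs with k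
    · rw [Finset.prod_eq_one, mul_one]
      intro P hP
      rw [if_neg, neg_zero, add_zero]
      intro d
      obtain ⟨x, y, e⟩ := (Nat.isCoprime_iff_coprime.2 k).map (Int.castRingHom (𝓞 L))
      refine ((hT P).1 hP).1.ne_top ((eq_top_iff_one P).2 (e ▸ P.add_mem (P.mul_mem_left _ ?_)
        (P.mul_mem_left _ ?_)))
      · simpa using dvd_iff_le.1 d (absNorm_mem I)
      · simpa using ((hT P).1 hP).2.1
    · obtain ⟨P, a, b⟩ := exists_le_maximal (I ⊔ span {(m : 𝓞 L)}) fun e =>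
        k (cop_norm B (isCoprime_iff_sup_eq.2 e))
      have le := le_sup_left.trans b
      rw [Finset.prod_eq_zero ((hT P).2 ⟨a, b (mem_sup_right (mem_span_singleton_self _)),
        eq_top_mono (sup_le_sup_right le f) (not_not.1 fun c => n ((h.zero I).2 (Or.inr c)))⟩)
        (by simp [dvd_iff_le.2 le]), mul_zero]
  have im : ∀ t : ℕ, 0 < t → 0 < ((t : ℂ) * τ).im := fun t t0 => by
    simpa using mul_pos (Nat.cast_pos.2 t0) τ.im_pos
  have hw : 0 < (-1 / ((m ^ 2 : ℕ) * τ) : ℂ).im := by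
    simpa using (H527.im_mob (x := 0) (y := -1) (z := 1) (d := 0) rfl (im _ (pow_pos m0 2))).2.1
  rw [fr, tg, ofComplex_apply_of_im_pos hw]
  simp only [sv, Finset.sum_mul, mul_assoc, ite_mul, zero_mul, coe_mk]
  rw [Summable.tsum_finsetSum fun E _ => ?_, Finset.sum_div, Finset.mul_sum]
  swap
  · exact ((k2 _ hw).indicator {I | (∏ P ∈ E, P) ∣ I}).mul_left _
  refine Finset.sum_congr rfl fun E hE => ?_
  have A0 : ∏ P ∈ E, P ≠ ⊥ := Finset.prod_ne_zero_iff.2 fun P hP e =>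
    m0.ne' (by simpa [e] using ((hT P).1 (Finset.mem_powerset.1 hE hP)).2.1)
  obtain ⟨t, ht⟩ := (mul_dvd_mul_left _ (map_dvd absNorm (mul_dvd_mul_left f
    (Finset.prod_dvd_prod_of_subset E T (fun P => P) (Finset.mem_powerset.1 hE))))).trans hd
  have n0 := (pow_pos m0 2).ne'
  rw [ht] at n0
  have t0 := Nat.pos_of_ne_zero (right_ne_zero_of_mul n0)
  rw [ht, Nat.mul_div_cancel_left _ (Nat.pos_of_ne_zero (left_ne_zero_of_mul n0)), up, tg,
    ofComplex_apply_of_im_pos (im t t0), tsum_mul_left, ← (mul_right_injective₀ A0).tsum_eq]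
  · have n1 := N0 A0
    have n2 := N0 h.ne
    have n3 : (t : ℂ) ≠ 0 := Nat.cast_ne_zero.2 t0.ne'
    have n4 : ((discr L).natAbs : ℂ) ≠ 0 :=
      Nat.cast_ne_zero.2 (Int.natAbs_ne_zero.2 (discr_ne_zero L))
    have n5 := τ.ne_zero
    have e : ∀ I : Ideal (𝓞 L), ((absNorm (∏ P ∈ E, P) * absNorm I : ℕ) : ℂ) * (-1 /
        (((discr L).natAbs * (absNorm f * absNorm (∏ P ∈ E, P)) * t : ℕ) * τ)) =
        absNorm I * (-1 / ((discr L).natAbs * absNorm f * (t * τ))) := fun I => by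
      push_cast
      field_simp
    simp only [dvd_mul_right, if_true, h.mul, map_mul, e, mul_assoc (ψ _), tsum_mul_left]
    rw [k3 _ (im t t0)]
    push_cast
    field_simp
  · intro I hI
    obtain ⟨J, e⟩ : (∏ P ∈ E, P) ∣ I := by_contra fun n => hI (if_neg n)
    exact ⟨J, e.symm⟩

end Vale.Agent.P004C.Wa
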