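import Vale.Agent.P004C.Wa.Gen1
import Vale.Agent.P004C.Wa.Cj
import Vale.Agent.P004C.Wa.Fri

/-! # P004 C, block WA: the row `GEN` -/

open NumberField UpperHalfPlane CongruenceSubgroup ModularGroup MeasureTheory
open scoped MatrixGroups ComplexConjugate NumberTheorySymbols Classical

noncomputable section

namespace Vale.Agent.P004C.Wa

namespace Ge

theorem ee_add (x y : ℂ) : ee (x + y) = ee x * ee y := by rw [ee, ee, ee, mul_add, Complex.exp_add]

theorem geo {r : ℕ} (hr : r ≠ 0) {k : ℤ} (h : ¬ (r : ℤ) ∣ k) :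
    ∑ j ∈ Finset.range r, ee (k * j / r) = 0 := by
  have r' : (r : ℂ) ≠ 0 := Nat.cast_ne_zero.2 hr
  have e : ∀ j : ℕ, ee (k * j / r) = ee (k / r) ^ j := fun j => by
    rw [ee, ee, ← Complex.exp_nat_mul]
    ring_nf
  have := mul_geom_sum (ee (k / r)) r
  rw [← e, mul_div_cancel_right₀ _ r', show ee k = 1 by
    rw [ee, mul_comm, Complex.exp_int_mul_two_pi_mul_I], sub_self] at this
  simp only [e]
  refine (mul_eq_zero.1 this).resolve_left fun n => h ?_
  obtain ⟨c, hc⟩ := Complex.exp_eq_one_iff.1 (sub_eq_zero.1 n)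
  rw [mul_comm, mul_left_inj' Complex.two_pi_I_ne_zero, div_eq_iff r', mul_comm] at hc
  exact ⟨c, by exact_mod_cast hc⟩

theorem tw0 {ι : Type} {r : ℕ} (hr : r ≠ 0) (u : ι → ℂ) (k : ι → ℤ) (n : ℤ)
    (h : ∀ i, u i ≠ 0 → ¬ (r : ℤ) ∣ n + k i) :
    ∑ j ∈ Finset.range r, ee (n * j / r) * ∑' i, u i * ee (k i * j / r) = 0 := by
  have s : ∀ j : ℕ, (Summable fun i => u i * ee (k i * j / r)) ↔ Summable u := fun j => by
    rw [← summable_norm_iff, ← summable_norm_iff (f := u)]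
    refine summable_congr fun i => ?_
    rw [norm_mul, ee, show (k i * j / r : ℂ) = (k i * j / r : ℝ) by simp, Complex.norm_exp]
    simp only [Complex.mul_re, Complex.ofReal_im, Complex.ofReal_re]
    simp
  by_cases S : Summable u
  · simp only [← tsum_mul_left]
    rw [← Summable.tsum_finsetSum fun j _ => ((s j).2 S).mul_left _]
    refine (tsum_congr fun i => ?_).trans tsum_zero
    by_cases e : u i = 0
    · simp [e]
    simp only [mul_left_comm _ (u i), ← ee_add, ← add_div, ← add_mul, ← Int.cast_add,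
      ← Finset.mul_sum, geo hr (h i e), mul_zero]
  · simp only [tsum_eq_zero_of_not_summable (mt (s _).1 S), mul_zero, Finset.sum_const_zero]

theorem coe_up {t : ℕ} (ht : 0 < t) (σ : ℍ) : ((ofComplex (t * σ) : ℍ) : ℂ) = t * σ := by
  rw [ofComplex_apply_of_im_pos (by simpa using mul_pos (Nat.cast_pos.2 ht) σ.im_pos)]

variable {K : Type} [Field K] [NumberField K] {J : K →+* ℂ} {D : ℕ} {θ : 𝓞 K}

/-- the genus characters -/
theorem gch (h : Kd J D θ) {r : ℕ} (hr : Odd r) (d : r ∣ D) {I I' : Ideal (𝓞 K)} (hI : I ≠ ⊥)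
    (hI' : I' ≠ ⊥) (e : cl I = cl I') :
    J((Ideal.absNorm I : ℤ) * Ideal.absNorm I' | r) ≠ -1 := by
  obtain ⟨s, c⟩ := Cj.ex_cg h
  rw [cl, cl, dif_neg hI, dif_neg hI', ClassGroup.mk0_eq_mk0_iff] at e
  obtain ⟨v, u, hv, -, e⟩ := e
  have e1 : Ideal.span {v} * (I * I'.map s) = Ideal.span {u * Ideal.absNorm I'} := by
    rw [← mul_assoc, show Ideal.span {v} * I = _ from e, mul_assoc, c.nm,
      Ideal.span_singleton_mul_span_singleton]
  obtain ⟨z, hz⟩ := Ideal.span_singleton_le_span_singleton.1 (e1.ge.trans Ideal.mul_le_left)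
  rw [hz, ← Ideal.span_singleton_mul_span_singleton] at e1
  have e2 := c.ab z
  rw [← mul_left_cancel₀ (mt Ideal.span_singleton_eq_bot.1 hv) e1, map_mul, Cj.absNorm_map] at e2
  obtain ⟨k, hk⟩ := c.sub z
  obtain ⟨T, hT⟩ := c.fix (z + s z) (by rw [map_add, c.ss, add_comm])
  have k1 := congrArg (fun x : 𝓞 K => J x) hk
  have k2 := congrArg (fun x : 𝓞 K => J x) hT
  have e3 := congrArg (fun x : ℝ => (x : ℂ)) e2
  simp only [map_sub, map_add, map_mul, map_intCast, c.cj, RingOfIntegers.coe_eq_algebraMap,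
    Complex.ofReal_pow, ← Complex.mul_conj', Complex.ofReal_natCast, Nat.cast_mul,
    Complex.ofReal_mul] at k1 k2 e3
  have e4 : (2 : ℤ) ^ 2 * (Ideal.absNorm I * Ideal.absNorm I') = T ^ 2 + D * k ^ 2 := by
    refine Int.cast_injective (α := ℂ) ?_
    push_cast
    linear_combination 4 * e3 + congrArg (· ^ 2) k2 - congrArg (· ^ 2) k1 - k ^ 2 * (Cj.jt_re h).2
  intro n
  have := congrArg (J(· | r)) e4
  beta_reduce at this
  rw [jacobiSym.mul_left, n, jacobiSym.sq_one' (a := 2) (Int.isCoprime_iff_gcd_eq_one.1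
    (Nat.isCoprime_iff_coprime.2 (Nat.coprime_two_left.2 hr))), jacobiSym.mod_left' (a₂ := T ^ 2)
      (Int.modEq_iff_dvd.2 (by simpa using (Int.natCast_dvd_natCast.2 d).mul_right _)),
    jacobiSym.pow_left] at this
  nlinarith [sq_nonneg J(T | r)]

end Ge

open Ge

theorem gen (hT : THK) : GEN := by
  intro K _ _ J D θ h m n n' ε a H hs cop hε ha hH r t x y I I' hr hd ht _ _ _ _ hJ
  obtain ⟨tE, -, tA⟩ := hT K J D θ h
  obtain ⟨cA, lA, bA⟩ := (tA m n n' ε a hs hε ha).2 (cl I)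
  obtain ⟨D', rfl⟩ := hd
  have m0 := hs.pos
  have D0 := Nat.pos_of_ne_zero h.sqf.ne_zero
  have t0 : 0 < t := Nat.pos_of_dvd_of_pos ht (by positivity)
  have od : Odd r := (Nat.odd_mul.1 (show Odd (r * D') from Nat.odd_iff.2 (by
    have := h.md; omega))).1
  have := NeZero.mk hr.ne_zero
  have := NeZero.mk (show m ^ 2 * D' ≠ 0 by have := Nat.pos_of_mul_pos_left D0; positivity)
  have := NeZero.mk D0.ne'
  have := NeZero.mk m0.ne'
  have r' : (r : ℂ) ≠ 0 := Nat.cast_ne_zero.2 hr.ne_zero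
  have g0 : ∀ {N : ℕ} {γ : SL(2, ℤ)}, γ ∈ Gamma0 (r * (m ^ 2 * D')) → N ∣ r * (m ^ 2 * D') →
      γ ∈ Gamma0 N := fun hγ k => (ZMod.intCast_zmod_eq_zero_iff_dvd _ _).2
    ((Int.natCast_dvd_natCast.2 k).trans ((ZMod.intCast_zmod_eq_zero_iff_dvd _ _).1 hγ))
  have u1 := Fi.mw_up hH D0
  have u2 := Fi.mw_up (tE (cl I')) t0
  have e1 : ∀ d : ℤ, (m : ℤ) ∣ d - 1 → ε d = 1 := fun d k => (hε.per _ _ k).trans hε.one
  have j1 : ∀ (b : ℕ) (d : ℤ), (b : ℤ) ∣ d - 1 → J(d | b) = 1 := fun b d k =>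
    (jacobiSym.mod_left' (Int.modEq_iff_dvd.2 k).symm).trans (jacobiSym.one_left b)
  push_cast at hJ
  have nd : ∀ y : ℤ, y ∣ t * Ideal.absNorm I * Ideal.absNorm I' → ¬ (r : ℤ) ∣ y := fun y k j => by
    rw [jacobiSym.mod_left, Int.emod_eq_zero_of_dvd (j.trans k), jacobiSym.zero_left hr.one_lt] at hJ
    omega
  have I0 : I ≠ ⊥ := fun e => nd 0 (by simp [e]) (dvd_zero _)
  have I1 : I' ≠ ⊥ := fun e => nd 0 (by simp [e]) (dvd_zero _)
  rw [mul_left_comm]
  simp only [mul_right_comm _ (TA a (cl I) _) (up t _ _)]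
  refine core (ψ := fun d => conj (ε d) * J(d | r * D')) (ψ' := fun d => J(d | r * D') * ε d)
    (n₁ := Ideal.absNorm I) (n₂ := t * Ideal.absNorm I') hr (by rintro rfl; exact absurd od (by decide))
    (((Nat.Coprime.coprime_mul_right cop).symm.pow_left 2).mul_left
      (Nat.coprime_of_squarefree_mul h.sqf).symm)
    (u1.hol.continuous.mul u2.hol.continuous).measurable cA.measurable (fun γ hγ τ => ?_)
    (fun γ hγ => lA γ (g0 hγ ⟨1, by ring⟩)) (fun γ hγ => ?_) (fun d k => ?_) (fun j => ?_)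
    (by rw [← hJ]; ring_nf) (fun τ σ k => ?_) fun τ σ k => ?_
  · rw [u1.law γ (g0 hγ ⟨1, by ring⟩), u2.law γ (g0 hγ (by
      rw [← mul_left_comm, mul_comm]; exact mul_dvd_mul_right ht _))]
    ring
  · obtain ⟨c, hc⟩ := (ZMod.intCast_zmod_eq_zero_iff_dvd _ _).1 hγ
    have d := γ.det_coe
    rw [Matrix.det_fin_two, hc] at d
    push_cast at d
    have k1 := Fi.chr_norm hε m0 (a := γ 1 1) ⟨γ 0 0, -γ 0 1 * r * m * D' * c, by
      linear_combination d⟩
    have k2 := congrArg (Int.cast (R := ℂ)) (jacobiSym.sq_one (a := γ 1 1) (b := r * D')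
      (Int.isCoprime_iff_gcd_eq_one.1 ⟨γ 0 0, -γ 0 1 * m ^ 2 * c, by
        push_cast; linear_combination d⟩))
    push_cast at k2
    linear_combination J(γ 1 1 | r * D') ^ 2 * k1 + k2
  · push_cast at k
    simp only [e1 d ((dvd_mul_of_dvd_left (dvd_pow_self _ two_ne_zero) _).trans k),
      jacobiSym.mul_right' d hr.ne_zero (Nat.pos_of_mul_pos_left D0).ne',
      j1 D' d ((dvd_mul_left _ _).trans k), map_one, one_mul, mul_one]
  · obtain ⟨C1, p1, b1⟩ := mw_le hH fun d k => by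
      rw [e1 d ((dvd_pow_self _ two_ne_zero).trans (by exact_mod_cast k)), map_one]
    obtain ⟨C2, p2, b2⟩ := mw_le (tE (cl I')) fun d k => by simp [j1 _ d k]
    obtain ⟨B, b⟩ := th_le (Γ := Gamma (r * D' * m ^ 2)) (fun δ hδ z => by
      rw [lA δ (gm hδ).1, j1 _ _ ((Int.natCast_dvd_natCast.2 (dvd_mul_right _ _)).trans (gm hδ).2),
        e1 _ ((Int.natCast_dvd_natCast.2 (dvd_mul_of_dvd_right (dvd_pow_self _ two_ne_zero)
          _)).trans (gm hδ).2)]
      simp) bA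
    refine ⟨(C1 * ((r * D' : ℕ) * (1 : ℕ)) + C2 * ((t * r : ℕ) * r)) * B, fun τ σ k => ?_⟩
    obtain ⟨Y, Y0, hY, b⟩ := b τ
    have y := τ.im_pos
    have yi : σ.im = τ.im := by simpa using congrArg Complex.im k
    have k1 := b1 _ _ (hY.up (B := D' * j) D0 one_pos ((coe_up D0 σ).trans (by
      rw [k]; push_cast; field_simp)))
    have k2 := b2 _ _ (hY.up (B := t * j) (mul_pos t0 hr.pos) hr.pos ((coe_up t0 σ).trans (by
      rw [k]; push_cast; field_simp)))
    rw [← coe_im, coe_up ‹_›, Complex.mul_im, Complex.natCast_re, Complex.natCast_im, coe_im, yi,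
      zero_mul, add_zero] at k1 k2
    rw [norm_mul, norm_mul, norm_mul, norm_pow, Complex.norm_real, Real.norm_of_nonneg y.le]
    have D1 : (1 : ℝ) ≤ (r * D' : ℕ) := Nat.one_le_cast.2 D0
    have t1 : (1 : ℝ) ≤ t := Nat.one_le_cast.2 t0
    calc _ = ‖up (r * D') H σ‖ * ‖up t (TE (cl I')) σ‖ * τ.im * (‖TA a (cl I) τ‖ * τ.im) := by ring
      _ ≤ (C1 * ((r * D' : ℕ) * (1 : ℕ) * Y) + C2 * ((t * r : ℕ) * r * Y)) * (B * Y⁻¹) := by
        gcongr ?_ * ?_
        refine le_trans ?_ (add_le_add k1 k2)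
        rw [up, up]
        generalize ‖H _‖ = X
        generalize ‖TE (cl I') _‖ = Z
        nlinarith [mul_nonneg (sq_nonneg (X - Z)) y.le, mul_nonneg (sq_nonneg X) y.le,
          mul_nonneg (sq_nonneg Z) y.le, mul_nonneg (mul_nonneg (sq_nonneg X) y.le) (sub_nonneg.2 D1),
          mul_nonneg (mul_nonneg (sq_nonneg Z) y.le) (sub_nonneg.2 t1)]
      _ = _ := by field_simp
  · have e : ∀ j, up (r * D') H (σ j) = up (r * D') H (σ 0) := fun j => by
      have := hH.law (T ^ (D' * j : ℤ)) (by simp [coe_T_zpow]) (ofComplex ((r * D' : ℕ) * σ 0))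
      rw [up, up, show ofComplex _ = T ^ (D' * j : ℤ) • ofComplex ((r * D' : ℕ) * σ 0) from
        UpperHalfPlane.ext (by
          rw [coe_T_zpow_smul_eq, coe_up D0, coe_up D0, k, k]; push_cast; field_simp; ring), this]
      simp [jj, coe_T_zpow, hε.one]
    have z := tw0 hr.ne_zero (fun I'' : Ideal (𝓞 K) => if I'' ≠ ⊥ ∧ cl I'' = cl I' then
      ee (Ideal.absNorm I'' * (t * τ)) else 0) (fun I'' => Ideal.absNorm I'' * t) (-Ideal.absNorm I)
      fun I'' p q => by
        have p := (ite_ne_right_iff.1 p).1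
        refine gch h od (dvd_mul_right _ _) p.1 I1 p.2 ?_
        obtain ⟨c, hc⟩ := q
        rw [← hJ, ← one_mul J(_ | r), ← jacobiSym.sq_one' (a := t) (b := r)
          (Int.isCoprime_iff_gcd_eq_one.1 ((Nat.prime_iff_prime_int.1 hr).irreducible.coprime_iff_not_dvd.2
            (nd _ ⟨_, mul_assoc _ _ _⟩)).symm), ← jacobiSym.mul_left]
        exact jacobiSym.mod_left' (Int.modEq_iff_dvd.2 ⟨-c * t * Ideal.absNorm I', by
          linear_combination -t * Ideal.absNorm I' * hc⟩)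
    have g := geo hr.ne_zero (k := -Ideal.absNorm I) (dvd_neg.not.2
      (nd _ ((dvd_mul_left _ _).mul_right _)))
    simp only [e, mul_left_comm _ (up (r * D') H (σ 0)), ← Finset.mul_sum]
    refine mul_eq_zero_of_right _ ?_
    simp only [up, TE, coe_up t0]
    simp only [k, ite_mul, zero_mul, ← ee_add, mul_add, mul_one, Finset.sum_add_distrib,
      mul_left_comm _ (2 : ℂ), ← Finset.mul_sum, mul_div_assoc, mul_assoc, Int.cast_neg,
      Int.cast_mul, Int.cast_natCast] at z g ⊢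
    rw [z, g, mul_zero, add_zero]
  · have c : ∀ (N j : ℕ), conj (ee (N * (τ + j / r))) =
        conj (ee (N * τ)) * ee ((-N : ℤ) * j / r) := fun N j => by
      rw [mul_add, ee_add, map_mul, ee, ee, ee, ← Complex.exp_conj (_ * (_ * (_ / _)))]
      simp [mul_div_assoc, map_ofNat, neg_div]
    simp only [TA, k, c]
    refine Eq.trans (by simp only [ite_mul, zero_mul, mul_assoc]) (tw0 hr.ne_zero
      (fun I'' : Ideal (𝓞 K) => if cl I'' = cl I then
        a I'' * Ideal.absNorm I'' * conj (ee (Ideal.absNorm I'' * τ)) else 0)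
      (fun I'' => -Ideal.absNorm I'') (t * Ideal.absNorm I') fun I'' p q => ?_)
    obtain ⟨p, p'⟩ := ite_ne_right_iff.1 p
    refine gch h od (dvd_mul_right _ _) (fun e => p' (by simp [e])) I0 p ?_
    obtain ⟨c, hc⟩ := q
    rw [← hJ]
    exact jacobiSym.mod_left' (Int.modEq_iff_dvd.2 ⟨c * Ideal.absNorm I, by
      linear_combination Ideal.absNorm I * hc⟩)

end Vale.Agent.P004C.Wa
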