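import Vale.Agent.P004C.Wa.St
import Vale.Agent.P004Z.Kf.Cn2
import Vale.Agent.P017.H185.Cl2

/-!
# P004 C, block WA: genus theory
-/

set_option linter.all false

open NumberField Module Ideal
open scoped Classical NumberTheorySymbols

noncomputable section

namespace Vale.Agent.P004C.Wa.Gn

open Vale.Agent.P017.H185 Vale.Agent.P004Z.Kf

variable {K : Type} [Field K] [NumberField K]

theorem cl_eq {I : Ideal (𝓞 K)} (h : I ≠ ⊥) :
    cl I = ClassGroup.mk0 ⟨I, mem_nonZeroDivisors_of_ne_zero h⟩ := dif_neg h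

theorem cl_mul {I I' : Ideal (𝓞 K)} (h : I ≠ ⊥) (h' : I' ≠ ⊥) : cl (I * I') = cl I * cl I' := by
  rw [cl_eq h, cl_eq h', cl_eq (mul_ne_zero h h'), ← map_mul]
  rfl

theorem cl_one {I : Ideal (𝓞 K)} (h : I ≠ ⊥) : cl I = 1 ↔ ∃ x, I = span {x} := by
  rw [cl_eq h, ClassGroup.mk0_eq_one_iff]
  exact ⟨fun k => k.1, fun k => ⟨k⟩⟩

theorem cl_span (x : 𝓞 K) : cl (span {x}) = 1 := by
  by_cases h : span {x} = (⊥ : Ideal (𝓞 K))
  · exact dif_pos h
  · exact (cl_one h).2 ⟨x, rfl⟩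

theorem cl_surj (C : ClassGroup (𝓞 K)) : ∃ I, I ≠ ⊥ ∧ cl I = C := by
  obtain ⟨⟨I, h⟩, rfl⟩ := ClassGroup.mk0_surjective C
  exact ⟨I, nonZeroDivisors.ne_zero h, cl_eq (nonZeroDivisors.ne_zero h)⟩

theorem sq_inj {I I' : Ideal (𝓞 K)} (h : I * I = I' * I') : I = I' := by
  rw [← pow_two, ← pow_two] at h
  exact associated_iff_eq.1 (associated_of_dvd_dvd
    ((UniqueFactorizationMonoid.pow_dvd_pow_iff_dvd two_ne_zero).1 h.dvd)
    ((UniqueFactorizationMonoid.pow_dvd_pow_iff_dvd two_ne_zero).1 h.symm.dvd))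

variable {J : K →+* ℂ} {D : ℕ} {θ : 𝓞 K}

/-- the presentation of the field -/
theorem ex_qf (h : Kd J D θ) : ∃ q : QF K D, q.t = θ := by
  have e : (θ : K) ^ 2 = -(D : K) := by simpa using congrArg (algebraMap (𝓞 K) K) h.sq
  have d0 : (0 : ℚ) < D := by exact_mod_cast Nat.pos_of_ne_zero h.sqf.ne_zero
  have li : LinearIndependent ℚ ![(1 : K), θ] := by
    refine LinearIndependent.pair_iff.2 fun u v k => ?_
    have k1 : (u : K) ^ 2 + D * v ^ 2 = 0 := by
      rw [Rat.smul_def, Rat.smul_def] at k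
      linear_combination ((u : K) - v * θ) * k + (v : K) ^ 2 * e
    have k2 : u ^ 2 + D * v ^ 2 = 0 := by exact_mod_cast k1
    have k3 : v = 0 := by_contra fun j => by nlinarith [sq_nonneg u, sq_pos_of_ne_zero j]
    exact ⟨by simpa [k3] using k2, k3⟩
  have sp : ∀ z : K, ∃ u v : ℚ, z = (u : K) + v * θ := fun z => by
    have := li.span_eq_top_of_card_eq_finrank' (by simpa using h.two.symm)
    obtain ⟨c, k⟩ := (Submodule.mem_span_range_iff_exists_fun ℚ).1 (this ▸ Submodule.mem_top (x := z))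
    exact ⟨c 0, c 1, by simpa [Rat.smul_def] using k.symm⟩
  haveI : Algebra.IsQuadraticExtension ℚ K := ⟨h.two⟩
  have : Nontrivial Gal(K/ℚ) := by
    rw [← Finite.one_lt_card_iff_nontrivial, IsGalois.card_aut_eq_finrank, h.two]
    norm_num
  obtain ⟨σ, s1⟩ := exists_ne (1 : Gal(K/ℚ))
  have s2 : σ θ ^ 2 = (θ : K) ^ 2 := by rw [← map_pow, e, map_neg, map_natCast]
  refine ⟨⟨θ, e, h.sqf, σ, (sq_eq_sq_iff_eq_or_eq_neg.1 s2).resolve_left fun k => s1 ?_, sp⟩, rfl⟩
  ext z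
  obtain ⟨u, v, rfl⟩ := sp z
  simp [k]

theorem nm_eq (q : QF K D) (h : finrank ℚ K = 2) {I : Ideal (𝓞 K)} (k : I ≠ ⊥) :
    q.HasN I (absNorm I) := by
  obtain ⟨n, -, e⟩ := q.exists_hasN k
  have a : absNorm (I.map q.s) = absNorm I :=
    (Nat.card_congr (quotientEquiv I _ q.s rfl).toEquiv).symm
  have b := congrArg absNorm e
  rw [map_mul, a, absNorm_span_natCast, RingOfIntegers.rank, h, ← pow_two] at b
  rwa [Nat.pow_left_injective two_ne_zero b]

theorem sqf_eq {b c m : ℕ} (hb : Squarefree b) (hc : Squarefree c) (h : b * c = m ^ 2) : b = c := by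
  have k : ∀ {b c : ℕ}, Squarefree b → b * c = m ^ 2 → b ∣ c := fun {b c} hb h => by
    have := pow_dvd_pow_of_dvd ((hb.dvd_pow_iff_dvd two_ne_zero).1 ⟨c, h.symm⟩) 2
    rwa [← h, pow_two, mul_dvd_mul_iff_left hb.ne_zero] at this
  exact Nat.dvd_antisymm (k hb h) (k hc (mul_comm b c ▸ h))

theorem sqf_rat {b c : ℕ} {u : ℚ} (hb : Squarefree b) (hc : Squarefree c) (h : (b * c : ℚ) = u ^ 2) :
    b = c := by
  obtain ⟨m, rfl⟩ := QF.int_of_sq_mul (d := 1) (r := u) (n := b * c) squarefree_one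
    (by push_cast; linarith)
  refine sqf_eq (m := m.natAbs) hb hc ?_
  have : (b * c : ℤ) = m ^ 2 := by exact_mod_cast h
  zify
  rwa [sq_abs]

/-- the ambiguous ideals -/
def am (q : QF K D) (b : ℕ) : Ideal (𝓞 K) := span {(b : 𝓞 K), q.t}

theorem am_ne (q : QF K D) (b : ℕ) : am q b ≠ ⊥ := fun h =>
  q.t_ne_zero (mem_bot.1 (h ▸ (subset_span (by simp) : q.t ∈ am q b)))

theorem am_sq (q : QF K D) {b : ℕ} (h : b ∣ D) : am q b * am q b = span {(b : 𝓞 K)} :=
  q.amb_ideal h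

theorem am_two (q : QF K D) {b : ℕ} (h : b ∣ D) : cl (am q b) * cl (am q b) = 1 := by
  rw [← cl_mul (am_ne q b) (am_ne q b), am_sq q h, cl_span]

theorem am_mul (q : QF K D) {b c : ℕ} (h : D = b * c) : am q b * am q c = span {q.t} := by
  refine sq_inj ?_
  rw [mul_mul_mul_comm, am_sq q ⟨c, h⟩, am_sq q ⟨b, h.trans (mul_comm _ _)⟩,
    span_singleton_mul_span_singleton, span_singleton_mul_span_singleton, ← pow_two, q.t_sq,
    span_singleton_neg, ← Nat.cast_mul, ← h]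

theorem am_iff (q : QF K D) (hu : ∀ u : (𝓞 K)ˣ, u = 1 ∨ u = -1) {b c b' : ℕ} (h : D = b * c)
    (h' : b' ∣ D) : cl (am q b') = cl (am q b) ↔ b' = b ∨ b' = c := by
  have k1 : cl (am q c) = cl (am q b) := mul_left_cancel (a := cl (am q b)) (by
    rw [am_two q ⟨c, h⟩, ← cl_mul (am_ne q b) (am_ne q c), am_mul q h, cl_span])
  refine ⟨fun k => ?_, by rintro (rfl | rfl); exacts [rfl, k1]⟩
  obtain ⟨x, e⟩ := (cl_one (mul_ne_zero (am_ne q b') (am_ne q b))).1 (by
    rw [cl_mul (am_ne q b') (am_ne q b), k, am_two q ⟨c, h⟩])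
  have e1 : span {x * x} = span {(b' * b : 𝓞 K)} := by
    rw [← span_singleton_mul_span_singleton, ← e, mul_mul_mul_comm, am_sq q h', am_sq q ⟨c, h⟩,
      span_singleton_mul_span_singleton]
  obtain ⟨w, e2⟩ := (span_singleton_eq_span_singleton.1 e1).symm
  obtain ⟨s, s1, e3⟩ : ∃ s : ℚ, (s = 1 ∨ s = -1) ∧ (x : K) ^ 2 = s * (b' * b) := by
    have e2 := congrArg (algebraMap (𝓞 K) K) e2
    rcases hu w with rfl | rfl
    · exact ⟨1, .inl rfl, by simpa [pow_two] using e2.symm⟩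
    · exact ⟨-1, .inr rfl, by simpa [pow_two] using e2.symm⟩
  obtain ⟨u, v, e4⟩ := q.hspan x
  obtain ⟨e5, e6⟩ := q.uniq (u := u ^ 2 - D * v ^ 2 - s * (b' * b)) (v := 2 * u * v) (by
    rw [e4] at e3
    push_cast
    linear_combination e3 - (v : K) ^ 2 * q.hθ)
  have sb := q.hd.squarefree_of_dvd ⟨c, h⟩
  have sc := q.hd.squarefree_of_dvd ⟨b, h.trans (mul_comm _ _)⟩
  have sb' := q.hd.squarefree_of_dvd h'
  have p : (0 : ℚ) < b := by exact_mod_cast Nat.pos_of_ne_zero sb.ne_zero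
  have p' : (0 : ℚ) < b' := by exact_mod_cast Nat.pos_of_ne_zero sb'.ne_zero
  have p2 := mul_pos p' p
  have e7 : (D : ℚ) = b * c := by exact_mod_cast h
  rcases mul_eq_zero.1 e6 with j | j
  · have j : u = 0 := by simpa using j
    refine .inr (sqf_rat (u := c * v) sb' sc (mul_left_cancel₀ p.ne' ?_))
    rcases s1 with rfl | rfl
    · nlinarith [mul_nonneg (Nat.cast_nonneg D : (0 : ℚ) ≤ D) (sq_nonneg v)]
    · rw [j, e7] at e5
      linear_combination c * e5
  · refine .inl (sqf_rat (u := u) sb' sb ?_)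
    rw [j] at e5
    rcases s1 with rfl | rfl
    · linarith
    · nlinarith [sq_nonneg u]

theorem am_surj (q : QF K D) (h4 : D % 4 = 3) {C : ClassGroup (𝓞 K)} (h : C ^ 2 = 1) :
    ∃ b, b ∣ D ∧ cl (am q b) = C := by
  obtain ⟨I, k, rfl⟩ := cl_surj C
  obtain ⟨γ, e⟩ := (cl_one (mul_ne_zero k k)).1 (by rw [cl_mul k k, ← pow_two, h])
  obtain ⟨n, -, hn⟩ := q.exists_hasN k
  obtain ⟨a, a1, a2, ⟨I', a3, x, y, x0, y0, a4⟩, -⟩ := q.amb k hn e
  have d : a ∣ D := by
    rw [← Nat.prod_primeFactors_of_squarefree a1]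
    exact Finset.prod_primes_dvd _ (fun p hp => (Nat.prime_of_mem_primeFactors hp).prime) fun p hp =>
      (a2 p (Nat.prime_of_mem_primeFactors hp) (Nat.dvd_of_mem_primeFactors hp)).resolve_right
        fun j => j.2 h4
  obtain rfl := sq_inj (a3.trans (am_sq q d).symm)
  have := congrArg cl a4
  rw [cl_mul (QF.span_ne_bot x0) k, cl_mul (QF.span_ne_bot y0) (am_ne q a), cl_span, cl_span] at this
  exact ⟨a, d, mul_left_cancel this.symm⟩

/-- the classes of order two -/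
theorem two (q : QF K D) (hu : ∀ u : (𝓞 K)ˣ, u = 1 ∨ u = -1) (h4 : D % 4 = 3) :
    2 * Nat.card {C : ClassGroup (𝓞 K) // C ^ 2 = 1} = D.divisors.card := by
  have d0 := q.hd.ne_zero
  rw [Nat.subtype_card (Finset.univ.filter fun C : ClassGroup (𝓞 K) => C ^ 2 = 1) (by simp),
    Finset.card_eq_sum_card_fiberwise (f := fun b => cl (am q b))
      (t := Finset.univ.filter fun C : ClassGroup (𝓞 K) => C ^ 2 = 1) fun b hb => by
        simpa [pow_two] using am_two q (Nat.dvd_of_mem_divisors hb),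
    mul_comm, ← smul_eq_mul, ← Finset.sum_const]
  refine Finset.sum_congr rfl fun C hC => ?_
  obtain ⟨b, ⟨c, e⟩, rfl⟩ := am_surj q h4 (Finset.mem_filter.1 hC).2
  have ne : b ≠ c := by
    rintro rfl
    obtain rfl := Nat.isUnit_iff.1 (q.hd b e.symm.dvd)
    omega
  rw [← Finset.card_pair ne]
  congr 1
  ext b'
  rw [Finset.mem_filter, Nat.mem_divisors, Finset.mem_insert, Finset.mem_singleton]
  refine ⟨fun k => ?_, fun k => (am_iff q hu e k.1.1).1 k.2⟩
  have d : b' ∣ D := by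
    rcases k with rfl | rfl
    exacts [⟨c, e⟩, ⟨b, e.trans (mul_comm _ _)⟩]
  exact ⟨⟨d, d0⟩, (am_iff q hu e d).2 k⟩

/-- the ring of integers -/
theorem ex_iso (q : QF K D) {e : ℤ} (hd : (D : ℤ) = 4 * e - 1) :
    ∃ φ : Cn.R e ≃+* 𝓞 K, ∀ x, φ (star x) = q.s (φ x) := by
  have hK : (D : K) = 4 * e - 1 := by exact_mod_cast hd
  obtain ⟨z, z1, z2⟩ := q.of_coords (a := 1) (b := 1) ⟨e, by linear_combination hd⟩
  obtain ⟨w, rfl⟩ := QF.exists_of_isInt z1
  have w1 : 2 * w = 1 + q.t := QF.ext' (by simpa [map_ofNat, q.coe_t] using z2)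
  have hO : (D : 𝓞 K) = 4 * e - 1 := by exact_mod_cast hd
  have w2 : w * w = (-e) • 1 + (1 : ℤ) • w := mul_left_cancel₀ (a := 4) (by norm_num) (by
    rw [zsmul_eq_mul, one_smul]
    push_cast
    linear_combination (2 * w - 1 + q.t) * w1 + q.t_sq - hO)
  have w3 : q.s w = 1 - w := mul_left_cancel₀ (a := 2) two_ne_zero (by
    have := congrArg q.s w1
    rw [map_mul, map_add, map_one, map_ofNat, q.s_t] at this
    linear_combination this + w1)
  let f := QuadraticAlgebra.lift ⟨w, w2⟩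
  have ap : ∀ x : Cn.R e, f x = x.re + x.im * w := fun x => by
    simp [f, QuadraticAlgebra.lift_apply_apply]
  refine ⟨RingEquiv.ofBijective f.toRingHom ⟨(injective_iff_map_eq_zero _).2 fun x k => ?_,
    fun y => ?_⟩, fun x => ?_⟩
  · have k : (x.re : 𝓞 K) + x.im * w = 0 := (ap x).symm.trans k
    have k1 : (2 * x.re + x.im : 𝓞 K) + x.im * q.t = 0 := by linear_combination 2 * k - x.im * w1
    obtain ⟨k2, k3⟩ := q.uniq (u := 2 * x.re + x.im) (v := x.im) (by
      simpa [map_ofNat, q.coe_t] using congrArg (algebraMap (𝓞 K) K) k1)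
    have k3 : x.im = 0 := by exact_mod_cast k3
    ext
    · simpa [k3] using k2
    · exact k3
  · obtain ⟨a, b, k, n, j⟩ := q.int_coords (QF.isInt y)
    obtain ⟨c, rfl⟩ : ∃ c, a = 2 * c + b := by
      rw [hd] at j
      have : Even ((a - b) * (a + b)) := ⟨2 * n - 2 * e * b ^ 2, by linear_combination j⟩
      rcases Int.even_mul.1 this with ⟨c, i⟩ | ⟨c, i⟩
      exacts [⟨c, by omega⟩, ⟨c - b, by omega⟩]
    have k1 : 2 * y = (2 * c + b : ℤ) + b * q.t := QF.ext' (by simpa [map_ofNat, q.coe_t] using k)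
    refine ⟨⟨c, b⟩, (ap _).trans (mul_left_cancel₀ (a := 2) two_ne_zero ?_)⟩
    push_cast at k1 ⊢
    linear_combination b * w1 - k1
  · change f (star x) = q.s (f x)
    rw [ap, ap, map_add, map_mul, w3, map_intCast, map_intCast]
    simp only [QuadraticAlgebra.re_star, QuadraticAlgebra.im_star]
    push_cast
    ring

/-- the principal genus -/
theorem pg (q : QF K D) (h2 : finrank ℚ K = 2) (h8 : D % 8 = 7) {I : Ideal (𝓞 K)}
    (c : (absNorm I).Coprime D) (h : ∀ r : ℕ, r.Prime → r ∣ D → J((absNorm I : ℕ) | r) = 1) :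
    IsSquare (cl I) := by
  obtain ⟨e, hd⟩ : ∃ e : ℤ, (D : ℤ) = 4 * e - 1 := ⟨(D + 1) / 4, by omega⟩
  haveI : Fact (1 < e) := ⟨by omega⟩
  obtain ⟨φ, hφ⟩ := ex_iso q hd
  have m0 : absNorm I ≠ 0 := fun k => by
    rw [k, Nat.coprime_zero_left] at c
    omega
  have k : I ≠ ⊥ := fun k => m0 (absNorm_eq_zero_iff.2 k)
  have inj : Function.Injective (Ideal.map φ) := fun a b j => by
    rw [← comap_map_of_bijective φ φ.bijective (I := a), j, comap_map_of_bijective φ φ.bijective]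
  obtain ⟨b, rfl⟩ : ∃ b, Ideal.map φ b = I := ⟨I.comap φ, map_comap_of_surjective φ φ.surjective I⟩
  have n : Cn.Nm b (absNorm (b.map φ)) := inj (by
    have := nm_eq q h2 k
    rw [QF.HasN] at this
    rw [Ideal.map_mul, map_span, Set.image_singleton, Int.cast_natCast, map_natCast, ← this]
    congr 1
    ext y
    obtain ⟨x, rfl⟩ := φ.surjective y
    rw [← Ideal.symm_apply_mem_of_equiv_iff, ← Ideal.symm_apply_mem_of_equiv_iff,
      ← Ideal.symm_apply_mem_of_equiv_iff, φ.symm_apply_apply, Cn.mem_cj,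
      show q.s.symm (φ x) = φ (star x) from q.s.symm_apply_eq.2 (by rw [hφ, q.s_s]),
      φ.symm_apply_apply])
  obtain ⟨a, ζ, a0, j⟩ := Cn.pgt hd q.hd m0 n fun r hr => by
    have r1 := Nat.prime_of_mem_primeFactors hr
    have r2 := Nat.dvd_of_mem_primeFactors hr
    rw [Cn.ep_nd fun i => r1.one_lt.ne' (Nat.eq_one_of_dvd_coprimes c i r2), h r r1 r2]
  have a1 : a.map φ ≠ ⊥ := fun i => a0 (inj (i.trans map_bot.symm))
  have := congrArg (fun x => cl (Ideal.map φ x)) j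
  simp only [Ideal.map_mul, map_span, Set.image_singleton, cl_span] at this
  rw [cl_mul (mul_ne_zero a1 a1) k, cl_mul a1 a1] at this
  exact ⟨(cl (a.map φ))⁻¹, by rw [← mul_inv, eq_inv_of_mul_eq_one_right this]⟩

end Vale.Agent.P004C.Wa.Gn

namespace Vale.Agent.P004C.Wa

/-- **genus theory** -/
theorem gnt : GNT := fun K _ _ J D θ h => by
  obtain ⟨q, -⟩ := Gn.ex_qf h
  exact ⟨Gn.two q h.upm (by have := h.md; omega), fun I => Gn.pg q h.two h.md⟩

end Vale.Agent.P004C.Wa
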