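import Vale.Agent.P004Z.Lf.Ps

/-! # P004 C, block WA: Poisson summation on a lattice of the plane, summability on `ℤ ^ 4` -/

open Complex
open scoped Real ComplexConjugate ArithmeticFunction.Moebius

noncomputable section

namespace Vale.Agent.P004C.Wa.Kr

open Vale.Agent.P004Z.Lf (pois0 sumG)

/-- Poisson summation on `ℤ z + ℤ` -/
theorem p3 {z : ℂ} (hz : 0 < z.im) {t : ℝ} (ht : 0 < t) (ξ η α γ : ℂ) :
    ∑' a : ℤ, ∑' b : ℤ, (α * (a * conj z + b) + γ) *
      cexp (-π * t * ((a * z + b - ξ) * (a * conj z + b - η)) / z.im) =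
    (t : ℂ)⁻¹ * ∑' a : ℤ, ∑' b : ℤ, (α * (η - (a * conj z + b) / t) + γ) * cexp (-π *
      ((a * z + b) * (a * conj z + b) / t + ξ * (a * conj z + b) - η * (a * z + b)) / z.im) := by
  obtain ⟨x, y, rfl⟩ : ∃ x y : ℝ, z = x + y * I := ⟨_, _, (re_add_im z).symm⟩
  have c : conj (x + y * I : ℂ) = x - y * I := by simp [sub_eq_add_neg]
  have i : (x + y * I : ℂ).im = y := by simp
  rw [i] at hz
  have y0 := ofReal_ne_zero.2 hz.ne'
  have t0 := ofReal_ne_zero.2 ht.ne'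
  have h1 : 0 < ((t / y : ℝ) : ℂ).re := div_pos ht hz
  have h2 : 0 < ((t * y : ℝ) : ℂ).re := mul_pos ht hz
  have h3 : 0 < ((y / t : ℝ) : ℂ).re := div_pos hz ht
  set k : ℂ := cexp (π * t / y * (ξ - η) ^ 2 / 4)
  set g : ℤ → ℂ := fun m => cexp (-π * (y / t : ℝ) * m ^ 2 + 2 * π * (I * (ξ + η) / 2) * m)
  set H : ℤ → ℤ → ℂ := fun a m => (-I * α * y * a + (α * ((ξ + η) / 2 + I * m * y / t) + γ)) *
    cexp (-π * (t * y : ℝ) * a ^ 2 + 2 * π * (-I * m * x - I * t * (ξ - η) / 2) * a) with hH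
  have s1 : ∀ a : ℤ, ∑' b : ℤ, (α * (a * (x - y * I) + b) + γ) * cexp (-π * t *
      ((a * (x + y * I) + b - ξ) * (a * (x - y * I) + b - η)) / y) =
      1 / ((t / y : ℝ) : ℂ) ^ (1 / 2 : ℂ) * ∑' m : ℤ, k * g m * H a m := fun a => by
    have := congrArg (cexp (-π * t * ((a * (x + y * I) - ξ) * (a * (x - y * I) - η)) / y) * ·)
      (pois0 h1 (-(t / y) * (a * x - (ξ + η) / 2)) α (α * (a * (x - y * I)) + γ))
    simp only [mul_left_comm (cexp _), ← tsum_mul_left (a := cexp _), ← exp_add] at this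
    refine (tsum_congr fun b => ?_).trans (this.trans (congrArg _ (tsum_congr fun m => ?_)))
    · congr 1
      · ring
      · congr 1
        push_cast
        ring
    · rw [hH, mul_left_comm (k * g m), ← exp_add, ← exp_add]
      congr 1
      · push_cast
        field_simp
        ring
      · congr 1
        push_cast
        field_simp
        ring_nf
        simp only [I_sq]
        ring
  have s2 : Summable fun p : ℤ × ℤ => k * g p.2 * H p.1 p.2 := by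
    have n := fun {A : ℂ} (h : 0 < A.re) B a b => (sumG h B a b).summable.norm
    refine .of_norm (((summable_mul_of_summable_norm' (n h2 (-(I * t * (ξ - η) / 2)) (-I * α * y) 0)
      (n h2 _ _ _).of_norm (n h3 (I * (ξ + η) / 2) 0 k) (n h3 _ _ _).of_norm).add
      (summable_mul_of_summable_norm (n h2 (-(I * t * (ξ - η) / 2)) 0 1) (n h3 (I * (ξ + η) / 2)
        (k * α * I * y / t) (k * (α * ((ξ + η) / 2) + γ))))).norm.congr fun p => ?_)
    have e : ‖cexp (↑(-(2 * π * p.2 * x * p.1) : ℝ) * I)‖ = 1 := norm_exp_ofReal_mul_I _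
    rw [← mul_one ‖_ + _‖, ← e, ← norm_mul, hH]
    congr 1
    simp only [g]
    rw [show -π * (t * y : ℝ) * (p.1 : ℂ) ^ 2 + 2 * π * (-I * p.2 * x - I * t * (ξ - η) / 2) * p.1 =
      (-π * (t * y : ℝ) * (p.1 : ℂ) ^ 2 + 2 * π * (-(I * t * (ξ - η) / 2)) * p.1) +
        ↑(-(2 * π * p.2 * x * p.1) : ℝ) * I by push_cast; ring, exp_add _ (_ * I)]
    ring
  have s3 : ∀ m : ℤ, ∑' a : ℤ, k * g m * H a m = 1 / ((t * y : ℝ) : ℂ) ^ (1 / 2 : ℂ) *
      ∑' b : ℤ, (α * (η - (m * (x - y * I) + b) / t) + γ) * cexp (-π * ((m * (x + y * I) + b) *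
        (m * (x - y * I) + b) / t + ξ * (m * (x - y * I) + b) - η * (m * (x + y * I) + b)) / y) :=
    fun m => by
      rw [tsum_mul_left, pois0 h2, mul_left_comm, ← tsum_mul_left, ← (Equiv.neg ℤ).tsum_eq]
      refine congrArg _ (tsum_congr fun b => ?_)
      rw [mul_left_comm, ← exp_add, ← exp_add, Equiv.neg_apply]
      congr 1
      · push_cast
        field_simp
        ring_nf
        simp only [I_sq]
        ring
      · congr 1
        push_cast
        field_simp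
        ring_nf
        simp only [I_sq, I_pow_four]
        ring
  simp only [c, i, s1]
  rw [tsum_mul_left, ← Summable.tsum_comm (f := fun a m => k * g m * H a m) s2]
  simp only [s3]
  rw [tsum_mul_left, ← mul_assoc, div_mul_div_comm, ← mul_cpow_ofReal_nonneg (div_pos ht hz).le
    (mul_pos ht hz).le, ← ofReal_mul, show t / y * (t * y) = t ^ 2 by field_simp, ofReal_pow,
    one_div (2 : ℂ), sq_cpow_two_inv (by simpa using ht), mul_one, one_div]

theorem geo {a : ℝ} (h : 0 < a) : Summable fun n : ℤ => Real.exp (-a * |(n : ℝ)|) := by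
  have : Summable fun n : ℕ => Real.exp (-a * n) := by
    simpa [mul_comm] using Real.summable_exp_nat_mul_iff.2 (neg_neg_of_pos h)
  exact .of_nat_of_neg (by simpa using this) (by simpa using this)

theorem lat {z : ℂ} (hz : 0 < z.im) : ∃ K : ℝ, 0 < K ∧ ∀ x y : ℝ, |x| + |y| ≤ K * ‖x * z + y‖ := by
  refine ⟨(1 + ‖z‖) / z.im + 1, by positivity, fun x y => ?_⟩
  have a : |x| ≤ ‖x * z + y‖ / z.im := by
    rw [le_div_iff₀ hz]
    simpa [abs_mul, abs_of_pos hz] using abs_im_le_norm (x * z + y)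
  have b : |y| ≤ ‖x * z + y‖ + |x| * ‖z‖ := by
    simpa using norm_sub_le (x * z + y) (x * z)
  have := mul_le_mul_of_nonneg_right a (norm_nonneg z)
  calc _ ≤ ‖x * z + y‖ / z.im + (‖x * z + y‖ + ‖x * z + y‖ / z.im * ‖z‖) := by linarith
    _ = _ := by ring

theorem gs_le {κ : ℝ} (h : 0 < κ) (P : ℝ) :
    Real.exp (-κ * P ^ 2) ≤ Real.exp (1 / κ) * Real.exp (-2 * P) := by
  rw [← Real.exp_add, Real.exp_le_exp]
  have : 0 ≤ (κ * P - 1) ^ 2 / κ := by positivity
  rw [show (κ * P - 1) ^ 2 / κ = κ * P ^ 2 - 2 * P + 1 / κ by field_simp; ring] at this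
  linarith

/-- the majorant on `ℤ ^ 4` -/
theorem sum4 {z ρ : ℂ} (hz : 0 < z.im) (hρ : ρ.im ≠ 0) {κ r s : ℝ} (hκ : 0 < κ) (hr : 0 < r)
    (hs : 0 < s) : Summable fun X : ℤ × ℤ × ℤ × ℤ =>
      ‖(X.2.2.1 * z + X.2.2.2) * ρ - ((r * X.1 : ℝ) * z + (s * X.2.1 : ℝ))‖ * Real.exp (-κ *
        (‖(X.2.2.1 * z + X.2.2.2) * ρ - ((r * X.1 : ℝ) * z + (s * X.2.1 : ℝ))‖ ^ 2 +
        ‖(X.2.2.1 * z + X.2.2.2) * conj ρ - ((r * X.1 : ℝ) * z + (s * X.2.1 : ℝ))‖ ^ 2)) := by
  obtain ⟨K, K0, hK⟩ := lat hz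
  have i := abs_pos.2 hρ
  set c := (K * ((1 + ‖ρ‖) / |ρ.im| + 1))⁻¹ with hc
  have c0 : 0 < c := by positivity
  have e : ∀ {x : ℝ}, 0 ≤ Real.exp x := (Real.exp_pos _).le
  refine .of_nonneg_of_le (fun _ => by positivity) (fun X => ?_)
    ((((geo (mul_pos c0 hr)).mul_of_nonneg ((geo (mul_pos c0 hs)).mul_of_nonneg
      ((geo c0).mul_of_nonneg (geo c0) (fun _ => e) fun _ => e) (fun _ => e)
        fun _ => mul_nonneg e e) (fun _ => e) fun _ => mul_nonneg e (mul_nonneg e e))).mul_left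
      (Real.exp (1 / κ) ^ 2))
  have h1 := hK X.2.2.1 X.2.2.2
  have h2 := hK (r * X.1) (s * X.2.1)
  rw [abs_mul, abs_mul, abs_of_pos hr, abs_of_pos hs] at h2
  simp only [ofReal_intCast] at h1
  generalize (X.2.2.1 : ℂ) * z + X.2.2.2 = u at *
  generalize ((r * X.1 : ℝ) : ℂ) * z + (s * X.2.1 : ℝ) = w at *
  have h3 : ‖u‖ ≤ (‖u * ρ - w‖ + ‖u * conj ρ - w‖) / |ρ.im| := by
    have := norm_sub_le (u * ρ - w) (u * conj ρ - w)
    rw [sub_sub_sub_cancel_right, ← mul_sub, sub_conj, norm_mul] at this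
    rw [le_div_iff₀ i]
    refine le_trans ?_ this
    gcongr
    simp [abs_nonneg, le_mul_iff_one_le_left i]
  have h4 : ‖w‖ ≤ ‖u‖ * ‖ρ‖ + ‖u * ρ - w‖ := by simpa using norm_sub_le (u * ρ) (u * ρ - w)
  have P0 := norm_nonneg (u * ρ - w)
  have Q0 := norm_nonneg (u * conj ρ - w)
  generalize ‖u * ρ - w‖ = P at *
  generalize ‖u * conj ρ - w‖ = Q at *
  have h5 : c * (K * (‖u‖ + ‖w‖)) ≤ P + Q := by
    rw [hc, inv_mul_le_iff₀ (by positivity), mul_assoc]
    gcongr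
    have := mul_le_mul_of_nonneg_right h3 (norm_nonneg ρ)
    calc _ ≤ (P + Q) / |ρ.im| + ((P + Q) / |ρ.im| * ‖ρ‖ + (P + Q)) := by linarith
      _ = _ := by ring
  calc _ = P * (Real.exp (-κ * P ^ 2) * Real.exp (-κ * Q ^ 2)) := by rw [mul_add, Real.exp_add]
    _ ≤ Real.exp P * (Real.exp (1 / κ) * Real.exp (-2 * P) * (Real.exp (1 / κ) * Real.exp (-2 * Q))) := by
      gcongr
      exacts [by linarith [Real.add_one_le_exp P], gs_le hκ P, gs_le hκ Q]
    _ = Real.exp (1 / κ) ^ 2 * Real.exp (-P - 2 * Q) := by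
      simp only [sq, ← Real.exp_add]
      congr 1
      ring
    _ ≤ _ := by
      simp only [← Real.exp_add]
      gcongr
      nlinarith [mul_le_mul_of_nonneg_left (add_le_add h1 h2) c0.le]

/-- sums over a sublattice -/
theorem sub4 {f : ℤ × ℤ × ℤ × ℤ → ℂ} (h : Summable f) {k l : ℤ} (hk : k ≠ 0) (hl : l ≠ 0) :
    ∑' X, (if k ∣ X.1 ∧ l ∣ X.2.1 then f X else 0) =
      ∑' v : ℤ × ℤ, ∑' a : ℤ, ∑' b : ℤ, f (k * a, l * b, v) := by
  have i : Function.Injective fun p : (ℤ × ℤ) × ℤ × ℤ => (k * p.2.1, l * p.2.2, p.1) :=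
    fun p q e => by
      simp only [Prod.mk.injEq, mul_right_inj' hk, mul_right_inj' hl] at e
      exact Prod.ext e.2.2 (Prod.ext e.1 e.2.1)
  have s := h.comp_injective i
  rw [← i.tsum_eq (f := fun X => if k ∣ X.1 ∧ l ∣ X.2.1 then f X else 0) fun X hX => ?_]
  · simp only [dvd_mul_right, and_self, if_true]
    exact s.tsum_prod.trans (tsum_congr fun v => (s.prod_factor v).tsum_prod)
  · obtain ⟨⟨a, ha⟩, b, hb⟩ := (ite_ne_right_iff.1 hX).1
    exact ⟨(X.2.2, a, b), by simp only [← ha, ← hb]⟩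

theorem moeb {M : ℕ} (hM : 0 < M) (b : ℤ) [Decidable (IsCoprime b (M : ℤ))] :
    ∑ e ∈ M.divisors, (if (e : ℤ) ∣ b then (μ e : ℂ) else 0) = if IsCoprime b M then 1 else 0 := by
  have := congrArg (· (b.gcd M)) (ArithmeticFunction.coe_moebius_mul_coe_zeta (R := ℂ))
  simp only [ArithmeticFunction.coe_mul_zeta_apply, ArithmeticFunction.one_apply,
    ArithmeticFunction.intCoe_apply] at this
  simp only [Int.isCoprime_iff_gcd_eq_one]
  rw [← this, ← Finset.sum_filter]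
  refine Finset.sum_congr (Finset.ext fun e => ?_) fun _ _ => rfl
  simp only [Finset.mem_filter, Nat.mem_divisors, ← Int.natCast_dvd_natCast, Int.dvd_gcd_iff,
    Int.dvd_coe_gcd_iff, ne_eq, Int.gcd_eq_zero_iff, Nat.cast_eq_zero, hM.ne']
  tauto

end Vale.Agent.P004C.Wa.Kr
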