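import Vale.Agent.P004C.Wa.St
import Vale.Agent.P004C.Wa.Ker0

/-! # P004 C, block WA: row KER -/

open Complex
open UpperHalfPlane hiding I
open scoped Real ComplexConjugate ArithmeticFunction.Moebius Classical

noncomputable section

namespace Vale.Agent.P004C.Wa

namespace Kr

/-- the terms of the mixed model -/
def TT (σ τ₁ τ₂ : ℂ) (X : ℤ × ℤ × ℤ × ℤ) : ℂ :=
  (σ * conj ((X.2.2.1 : ℂ) * τ₂ + X.2.2.2) - conj ((X.1 : ℂ) * τ₂ + X.2.1)) *
    ee (((X.1 * X.2.2.2 - X.2.1 * X.2.2.1 : ℤ) : ℂ) * τ₁) * Real.exp (-(π * τ₁.im *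
      ‖σ * ((X.2.2.1 : ℂ) * τ₂ + X.2.2.2) - ((X.1 : ℂ) * τ₂ + X.2.1)‖ ^ 2 / (σ.im * τ₂.im)))

/-- the terms of the Schroedinger model -/
def FF (σ τ₁ τ₂ u w : ℂ) : ℂ := conj (u * τ₁ - w) *
  ee ((σ * (‖u * conj τ₁ - w‖ ^ 2 : ℝ) - conj σ * (‖u * τ₁ - w‖ ^ 2 : ℝ)) / (4 * τ₁.im * τ₂.im))

theorem norm_ee (z : ℂ) : ‖ee z‖ = Real.exp (-(2 * π * z.im)) := by
  simp [ee, norm_exp]

variable {σ τ₁ τ₂ : ℂ} (h : 0 < σ.im) (h1 : 0 < τ₁.im) (h2 : 0 < τ₂.im)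
include h h1 h2

theorem TT_sum : Summable (TT σ τ₁ τ₂) := by
  refine .of_norm ((sum4 h2 (ρ := conj σ) (by simpa using h.ne')
    (κ := π * τ₁.im / (2 * σ.im * τ₂.im)) (by positivity) one_pos one_pos).congr fun X => ?_)
  rw [TT, norm_mul, norm_mul, norm_ee, norm_real, Real.norm_of_nonneg (Real.exp_pos _).le,
    mul_assoc ‖_‖, ← Real.exp_add, ← norm_conj (σ * _ - _)]
  congr 2
  · simp [mul_comm]
  · simp only [Complex.sq_norm, normSq_apply]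
    simp
    field_simp
    ring

theorem FF_sum {r s : ℝ} (hr : 0 < r) (hs : 0 < s) : Summable fun X : ℤ × ℤ × ℤ × ℤ =>
    FF σ τ₁ τ₂ (X.2.2.1 * τ₂ + X.2.2.2) ((r * X.1 : ℝ) * τ₂ + (s * X.2.1 : ℝ)) := by
  refine .of_norm ((sum4 h2 h1.ne' (κ := π * σ.im / (2 * τ₁.im * τ₂.im)) (by positivity)
    hr hs).congr fun X => ?_)
  rw [FF, norm_mul, norm_ee, norm_conj, ← ofReal_ofNat, ← ofReal_mul, ← ofReal_mul, div_ofReal_im]
  congr 2
  simp only [sub_im, mul_im, ofReal_re, ofReal_im, conj_im]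
  field_simp
  ring

theorem core {N e : ℕ} (hN : 0 < N) (he : 0 < e) (v : ℤ × ℤ) :
    ∑' a : ℤ, ∑' b : ℤ, TT σ τ₁ τ₂ (N * a, e * b, v) = -(σ.im ^ 2 / (τ₁.im ^ 2 * e * N)) *
      ∑' a : ℤ, ∑' b : ℤ, FF σ τ₁ τ₂ (v.1 * τ₂ + v.2) (a / e * τ₂ + b / N) := by
  have z0 : (N / e * τ₂ : ℂ).im = N / e * τ₂.im := by
    rw [← ofReal_natCast, ← ofReal_natCast, ← ofReal_div, im_ofReal_mul]
  have := congrArg (cexp (-π * τ₁.im / (σ.im * τ₂.im) * ((v.1 * τ₂ + v.2) * conj (v.1 * τ₂ + v.2)) *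
      (σ * conj σ - (σ - σ.im / τ₁.im * τ₁) * (conj σ + σ.im / τ₁.im * τ₁))) * ·)
    (p3 (z := N / e * τ₂) (by rw [z0]; positivity) (t := τ₁.im * e * N / σ.im) (by positivity)
      ((σ - σ.im / τ₁.im * τ₁) * (v.1 * τ₂ + v.2) / e)
      ((conj σ + σ.im / τ₁.im * τ₁) * conj (v.1 * τ₂ + v.2) / e) (-e) (σ * conj (v.1 * τ₂ + v.2)))
  simp only [mul_left_comm (cexp _), ← tsum_mul_left, ← exp_add, z0] at this ⊢
  have y0 := ofReal_ne_zero.2 h.ne'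
  have y1 := ofReal_ne_zero.2 h1.ne'
  have y2 := ofReal_ne_zero.2 h2.ne'
  have n0 : (N : ℂ) ≠ 0 := Nat.cast_ne_zero.2 hN.ne'
  have e0 : (e : ℂ) ≠ 0 := Nat.cast_ne_zero.2 he.ne'
  have c : ∀ z : ℂ, conj z = z - 2 * z.im * I := fun z => by
    rw [← sub_conj z |>.trans (by push_cast; rfl : _ = 2 * (z.im : ℂ) * I), sub_sub_cancel]
  refine (tsum_congr fun a => tsum_congr fun b => ?_).trans
    (this.trans (tsum_congr fun a => tsum_congr fun b => ?_))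
  · rw [TT, ee, mul_assoc, ofReal_exp, ← exp_add]
    push_cast
    simp only [← mul_conj', map_add, map_sub, map_mul, map_div₀, map_intCast, map_natCast, c σ, c τ₂]
    congr 1
    · field_simp
      ring
    · congr 1
      field_simp
      ring
  · rw [FF, ee, ← mul_assoc, ← mul_assoc (-_)]
    push_cast
    simp only [← mul_conj', map_add, map_sub, map_mul, map_div₀, map_intCast, map_natCast,
      conj_conj]
    simp only [c σ, c τ₂, c τ₁]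
    congr 1
    · field_simp
      ring
    · congr 1
      field_simp
      ring_nf
      simp only [I_sq, I_pow_three, I_pow_four]
      ring

omit h1 h2 in
theorem TT_S (X : ℤ × ℤ × ℤ × ℤ) :
    TT (-1 / σ) τ₁ τ₂ (-X.2.2.1, -X.2.2.2, X.1, X.2.1) = σ⁻¹ * TT σ τ₁ τ₂ X := by
  have s0 : σ ≠ 0 := fun e => by simp [e] at h
  have n0 := norm_ne_zero_iff.2 s0
  have i : (-1 / σ).im = σ.im / ‖σ‖ ^ 2 := by simp [neg_div, Complex.sq_norm]
  rw [TT, TT, ← mul_assoc, ← mul_assoc, i]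
  congr 2
  · simp only [Int.cast_neg, map_add, map_mul, map_neg, map_intCast]
    field_simp
    ring
  · congr 2
    ring
  · rw [show -1 / σ * ((X.1 : ℂ) * τ₂ + X.2.1) - ((-X.2.2.1 : ℤ) * τ₂ + (-X.2.2.2 : ℤ)) =
      (σ * (X.2.2.1 * τ₂ + X.2.2.2) - (X.1 * τ₂ + X.2.1)) / σ by
        push_cast
        field_simp
        ring, norm_div]
    congr 2
    field_simp

end Kr

open Kr

/-- **KER** -/
theorem ker : KER := by
  intro M N ε hM hN hε τ₁ τ₂ τ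
  have := NeZero.mk hM.ne'
  obtain ⟨C, hC⟩ := P004Z.Lf.bdd_of (L := M) (f := ε) fun n m => hε.per _ _ (by simp)
  have s0 : (N * τ : ℂ).im = N * τ.im := by simp
  have h : 0 < (N * τ : ℂ).im := by rw [s0]; exact mul_pos (Nat.cast_pos.2 hN) τ.im_pos
  have h' : 0 < (-1 / (N * τ) : ℂ).im := by
    rw [neg_div, one_div, neg_im, inv_im, neg_div, neg_neg]
    exact div_pos h (normSq_pos.2 fun e => by simp [e] at h)
  have b : ∀ {f : ℤ × ℤ × ℤ × ℤ → ℂ}, Summable f → Summable fun X => ε (-X.2.2.1) * f X :=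
    fun hf => .of_norm_bounded (hf.norm.mul_left C) fun X => by
      rw [norm_mul]
      exact mul_le_mul_of_nonneg_right (hC _) (norm_nonneg _)
  have i : ∀ {f : ℤ × ℤ × ℤ × ℤ → ℂ} (p : ℤ × ℤ × ℤ × ℤ → Prop) [DecidablePred p] (c : ℂ),
      Summable f → Summable fun X => c * if p X then f X else 0 := fun p _ c hf =>
    ((hf.indicator {X | p X}).mul_left c).congr fun X => by simp [Set.indicator_apply]
  have sT := b (TT_sum h τ₁.im_pos τ₂.im_pos)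
  have sF := b (FF_sum h τ₁.im_pos τ₂.im_pos (r := (M : ℝ)⁻¹) (s := (N : ℝ)⁻¹) (by positivity)
    (by positivity))
  let S : ℤ × ℤ × ℤ × ℤ ≃ ℤ × ℤ × ℤ × ℤ := ⟨fun X => (-X.2.2.1, -X.2.2.2, X.1, X.2.1),
    fun X => (X.2.2.1, X.2.2.2, -X.1, -X.2.1), fun _ => by simp, fun _ => by simp⟩
  have l : kM M N ε τ₁ τ₂ (ofComplex (-1 / (N * τ))) = (N * τ : ℂ)⁻¹ * ∑ e ∈ M.divisors, ∑' X,
      (μ e : ℂ) * if (N : ℤ) ∣ X.1 ∧ (e : ℤ) ∣ X.2.1 then ε (-X.2.2.1) * TT (N * τ) τ₁ τ₂ X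
        else 0 := by
    rw [← Summable.tsum_finsetSum fun e _ => i _ _ sT, ← tsum_mul_left, kM, ← S.tsum_eq,
      ofComplex_apply_of_im_pos h']
    refine tsum_congr fun X => ?_
    trans if (N : ℤ) ∣ X.1 ∧ IsCoprime X.2.1 (M : ℤ) then
      ε (-X.2.2.1) * ((N * τ : ℂ)⁻¹ * TT (N * τ) τ₁ τ₂ X) else 0
    · rw [← TT_S h, TT, ← mul_assoc, ← mul_assoc]
      rfl
    · by_cases c : (N : ℤ) ∣ X.1
      · simp only [c, true_and, mul_ite, mul_zero]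
        have := congrArg (· * (ε (-X.2.2.1) * TT (N * τ) τ₁ τ₂ X)) (moeb hM X.2.1)
        simp only [Finset.sum_mul, ite_mul, zero_mul] at this
        rw [this]
        split_ifs
        · ring
        · simp
      · simp [c]
  have r : kV M N ε τ₁ τ₂ τ = ∑ e ∈ M.divisors, ∑' X : ℤ × ℤ × ℤ × ℤ, (μ e : ℂ) / e *
      if ((M / e : ℕ) : ℤ) ∣ X.1 ∧ 1 ∣ X.2.1 then ε (-X.2.2.1) * FF (N * τ) τ₁ τ₂
        (X.2.2.1 * τ₂ + X.2.2.2) (((M : ℝ)⁻¹ * X.1 : ℝ) * τ₂ + ((N : ℝ)⁻¹ * X.2.1 : ℝ)) else 0 := by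
    rw [← Summable.tsum_finsetSum fun e _ => i _ _ sF, kV]
    refine tsum_congr fun X => ?_
    simp only [ram, Finset.sum_mul]
    refine Finset.sum_congr rfl fun e he => ?_
    obtain ⟨k, rfl⟩ := Nat.dvd_of_mem_divisors he
    have e0 := Nat.pos_of_mem_divisors he
    rw [Nat.mul_div_cancel_left _ e0, Nat.cast_mul]
    simp only [one_dvd, and_true, Int.mul_dvd_mul_iff_left (Int.natCast_ne_zero.2 e0.ne')]
    split_ifs
    · rw [FF, mul_assoc, mul_assoc]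
      simp only [pp, ofReal_div, ofReal_natCast, ofReal_intCast, inv_mul_eq_div,
        map_mul, map_natCast, mul_sub, mul_assoc, coe_im]
    · simp
  rw [l, r, Finset.mul_sum, Finset.mul_sum]
  refine Finset.sum_congr rfl fun e he => ?_
  obtain ⟨k, rfl⟩ := Nat.dvd_of_mem_divisors he
  have e0 := Nat.pos_of_mem_divisors he
  have k0 := Nat.pos_of_mul_pos_left hM
  rw [tsum_mul_left, tsum_mul_left, sub4 sT (Int.natCast_ne_zero.2 hN.ne')
    (Int.natCast_ne_zero.2 e0.ne'), Nat.mul_div_cancel_left _ e0,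
    sub4 sF (Int.natCast_ne_zero.2 k0.ne') one_ne_zero]
  simp only [tsum_mul_left, core h τ₁.im_pos τ₂.im_pos hN e0, mul_left_comm (ε _)]
  rw [← mul_assoc, ← mul_assoc, ← mul_assoc, s0]
  have n0 : (N : ℂ) ≠ 0 := Nat.cast_ne_zero.2 hN.ne'
  have e1 : (e : ℂ) ≠ 0 := Nat.cast_ne_zero.2 e0.ne'
  have k1 : (k : ℂ) ≠ 0 := Nat.cast_ne_zero.2 k0.ne'
  congr 1
  · push_cast [coe_im]
    field_simp
  · refine tsum_congr fun v => congrArg _ (tsum_congr fun a => tsum_congr fun b => ?_)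
    congr 2 <;> push_cast <;> field_simp

end Vale.Agent.P004C.Wa
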