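import Vale.Agent.P004C.Wa.Lift2

/-! # P004 C, block WA: the Shimizu lift -/

set_option autoImplicit false
set_option linter.all false

open Complex MeasureTheory Set CongruenceSubgroup
open UpperHalfPlane hiding I
open scoped MatrixGroups Real ComplexConjugate Classical

noncomputable section

namespace Vale.Agent.P004C.Wa

open Vale.Agent.P004Z.W2

namespace Lf

variable (τ₁ τ₂ : ℍ) (M : ℕ) (ε : ℤ → ℂ) (G : ℍ → ℂ)

/-- the orbital integral -/
def JJ (r : ℤ × ℕ × ℕ) : ℂ :=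
  if 0 < r.1 ∧ r.2.2.Coprime M then ε r.1 * ee ((r.1 * r.2.2 : ℤ) * (τ₁ : ℂ)) *
    (G (ofComplex ((r.1 * (τ₂ : ℂ) + r.2.1) / r.2.2)) / r.2.2) else 0

variable {M ε G} {A : ℕ → ℂ}

theorem coe_up {t : ℕ} (ht : 0 < t) (τ : ℍ) : ((ofComplex (t * (τ : ℂ)) : ℍ) : ℂ) = t * τ := by
  rw [ofComplex_apply_of_im_pos (by simpa using mul_pos (Nat.cast_pos.2 ht) τ.im_pos)]

theorem fib (hε : Chr M ε) (h0 : ∀ n, ¬ n.Coprime M → A n = 0)
    (h1 : ∀ n, n.Coprime M → Hk ε G n (A n)) {t : ℕ} (ht : 0 < t) (m : ℕ) :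
    ∑ x ∈ m.divisorsAntidiagonal.sigma fun p => Finset.range p.2,
      JJ τ₁ τ₂ M ε G (t * x.1.1, x.2, x.1.2) =
      ε t * (A m * ee (m * (ofComplex (t * (τ₁ : ℂ)) : ℍ))) * up t G τ₂ := by
  rw [Finset.sum_sigma]
  by_cases c : m.Coprime M
  · have := h1 m c (ofComplex (t * (τ₂ : ℂ)))
    rw [up, show ∀ a b c d : ℂ, a * (b * c) * d = a * c * (b * d) from fun _ _ _ _ => by ring,
      ← this, Finset.mul_sum]
    refine Finset.sum_congr rfl fun p hp => ?_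
    obtain ⟨e, m0⟩ := Nat.mem_divisorsAntidiagonal.1 hp
    have p0 : 0 < p.1 := Nat.pos_of_ne_zero fun k => m0 (by rw [← e, k, zero_mul])
    simp only [Finset.mul_sum]
    refine Finset.sum_congr rfl fun b _ => ?_
    rw [JJ, if_pos ⟨by positivity, (e ▸ c).coprime_mul_left⟩, hε.mul, coe_up ht, coe_up ht, ← e]
    push_cast
    ring_nf
  · rw [h0 m c, zero_mul, mul_zero, zero_mul]
    refine Finset.sum_eq_zero fun p hp => Finset.sum_eq_zero fun b _ => ?_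
    obtain ⟨e, m0⟩ := Nat.mem_divisorsAntidiagonal.1 hp
    rw [JJ]
    split_ifs with k
    · rw [hε.mul, (hε.zero p.1).2 fun k' => c (e ▸ (Nat.isCoprime_iff_coprime.1 k').mul_left k.2)]
      simp
    · rfl

theorem one_t (hε : Chr M ε) (hq : QE G A) (h0 : ∀ n, ¬ n.Coprime M → A n = 0)
    (h1 : ∀ n, n.Coprime M → Hk ε G n (A n)) (s : Summable fun r : Rp => JJ τ₁ τ₂ M ε G r.1)
    {t : ℕ} (ht : 0 < t) : HasSum (fun r : Rp => if t ∣ r.1.1.natAbs then JJ τ₁ τ₂ M ε G r.1 else 0)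
      (ε t * up t G τ₁ * up t G τ₂) := by
  set ι : (Σ m : ℕ, (m.divisorsAntidiagonal.sigma fun p => Finset.range p.2)) → Rp := fun x =>
    ⟨(t * x.2.1.1.1, x.2.1.2, x.2.1.1.2), by
      obtain ⟨k1, k2⟩ := Finset.mem_sigma.1 x.2.2
      obtain ⟨e, m0⟩ := Nat.mem_divisorsAntidiagonal.1 k1
      have p0 : 0 < x.2.1.1.1 := Nat.pos_of_ne_zero fun k => m0 (by rw [← e, k, zero_mul])
      exact ⟨by positivity, Finset.mem_range.1 k2⟩⟩ with hι
  have inj : Function.Injective ι := by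
    rintro ⟨m, ⟨⟨a, d⟩, b⟩, k⟩ ⟨m', ⟨⟨a', d'⟩, b'⟩, k'⟩ e
    simp only [hι, Subtype.mk.injEq, Prod.mk.injEq, mul_eq_mul_left_iff, Nat.cast_inj,
      Nat.cast_eq_zero, ht.ne', or_false] at e
    obtain ⟨rfl, rfl, rfl⟩ := e
    obtain rfl : m = m' := (Nat.mem_divisorsAntidiagonal.1 (Finset.mem_sigma.1 k).1).1.symm.trans
      (Nat.mem_divisorsAntidiagonal.1 (Finset.mem_sigma.1 k').1).1
    rfl
  rw [← inj.hasSum_iff]
  · have e : ((fun r : Rp => if t ∣ r.1.1.natAbs then JJ τ₁ τ₂ M ε G r.1 else 0) ∘ ι) =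
        (fun r : Rp => JJ τ₁ τ₂ M ε G r.1) ∘ ι := funext fun x => if_pos (by
      simp [hι, Int.natAbs_mul])
    have k := (s.comp_injective inj).hasSum
    have k' := k.sigma fun m => Finset.hasSum _ fun x : Σ _ : ℕ × ℕ, ℕ =>
      JJ τ₁ τ₂ M ε G (t * x.1.1, x.2, x.1.2)
    simp only [fib τ₁ τ₂ hε h0 h1 ht] at k'
    rw [e, up, ← k'.unique (((hq _).mul_left _).mul_right _)]
    exact k
  · rintro ⟨⟨a, b, d⟩, ha, hb⟩ k
    simp only [JJ]
    split_ifs with k1 k2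
    · obtain ⟨a, rfl⟩ := Int.eq_ofNat_of_zero_le k2.1.le
      obtain ⟨a, rfl⟩ : t ∣ a := by simpa using k1
      simp only [ne_eq, Nat.cast_eq_zero, mul_eq_zero, not_or] at ha hb
      exact absurd ⟨⟨a * d, ⟨(a, d), b⟩, Finset.mem_sigma.2 ⟨Nat.mem_divisorsAntidiagonal.2
        ⟨rfl, mul_ne_zero ha.2 (by omega)⟩, Finset.mem_range.2 hb⟩⟩, by simp [hι]⟩ k
    · rfl
    · rfl

theorem fin {D : ℕ} (hD : D ≠ 0) (hε : Chr M ε) (hq : QE G A) (h0 : ∀ n, ¬ n.Coprime M → A n = 0)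
    (h1 : ∀ n, n.Coprime M → Hk ε G n (A n)) (s : Summable fun r : Rp => JJ τ₁ τ₂ M ε G r.1) :
    HasSum (fun r : Rp => ((∑ t ∈ (Nat.gcd r.1.1.natAbs D).divisors, t : ℕ) : ℂ) *
      JJ τ₁ τ₂ M ε G r.1) (∑ t ∈ D.divisors, t * ε t * up t G τ₁ * up t G τ₂) := by
  have := hasSum_sum (s := D.divisors) fun t ht =>
    (one_t τ₁ τ₂ hε hq h0 h1 s (Nat.pos_of_mem_divisors ht)).mul_left (t : ℂ)
  simp only [← mul_assoc] at this
  refine this.congr_fun fun r => ?_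
  have e : (Nat.gcd r.1.1.natAbs D).divisors = D.divisors.filter (· ∣ r.1.1.natAbs) := by
    ext t
    simp [Nat.dvd_gcd_iff, hD, and_comm]
  rw [e, Finset.sum_filter, Nat.cast_sum, Finset.sum_mul]
  refine Finset.sum_congr rfl fun t _ => ?_
  split_ifs <;> simp

theorem mem_H {D : ℕ} (hD : Squarefree D) (c : D.Coprime M) (a : ℤ) (γ : SL(2, ℤ)) :
    γ ∈ Gamma0 (M * (D / Nat.gcd a.natAbs D)) ↔ γ ∈ Gamma0 M ∧ (D : ℤ) ∣ γ 1 0 * a := by
  obtain ⟨x, y, k, ha, hy⟩ := Nat.exists_coprime a.natAbs D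
  have g0 : 0 < Nat.gcd a.natAbs D := Nat.gcd_pos_of_pos_right _ (Nat.pos_of_ne_zero hD.ne_zero)
  have e : D / Nat.gcd a.natAbs D = y := Nat.div_eq_of_eq_mul_left g0 hy
  have e2 : (D : ℤ) ∣ γ 1 0 * a ↔ (y : ℤ) ∣ γ 1 0 := by
    rw [Int.natCast_dvd, Int.natCast_dvd, Int.natAbs_mul]
    generalize Nat.gcd a.natAbs D = g at *
    rw [ha, hy, ← mul_assoc, Nat.mul_dvd_mul_iff_right g0]
    exact k.symm.dvd_mul_right
  rw [mem0, mem0, e, e2, Nat.cast_mul]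
  exact ⟨fun k => ⟨(Dvd.intro _ rfl).trans k, (Dvd.intro_left _ rfl).trans k⟩, fun k =>
    (Nat.isCoprime_iff_coprime.2 (c.coprime_dvd_left ⟨_, hy⟩).symm).mul_dvd k.1 k.2⟩

theorem main : LIFT := by
  intro M D ε G A hM hD c hε hG hq h0 h1 τ₁ τ₂
  have M0 : 0 < M := by omega
  refine ⟨Measurable.tsum fun X => ?_, fun γ hγ τ => ?_, ?_⟩
  · split_ifs
    · simpa only [k0, ← mul_assoc] using ((cont_k0 τ₁ τ₂ X).const_mul (ε X.1)).measurable
    · exact measurable_const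
  · rw [mul_kM _ _ c, mul_kM _ _ c, ← (actE γ).tsum_eq]
    refine tsum_congr fun X => ?_
    simp only [actE, Equiv.coe_fn_mk, tm_act τ₁ τ₂ hε hG (le0 _ _ hγ),
      dv ((Dvd.intro_left _ (Nat.cast_mul M D).symm).trans (mem0.1 hγ))]
  obtain ⟨K, ρ, ρ0, ρ1, h⟩ := orb_rp τ₁ τ₂ M0 hε hG
  have sm : Summable fun r : Rp => K * (ρ ^ r.1.1.natAbs * (ρ ^ r.1.2.1 * ρ ^ r.1.2.2)) := by
    have g := summable_geometric_of_lt_one ρ0 ρ1
    have g1 : Summable fun a : ℤ => ρ ^ a.natAbs := .of_nat_of_neg (by simpa only [Int.natAbs_natCast])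
      (by simpa only [Int.natAbs_neg, Int.natAbs_natCast])
    exact ((g1.mul_of_nonneg (g.mul_of_nonneg g (fun _ => by positivity) fun _ => by positivity)
      (fun _ => by positivity) fun _ => by positivity).mul_left K).comp_injective
      Subtype.val_injective
  have s1 : Summable fun r : Rp => ∫ σ, ‖tm τ₁ τ₂ M ε G (rp r) σ‖ :=
    .of_nonneg_of_le (fun r => integral_nonneg fun _ => norm_nonneg _) (fun r => (h r).2.1) sm
  have := P004.H26.H86.sl_countable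
  have u := unf (wt_wt (Gamma0 (M * D))).meas (R := Rp)
    (ι := fun r => Gamma0 (M * (D / Nat.gcd r.1.1.natAbs D))) (fun r γ => γ.1)
    (fun r => 2 * ∑ t ∈ (Nat.gcd r.1.1.natAbs D).divisors, t) (fun r => by
      have d := Nat.gcd_dvd_right r.1.1.natAbs D
      have e : M * D = M * (D / Nat.gcd r.1.1.natAbs D) * Nat.gcd r.1.1.natAbs D := by
        rw [mul_assoc, Nat.div_mul_cancel d]
      have i := idx (M * (D / Nat.gcd r.1.1.natAbs D)) (hD.squarefree_of_dvd d)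
        ((c.coprime_dvd_left d).mul_right (Nat.coprime_of_squarefree_mul
          (by rwa [Nat.mul_div_cancel' d])))
      rw [← e] at i
      rw [← i]
      refine cnt (e ▸ le0 _ _) (wt_wt _) ?_
      rw [i]
      exact (Finset.sum_pos (fun t ht => Nat.pos_of_mem_divisors ht)
        (Nat.nonempty_divisors.2 (hD.squarefree_of_dvd d).ne_zero)).ne')
    (fun r => (cont_tm τ₁ τ₂ hG (rp r)).measurable) (fun r => (h r).1)
    (.of_nonneg_of_le (fun r => mul_nonneg (Nat.cast_nonneg _)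
      (integral_nonneg fun _ => norm_nonneg _)) (fun r => mul_le_mul_of_nonneg_right
        (Nat.cast_le.2 (Nat.mul_le_mul_left 2 (Finset.sum_le_sum_of_subset
          (Nat.divisors_subset_of_dvd hD.ne_zero (Nat.gcd_dvd_right _ _)))))
        (integral_nonneg fun _ => norm_nonneg _)) (s1.mul_left _))
  have e : (fun τ => G τ * kM M (M * D) ε τ₁ τ₂ τ) = fun τ =>
      ∑' x : Σ r : Rp, Gamma0 (M * (D / Nat.gcd r.1.1.natAbs D)),
        tm τ₁ τ₂ M ε G (rp x.1) (x.2.1⁻¹ • τ) := funext fun τ => by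
    rw [mul_kM _ _ c, ← Function.Injective.tsum_eq (g := fun x : Σ r : Rp,
      Gamma0 (M * (D / Nat.gcd r.1.1.natAbs D)) => act x.2.1 (rp x.1))]
    · refine tsum_congr fun x => ?_
      have k := (mem_H hD c _ _).1 x.2.2
      rw [if_pos (by simpa [act, rp] using k.2), ← tm_act τ₁ τ₂ hε hG k.1 (rp x.1),
        smul_inv_smul]
    · rintro ⟨r, γ, hγ⟩ ⟨r', γ', hγ'⟩ k
      obtain ⟨rfl, rfl⟩ := rp_inj k
      rfl
    · intro X hX
      simp only [Function.mem_support, tm, ne_eq, ite_eq_right_iff, Classical.not_imp,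
        mul_eq_zero, not_or, hε.zero, not_not] at hX
      obtain ⟨k1, ⟨k2, k3⟩, k4, -⟩ := hX
      obtain ⟨γ, r, rfl⟩ := rp_surj (X := X) fun k => by
        have := (k4.mul_left k3).isUnit_of_dvd' (x := (M : ℤ))
          (by rw [sub_eq_zero.1 k]; exact k2.mul_left _) dvd_rfl
        rw [Int.isUnit_iff] at this
        omega
      simp only [act, rp, mul_zero, add_zero] at k1 k2 k4
      exact ⟨⟨r, γ, (mem_H hD c _ _).2
        ⟨mem0.2 (k4.of_mul_left_right.symm.dvd_of_dvd_mul_right k2), k1⟩⟩, rfl⟩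
  have κ : (2 * I * (τ₂.im / τ₁.im) : ℂ) ≠ 0 := by simp [τ₁.im_ne_zero, τ₂.im_ne_zero]
  have s2 : Summable fun r : Rp => JJ τ₁ τ₂ M ε G r.1 := by
    rw [← summable_mul_left_iff κ]
    refine .of_norm_bounded s1 fun r => ?_
    rw [JJ, ← (h r).2.2]
    exact norm_integral_le_integral_norm _
  rw [e]
  refine ⟨u.1, u.2.unique ?_⟩
  refine ((fin τ₁ τ₂ hD.ne_zero hε hq h0 h1 s2).mul_left
    (4 * I * (τ₂.im / τ₁.im))).congr_fun fun r => ?_
  rw [(h r).2.2, JJ]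
  push_cast
  ring

end Lf

/-- **the Shimizu lift** -/
theorem lift : LIFT := Lf.main

end Vale.Agent.P004C.Wa
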