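import Vale.Agent.P004C.Wa.Per0

/-! # P004 C, block WA: row PER -/

set_option autoImplicit false
set_option linter.all false

open NumberField Module UpperHalfPlane CongruenceSubgroup
open scoped Classical MatrixGroups ComplexConjugate

noncomputable section

namespace Vale.Agent.P004C.Wa

namespace Pe

variable {K : Type} [Field K] [NumberField K] {J : K →+* ℂ} {I I' : Ideal (𝓞 K)} {D M : ℕ}
  {θ ν : 𝓞 K} {n n' : Ideal (𝓞 K)} {ε : ℤ → ℂ} {a : Ideal (𝓞 K) → ℂ} {G : ℍ → ℂ}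

theorem ad2 (h : Kd J D θ) (hs : Sp M n n') (hD : D.Coprime M) (i : ℕ)
    (hI : (Ideal.absNorm I).Coprime (M * D)) : ∃ (ω : K) (τ : ℍ), Bs (Iv J I) (J ω) τ ∧
      ∀ x ∈ I, ∃ y ∈ n' ^ i * Ideal.span {θ}, x * ω = y ∧ y - x ∈ n := by
  have md := h.md
  have I0 : I ≠ ⊥ := by
    rintro rfl
    rw [Ideal.absNorm_bot, Nat.coprime_zero_left, mul_eq_one] at hI
    omega
  obtain ⟨ν, v, v'⟩ := ex_nu hs
  obtain ⟨e, f, ef⟩ := Nat.isCoprime_iff_coprime.2 hD
  have ef' : (e : 𝓞 K) * D + f * M = 1 := by exact_mod_cast congrArg (Int.cast : ℤ → 𝓞 K) ef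
  have sq := h.sq
  obtain ⟨μ, hμ⟩ : ∃ μ : 𝓞 K, μ = ν * e * D + f * M := ⟨_, rfl⟩
  have m1 : μ ^ i ∈ n' ^ i := Ideal.pow_mem_pow (hμ ▸ add_mem
    (n'.mul_mem_right _ (n'.mul_mem_right _ v)) (n'.mul_mem_left _ (M_mem hs).2)) i
  obtain ⟨g, hg⟩ := sub_one_dvd_pow_sub_one μ i
  rw [show μ - 1 = (ν - 1) * e * D by linear_combination hμ + ef'] at hg
  generalize μ ^ i = m at m1 hg
  have S1 : m * (f * M - θ * e) * θ - 1 ∈ n := by
    rw [show m * (f * M - θ * e) * θ - 1 = M * (m * f * (θ - 1)) + (ν - 1) * (e * D * g) by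
      linear_combination hg + m * ef' - m * e * sq]
    exact add_mem (n.mul_mem_right _ (M_mem hs).1) (n.mul_mem_right _ v')
  obtain ⟨ω, τ, B, k⟩ := adapt h I0 (m * (f * M - θ * e) * θ) (Q := M ^ (i + 1) * D)
    (Nat.mul_pos (pow_pos hs.pos _) (by omega)) fun p hp q => by
    rcases (Nat.Prime.dvd_mul hp).1 q with q | q
    · exact not_dvd hs hI.coprime_mul_right_right S1 hp (hp.dvd_of_dvd_pow q)
    rintro ⟨y, hy⟩
    obtain ⟨c, hc⟩ := id q
    have hc' : (D : 𝓞 K) = p * c := by rw [hc, Nat.cast_mul]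
    have e1 : -(Ideal.absNorm I * (m * (f * M - θ * e)) * c : 𝓞 K) = y * θ :=
      mul_left_cancel₀ (Nat.cast_ne_zero.2 hp.ne_zero : (p : 𝓞 K) ≠ 0) (by
        linear_combination θ * hy - Ideal.absNorm I * (m * (f * M - θ * e)) * (sq - hc'))
    have := Ideal.absNorm_dvd_absNorm_of_le ((Ideal.span_singleton_le_iff_mem (Ideal.span {θ})).2
      (Ideal.mem_span_singleton'.2 (show ∃ u, u * θ = ((Ideal.absNorm I * c : ℕ) : 𝓞 K) from
        ⟨-y + Ideal.absNorm I * c * ((ν - 1) * e * θ * g - m * e * θ + m * e), by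
          push_cast
          linear_combination e1 + Ideal.absNorm I * c * (hg + m * ef' +
            ((ν - 1) * e * g - m * e) * sq)⟩)))
    rw [nm_θ h, nm_nat h.two] at this
    rcases (Nat.Prime.dvd_mul hp).1 (hp.dvd_of_dvd_pow (q.trans this)) with r | r
    · exact hp.one_lt.ne' (Nat.eq_one_of_dvd_coprimes hI.coprime_mul_left_right r q)
    · exact hp.prime.not_unit (h.sqf p (hc ▸ mul_dvd_mul_left p r))
  refine ⟨ω, τ, B, fun x hx => ?_⟩
  obtain ⟨y, hy⟩ := k x hx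
  refine ⟨_, ?_, hy, ?_⟩
  · rw [show x * (m * (f * M - θ * e) * θ) + (M ^ (i + 1) * D : ℕ) * y =
      (m * (x * (f * M - θ * e)) - M ^ i * (M * y * θ)) * θ by
        push_cast
        linear_combination M ^ i * M * y * sq]
    exact Ideal.mul_mem_mul (sub_mem (Ideal.mul_mem_right _ _ m1) (Ideal.mul_mem_right _ _
      (Ideal.pow_mem_pow (M_mem hs).2 i))) (Ideal.mem_span_singleton_self θ)
  · rw [show x * (m * (f * M - θ * e) * θ) + (M ^ (i + 1) * D : ℕ) * y - x =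
      x * (m * (f * M - θ * e) * θ - 1) + M * (M ^ i * D * y) by push_cast; ring]
    exact add_mem (n.mul_mem_left _ S1) (n.mul_mem_right _ (M_mem hs).1)

/-- the ramified neighbours -/
theorem nb (h : Kd J D θ) {t : ℕ} (ht : t ∣ D) : ∃ r : Ideal (𝓞 K),
    r * r = Ideal.span {(t : 𝓞 K)} ∧ ∀ I (w : ℂ) (τ : ℍ), Bs (Iv J I) w τ →
      (∀ x ∈ I, ∃ y : 𝓞 K, J x * w = J θ * J y) →
      Bs (Iv J (r * I)) (w / t) (ofComplex (t * τ)) := by
  obtain ⟨e, rfl⟩ := ht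
  have cp := Nat.isCoprime_iff_coprime.2 (Nat.coprime_of_squarefree_mul h.sqf)
  have tp : 0 < t := Nat.pos_of_ne_zero fun k => by simpa [k] using h.md
  have t0 : (t : ℂ) ≠ 0 := Nat.cast_ne_zero.2 tp.ne'
  have sq := h.sq
  push_cast at sq
  have sq' : J θ ^ 2 = -(t * e) := by simpa using congrArg (fun x : 𝓞 K => J x) sq
  refine ⟨Ideal.span {θ, (t : 𝓞 K)}, le_antisymm ?_ ?_, fun I w τ B k => ?_⟩
  · rw [Ideal.span_pair_mul_span_pair, Ideal.span_le]
    rintro _ (rfl | rfl | rfl | rfl) <;> refine Ideal.mem_span_singleton'.2 ?_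
    exacts [⟨-e, by linear_combination -sq⟩, ⟨θ, rfl⟩, ⟨θ, mul_comm _ _⟩, ⟨t, rfl⟩]
  · obtain ⟨u, v, uv⟩ := cp
    have uv' : (u : 𝓞 K) * t + v * e = 1 := by exact_mod_cast congrArg (Int.cast : ℤ → 𝓞 K) uv
    have m1 : θ ∈ Ideal.span {θ, (t : 𝓞 K)} := Ideal.subset_span (by simp)
    have m2 : (t : 𝓞 K) ∈ Ideal.span {θ, (t : 𝓞 K)} := Ideal.subset_span (by simp)
    rw [Ideal.span_singleton_le_iff_mem]
    convert sub_mem (Ideal.mul_mem_left _ (u : 𝓞 K) (Ideal.mul_mem_mul m2 m2))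
      (Ideal.mul_mem_left _ (v : 𝓞 K) (Ideal.mul_mem_mul m1 m1)) using 1
    linear_combination v * sq - t * uv'
  have c : ((ofComplex (t * τ) : ℍ) : ℂ) = t * τ :=
    congrArg _ (ofComplex_apply_of_im_pos (by simpa using mul_pos (Nat.cast_pos.2 tp) τ.im_pos))
  have k1 : J θ * (w / t) ∈ Iv J I := fun x hx => by
    obtain ⟨y, p⟩ := k x hx
    refine ⟨-(e * y), ?_⟩
    simp only [RingOfIntegers.coe_eq_algebraMap, map_neg, map_mul, map_natCast] at p sq' ⊢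
    field_simp
    linear_combination J (algebraMap _ _ θ) * p + J (algebraMap _ _ y) * sq'
  refine ⟨div_ne_zero B.1 t0, fun z => ?_⟩
  rw [mem_pair, c, show J (t : 𝓞 K) = t by simp]
  refine ⟨fun ⟨p, q⟩ => ?_, ?_⟩
  · obtain ⟨u, v, q⟩ := (B.2 _).1 q
    have ez : z = w * (u * τ + v) / t := by rw [← q, mul_div_cancel_left₀ _ t0]
    have b1 := iv_int u k1
    have b2 := iv_add p (iv_int (-v) k1)
    obtain ⟨α, β, e1⟩ := (B.2 _).1 b1
    obtain ⟨α', β', e2⟩ := (B.2 _).1 (iv_add (iv_int α b2) (iv_int β b1))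
    have e3 : (u : ℂ) * (J θ / t) = α * τ + β := mul_left_cancel₀ B.1 (by rw [← e1]; ring)
    obtain ⟨-, f⟩ := lin_inj (τ := τ) (a := 0) (b := -(e * u ^ 2)) (a' := t * α') (b' := t * β')
      (mul_left_cancel₀ B.1 (by
        have i := mul_inv_cancel₀ t0
        rw [ez] at e2
        push_cast at e2 ⊢
        simp only [div_eq_mul_inv] at e2 e3
        linear_combination t * e2 + t * w * u * J θ * (t : ℂ)⁻¹ * e3 -
          w * u ^ 2 * (t : ℂ)⁻¹ * sq' * (t * (t : ℂ)⁻¹) +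
          w * u ^ 2 * e * (t * (t : ℂ)⁻¹ + 1) * i))
    obtain ⟨u', rfl⟩ := ((Int.squarefree_natCast.2 (h.sqf.squarefree_of_dvd
      (dvd_mul_right t e))).dvd_pow_iff_dvd two_ne_zero).1
      (cp.dvd_of_dvd_mul_left (dvd_neg.1 ⟨β', f⟩))
    exact ⟨u', v, by rw [ez]; push_cast; ring⟩
  · rintro ⟨u, v, rfl⟩
    constructor
    · convert iv_add (iv_mul θ (iv_int u B.tau)) (iv_int v k1) using 1
      field_simp
    · convert B.mem (u * t) v using 1
      push_cast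
      field_simp

/-- the data -/
structure Cx (J : K →+* ℂ) (D : ℕ) (θ : 𝓞 K) (M : ℕ) (n n' : Ideal (𝓞 K)) (ε : ℤ → ℂ)
    (a : Ideal (𝓞 K) → ℂ) (G : ℍ → ℂ) (ν : 𝓞 K) : Prop where
  k : Kd J D θ
  s : Sp M n n'
  e : Chr M ε
  a : Ha J n' ε a
  g : MW M ε G
  v : ν ∈ n'
  v' : ν - 1 ∈ n

/-- the terms of the period -/
def WW (J : K →+* ℂ) (M : ℕ) (ε : ℤ → ℂ) (G : ℍ → ℂ) (a : Ideal (𝓞 K) → ℂ) (ν : 𝓞 K)
    (I : Ideal (𝓞 K)) : ℂ := a I / ε (Ideal.absNorm I) * lf 1 M G (Iv J I) (J ν / M)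

namespace Cx

variable (c : Cx J D θ M n n' ε a G ν)
include c

theorem ne {d : ℤ} (h : IsCoprime d (M : ℤ)) : ε d ≠ 0 := fun e => (c.e.zero d).1 e h

theorem val {w : ℂ} {τ : ℍ} (B : Bs (Iv J I) w τ) {d : ℤ} (hd : IsCoprime d (M : ℤ))
    (h : ∀ x ∈ I, ∃ y ∈ n', J x * (d * w) = J y ∧ y - x ∈ n) :
    lf 1 M G (Iv J I) (J ν / M) = ε d * G τ / w := by
  rw [lf_eq c.s.pos (fun γ m τ => by rw [pow_one, c.g.law γ m]) B hd c.e.per, pow_one]
  intro x hx
  obtain ⟨y, m, e, m'⟩ := h x hx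
  obtain ⟨t, ht⟩ := inf_mem c.s (x := y - x * ν) (by
    convert sub_mem m' (n.mul_mem_left x c.v') using 1
    ring) (sub_mem m (n'.mul_mem_left _ c.v))
  have := congrArg (fun x : 𝓞 K => J x) ht
  have M0 : (M : ℂ) ≠ 0 := Nat.cast_ne_zero.2 c.s.pos.ne'
  refine ⟨t, ?_⟩
  simp only [RingOfIntegers.coe_eq_algebraMap, map_sub, map_mul, map_natCast] at this e ⊢
  field_simp
  linear_combination this + e

theorem span {x : 𝓞 K} (hx : x ≠ 0) (I0 : I ≠ ⊥)
    (h : (Ideal.absNorm (Ideal.span {x} * I)).Coprime M) :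
    WW J M ε G a ν (Ideal.span {x} * I) = WW J M ε G a ν I := by
  rw [map_mul] at h
  obtain ⟨ω, τ, B, k⟩ := adapt c.k I0 ν c.s.pos fun p hp q =>
    not_dvd c.s h.coprime_mul_left c.v' hp q
  have k' : ∀ u ∈ I, ∃ y ∈ n', J u * J ω = J y ∧ y - u ∈ n := fun u hu => by
    obtain ⟨y, e⟩ := k u hu
    refine ⟨_, add_mem (n'.mul_mem_left u c.v) (n'.mul_mem_right y (M_mem c.s).2),
      by rw [← map_mul, e], ?_⟩
    convert add_mem (n.mul_mem_left u c.v') (n.mul_mem_right y (M_mem c.s).1) using 1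
    ring
  obtain ⟨d, hd⟩ := c.s.cn x
  obtain ⟨l, hl⟩ := c.s.cn' x
  obtain ⟨q, hq⟩ := nm_cong c.k c.s hd hl
  have cp : IsCoprime (d * l) (M : ℤ) := by
    have := (Nat.isCoprime_iff_coprime.2 h.coprime_mul_right).add_mul_left_left (-q)
    rwa [show (Ideal.absNorm (Ideal.span {x}) : ℤ) + M * -q = d * l by linear_combination hq]
      at this
  have x0 : J x ≠ 0 := fun e => hx (J_inj (J := J) (by simpa using e))
  have B' : Bs (Iv J (Ideal.span {x} * I)) (J ω / J x) τ := ⟨div_ne_zero B.1 x0, fun z => by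
    rw [mem_one, B.2]
    refine exists₂_congr fun u v => ?_
    rw [div_mul_eq_mul_div, eq_div_iff x0, mul_comm z]⟩
  have d0 := c.ne cp.of_mul_left_left
  have l0 := c.ne cp.of_mul_left_right
  rw [WW, WW, c.val B isCoprime_one_left (by simpa using k'), c.val B' cp.of_mul_left_left,
    c.a.hc.mul, c.a.fin x l hx hl, map_mul, Nat.cast_mul, c.e.mul, c.e.per _ _ ⟨q, hq⟩, c.e.mul,
    c.e.one]
  · field_simp
  · intro u hu
    obtain ⟨u, m, rfl⟩ := Ideal.mem_span_singleton_mul.1 hu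
    obtain ⟨y, m', e, m''⟩ := k' u m
    refine ⟨d * y, n'.mul_mem_left _ m', ?_, ?_⟩
    · simp only [RingOfIntegers.coe_eq_algebraMap, map_mul, map_intCast] at e x0 ⊢
      field_simp
      linear_combination d * e
    · convert sub_mem (n.mul_mem_left (d : 𝓞 K) m'') (n.mul_mem_right u hd) using 1
      ring

theorem cls (I0 : I ≠ ⊥) (I1 : I' ≠ ⊥) (h : (Ideal.absNorm I).Coprime M)
    (h' : (Ideal.absNorm I').Coprime M) (e : cl I = cl I') :
    WW J M ε G a ν I = WW J M ε G a ν I' := by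
  obtain ⟨x, y, x0, y0, e⟩ := cl_eq I0 I1 e
  obtain ⟨I₁, e1, n1⟩ := ex_inv c.k.two I0
  have e2 : Ideal.span {x * Ideal.absNorm I} = Ideal.span {y} * (I' * I₁) := by
    rw [← Ideal.span_singleton_mul_span_singleton, e1, ← mul_assoc, e, mul_assoc]
  obtain ⟨z, -, hz⟩ := Ideal.mem_span_singleton_mul.1 (e2.le (Ideal.mem_span_singleton_self _))
  rw [← hz, ← Ideal.span_singleton_mul_span_singleton,
    mul_right_inj' (mt Ideal.span_singleton_eq_bot.1 y0)] at e2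
  have N0 : (Ideal.absNorm I : 𝓞 K) ≠ 0 := Nat.cast_ne_zero.2 (nm_ne I0)
  have e3 : Ideal.span {z} * I = Ideal.span {(Ideal.absNorm I : 𝓞 K)} * I' := by
    rw [e2, e1]
    ring
  have cp : (Ideal.absNorm (Ideal.span {z} * I)).Coprime M := by
    rw [e2, map_mul, map_mul, n1]
    exact (h'.mul_left h).mul_left h
  rw [← c.span (x := z) (fun k => mul_ne_zero x0 N0 (by rw [← hz, k, mul_zero])) I0 cp,
    ← c.span N0 I1 (e3 ▸ cp), e3]

end Cx

end Pe

open Pe in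
theorem per_row : PER := by
  refine ⟨fun k M ε G hM _ hG Λ P ω τ d B hd hε e => lf_eq hM hG B hd hε e,
    fun K _ _ J D θ h M n n' hs hD => ⟨fun I i hI => ad2 h hs hD i hI,
      fun ε a G ν R ω τ h1 h2 h3 h4 h5 hR hB => ?_⟩⟩
  have c : Cx J D θ M n n' ε a G ν := ⟨h, hs, h1, h2, h3, h4, h5⟩
  have cp := fun C => (hR.cop C).coprime_mul_right_right
  refine ⟨fun R' r => Finset.sum_congr rfl fun C _ => c.cls (r.ne C) (hR.ne C) (r.cop C) (cp C)
    ((r.eq C).trans (hR.eq C).symm), fun t ht => ?_⟩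
  have td := Nat.dvd_of_mem_divisors ht
  have t0 : t ≠ 0 := (Nat.pos_of_mem_divisors ht).ne'
  have tc : (t : ℂ) ≠ 0 := Nat.cast_ne_zero.2 t0
  have tM := hD.coprime_dvd_left td
  have tM' := Nat.isCoprime_iff_coprime.2 tM
  obtain ⟨r, rr, hr⟩ := nb h td
  have nr : Ideal.absNorm r = t := by
    refine Nat.pow_left_injective two_ne_zero ?_
    beta_reduce
    rw [← nm_nat h.two t, ← rr, map_mul, sq]
  have r0 : r ≠ ⊥ := fun e => t0 (by rw [← nr, e, Ideal.absNorm_bot])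
  have ar : a r ^ 2 = (t : ℂ)⁻¹ * ε t := by
    rw [sq, ← h2.hc.mul, rr, h2.fin t t (Nat.cast_ne_zero.2 t0) (by simp)]
    simp
  have key : per J M ε G a ν R =
      a r * t * ∑ C, a (R C) / ε (Ideal.absNorm (R C)) * up t G (τ C) / J (ω C) := by
    rw [Finset.mul_sum, per, ← Equiv.sum_comp (Equiv.mulLeft (cl r))]
    refine Finset.sum_congr rfl fun C _ => (c.cls (hR.ne _) (mul_ne_zero r0 (hR.ne C)) (cp _)
      (by rw [map_mul, nr]; exact tM.mul_left (cp C))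
      (by rw [hR.eq, cl_mul r0 (hR.ne C), hR.eq]; rfl)).trans ?_
    have k : ∀ x ∈ R C, ∃ y ∈ n' * Ideal.span {θ}, J x * J (ω C) = J y ∧ y - x ∈ n :=
      fun x hx => let ⟨y, p, q, s⟩ := (hB C).2 x hx; ⟨y, p, by rw [← map_mul, q], s⟩
    have := c.ne tM'
    rw [WW, c.val (hr _ _ _ (hB C).1 fun x hx => ?_) tM' fun x hx => ?_, h2.hc.mul, map_mul, nr,
      Nat.cast_mul, h1.mul, up]
    · field_simp
    · obtain ⟨y, p, q, -⟩ := k x hx
      obtain ⟨u, rfl⟩ := Ideal.mem_span_singleton.1 (Ideal.mul_le_right p)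
      exact ⟨u, by simpa using q⟩
    · obtain ⟨y, p, q, s⟩ := k x (Ideal.mul_le_right hx)
      exact ⟨y, Ideal.mul_le_left p, by rw [← q, Int.cast_natCast, mul_div_cancel₀ _ tc], s⟩
  rw [key, mul_pow, mul_pow, ar]
  field_simp

end Vale.Agent.P004C.Wa
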