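import Vale.Agent.P004C.Wa.Rs0

/-!
# P004 C, block WA, row RS: the Rankin-Selberg integral
-/

open UpperHalfPlane hiding I
open Complex CongruenceSubgroup MeasureTheory Set Filter Asymptotics
open scoped MatrixGroups Real Modular ComplexConjugate ENNReal Topology

noncomputable section

namespace Vale.Agent.P004C.Wa

namespace Rs

open P004Z.W2 (fm wt wt_wt mpS)
open P004Z.Lf (St meas_St pt pt_im pt_coe int_box im_box)
open P004.H26.H86

/-! ### unfolding -/

theorem sum_map (Γ : Subgroup SL(2, ℤ)) :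
    (Measure.sum fun γ : Γ => (fm Γ).map (γ.1 • ·)) = (2 : ℝ≥0∞) • volume := by
  have := sl_countable
  have m := (wt_wt Γ).meas
  refine Measure.ext_of_lintegral _ fun φ p => ?_
  rw [lintegral_sum_measure, lintegral_smul_measure, smul_eq_mul, ← lintegral_const_mul _ p,
    ← (Equiv.inv Γ).tsum_eq, tsum_congr (g := fun γ : Γ => ∫⁻ z, wt Γ (γ.1 • z) * φ z) fun γ => ?_,
    ← lintegral_tsum (f := fun (γ : Γ) z => wt Γ (γ.1 • z) * φ z)
      fun γ => ((m.comp (mpS γ.1).measurable).mul p).aemeasurable]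
  · exact lintegral_congr_ae ((wt_wt Γ).two.mono fun z k => by
      simp only [ENNReal.tsum_mul_right, k])
  · rw [lintegral_map p (mpS _).measurable, fm,
      lintegral_withDensity_eq_lintegral_mul _ m (g := fun z => φ (_ • z))
        (p.comp (mpS _).measurable), ← (mpS γ.1⁻¹).lintegral_comp
        (f := fun z => wt Γ (γ.1 • z) * φ z) ((m.comp (mpS γ.1).measurable).mul p)]
    simp

theorem unf0 (Γ : Subgroup SL(2, ℤ)) {E : Type} [NormedAddCommGroup E] [NormedSpace ℝ E]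
    {K : ℍ → E} (h : Integrable K) : (∀ γ : Γ, Integrable (fun τ => K (γ.1 • τ)) (fm Γ)) ∧
      HasSum (fun γ : Γ => ∫ τ, K (γ.1 • τ) ∂fm Γ) ((2 : ℝ) • ∫ τ, K τ) := by
  have := sl_countable
  have h1 : Integrable K (Measure.sum fun γ : Γ => (fm Γ).map (γ.1 • ·)) :=
    sum_map Γ ▸ h.smul_measure (by simp)
  have h2 := fun γ => h1.mono_measure (Measure.le_sum _ γ)
  refine ⟨fun γ => (h2 γ).comp_measurable (mpS _).measurable, ?_⟩
  have h3 := hasSum_integral_measure h1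
  rw [sum_map, integral_smul_measure] at h3
  simpa only [integral_map (mpS _).measurable.aemeasurable (h2 _).1, ENNReal.toReal_ofNat] using h3

theorem unf (Γ : Subgroup SL(2, ℤ)) {G : ℍ → ℂ} (hi : IntegrableOn G St) {c : ℕ → ℂ}
    (hc : Summable fun n => ‖c n‖) :
    ∫ τ, ∑' p : ℕ × Γ, c p.1 * St.indicator G (p.2.1 • τ) ∂fm Γ =
      (∑' n, c n) * (2 * ∫ τ in St, G τ) := by
  have := sl_countable
  have k := (integrable_indicator_iff meas_St).2 hi
  have h1 := hasSum_integral_of_summable_integral_norm (μ := fm Γ)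
    (F := fun (p : ℕ × Γ) τ => c p.1 * St.indicator G (p.2.1 • τ))
    (fun p => ((unf0 Γ k).1 p.2).const_mul _) (by
      simp only [norm_mul, integral_const_mul]
      exact hc.mul_of_nonneg (unf0 Γ k.norm).2.summable (fun _ => norm_nonneg _)
        fun _ => integral_nonneg fun _ => norm_nonneg _)
  simp only [integral_const_mul] at h1
  rw [← (h1.prod_fiberwise fun n => (unf0 Γ k).2.mul_left (c n)).tsum_eq, tsum_mul_right,
    integral_indicator meas_St, real_smul, ofReal_ofNat]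

theorem pw {a : ℝ} (h : 0 < a) (s : ℂ) : (a : ℂ) ^ s = exp (Real.log a * s) := by
  rw [cpow_def_of_ne_zero (ofReal_ne_zero.2 h.ne'), ofReal_log h.le]

theorem cp {m Y : ℝ} (hm : 0 < m) (hY : 0 < Y) (s : ℂ) :
    m / Y / ((m ^ 2 / Y : ℝ) : ℂ) ^ (s + 1) = (m : ℂ) ^ (-1 - 2 * s) * (Y : ℂ) ^ s := by
  rw [pw (by positivity), Real.log_div (by positivity) hY.ne', Real.log_pow, pw hm, pw hY,
    ← cpow_one (m : ℂ), ← cpow_one (Y : ℂ), pw hm, pw hY, ← exp_sub, ← exp_sub, ← exp_add]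
  push_cast
  ring_nf

variable {N : ℕ} {χ : ℤ → ℂ} {Φ : ℍ → ℂ}

/-- a term of the Eisenstein series -/
def es (N : ℕ) (χ : ℤ → ℂ) (s : ℂ) (τ : ℍ) (v : ℤ × ℤ) : ℂ :=
  χ v.2 * conj (uu τ (ei N v)) / ((‖uu τ (ei N v)‖ ^ 2 / τ.im : ℝ) : ℂ) ^ (s + 1)

theorem eis (H : Hy N χ Φ) (h1 : 1 < N) (s : ℂ) (τ : ℍ) : ∑' v, Φ τ / τ.im * es N χ s τ v =
    ∑' p : ℕ × Gamma0 N, χ (p.1 + 1) * (p.1 + 1 : ℂ) ^ (-1 - 2 * s) *
      St.indicator (fun z : ℍ => Φ z * (z.im : ℂ) ^ s) (p.2.1 • τ) := by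
  have dv : ∀ {γ : SL(2, ℤ)}, γ ∈ Gamma0 N ↔ (N : ℤ) ∣ γ 1 0 := by
    simp [Gamma0_mem, ZMod.intCast_zmod_eq_zero_iff_dvd]
  let ι : ℕ × Gamma0 N → ℤ × ℤ := fun p => ((p.1 + 1) * (p.2.1 1 0 / N), (p.1 + 1) * p.2.1 1 1)
  have i1 : ∀ p, (ι p).1 * N = (p.1 + 1) * p.2.1 1 0 := fun p => by
    simp only [ι, mul_assoc, Int.ediv_mul_cancel (dv.1 p.2.2)]
  have a : ∀ p, Φ τ / τ.im * es N χ s τ (ι p) = χ (p.1 + 1) * (p.1 + 1 : ℂ) ^ (-1 - 2 * s) *
      (Φ (p.2.1 • τ) * ((p.2.1 • τ).im : ℂ) ^ s) := fun p => by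
    have u : uu τ (ei N (ι p)) = (p.1 + 1 : ℝ) * jj p.2.1 τ := by
      simp only [uu, ei, i1]
      simp [ι, jj]
      ring
    have c := cp (m := p.1 + 1) (by positivity) (p.2.1 • τ).im_pos s
    have j := norm_pos_iff.2 (jj_ne p.2.1 τ)
    have y := τ.im_pos
    have q : ‖uu τ (ei N (ι p))‖ ^ 2 / τ.im = (p.1 + 1) ^ 2 / (p.2.1 • τ).im := by
      rw [u, im_jj, norm_mul, norm_real, Real.norm_of_nonneg (by positivity)]
      field_simp
    have w : (τ.im : ℂ) = (p.2.1 • τ).im * (jj p.2.1 τ * conj (jj p.2.1 τ)) := by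
      rw [mul_conj', im_jj]
      push_cast
      rw [div_mul_cancel₀ _ (pow_ne_zero 2 (ofReal_ne_zero.2 j.ne'))]
    have := jj_ne p.2.1 τ
    have := (map_ne_zero conj).2 this
    have := ofReal_ne_zero.2 (p.2.1 • τ).im_pos.ne'
    rw [es, q, u, map_mul, conj_ofReal, H.chr.mul, show (p.1 + 1 : ℂ) = (p.1 + 1 : ℝ) by simp,
      mul_mul_mul_comm _ (_ ^ _), ← c, w, (eq_div_iff (jj_ne _ _)).2
        ((mul_comm _ _).trans (H.law _ p.2.2 τ))]
    field_simp
  have e : ∀ (p : CP) (j : ℤ), Psi (p, j) • τ ∈ St ↔ j = -⌊(gp p • τ).re⌋ := fun p j => by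
    rw [Psi, mul_smul, eq_neg_iff_add_eq_zero, add_comm, ← Int.floor_add_intCast,
      Int.floor_eq_zero_iff, ← ModularGroup.re_T_zpow_smul]
    exact and_iff_left (im_pos _)
  have r : ∀ x (j : Fin 2), Psi x 1 j = gp x.1 1 j := fun x j => T_row _ _ _
  refine tsum_eq_tsum_of_ne_zero_bij (fun x => ι x.1) ?_ (fun v hv => ?_) fun x => by
    rw [a, indicator_of_mem (mem_of_indicator_ne_zero (right_ne_zero_of_mul x.2))]
  · rintro ⟨⟨n, γ, hγ⟩, h⟩ ⟨⟨m, δ, hδ⟩, k⟩ q
    obtain ⟨⟨p, i⟩, rfl⟩ := Psi_bij.2 γ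
    obtain ⟨⟨p', i'⟩, rfl⟩ := Psi_bij.2 δ
    have q1 := ((i1 _).symm.trans (congrArg (·.1 * (N : ℤ)) q)).trans (i1 _)
    have q2 := congrArg (·.2) q
    simp only [ι, r, gp0, gp1] at q1 q2
    obtain ⟨rfl, rfl⟩ := Prod.mk.inj
      (Phi_bij.1 (a₁ := (n, p)) (a₂ := (m, p')) (Subtype.ext (Prod.ext q1 q2)))
    obtain rfl := ((e _ _).1 (mem_of_indicator_ne_zero (right_ne_zero_of_mul h))).trans
      ((e _ _).1 (mem_of_indicator_ne_zero (right_ne_zero_of_mul k))).symm
    rfl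
  · have c : IsCoprime v.2 (N : ℤ) := by_contra fun c => hv (by simp [es, (H.chr.zero _).2 c])
    obtain ⟨⟨n, p⟩, q⟩ := Phi_bij.2 ⟨(v.1 * N, v.2), fun q => by
      rw [show v.2 = 0 from congrArg (·.2) q, isCoprime_zero_left, Int.isUnit_iff] at c
      omega⟩
    obtain ⟨q1, q2⟩ := Prod.mk.inj (congrArg (·.1) q)
    have g : Psi (p, -⌊(gp p • τ).re⌋) ∈ Gamma0 N := by
      rw [dv, r, gp0]
      exact (IsCoprime.of_mul_left_left (q2 ▸ c)).symm.dvd_of_dvd_mul_left (q1 ▸ dvd_mul_left _ _)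
    have f : ι (n, ⟨_, g⟩) = v := Prod.ext (mul_right_cancel₀ (b := (N : ℤ)) (by omega)
      (by rw [i1, ← q1, r, gp0])) (by simp only [ι, r, gp1, q2])
    refine ⟨⟨(n, ⟨_, g⟩), ?_⟩, f⟩
    rw [Function.mem_support, indicator_of_mem ((e _ _).2 rfl), ← a, f]
    exact hv

/-! ### Mellin transforms -/

theorem mel {f : ℝ → ℂ} (m : Measurable f) {k : ℕ} {C D : ℝ} (h0 : ∀ t, 0 < t → ‖f t‖ ≤ C)
    (h1 : ∀ t, 0 < t → ‖f t‖ ≤ D / t ^ k) {w : ℂ} (w0 : 0 < w.re) (w1 : w.re < k) :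
    MellinConvergent f w ∧ DifferentiableAt ℂ (mellin f) w := by
  have a : LocallyIntegrableOn f (Ioi 0) := (locallyIntegrableOn_iff isOpen_Ioi.isLocallyClosed).2
    fun K s c => Measure.integrableOn_of_bounded c.measure_ne_top m.aestronglyMeasurable
      (ae_restrict_of_forall_mem c.measurableSet fun t ht => h0 t (s ht))
  have b : f =O[atTop] (· ^ (-(k : ℝ))) := .of_bound D ((eventually_gt_atTop 0).mono fun t ht => by
    rw [Real.norm_of_nonneg (by positivity), Real.rpow_neg ht.le, Real.rpow_natCast]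
    exact h1 t ht)
  have c : f =O[𝓝[>] 0] (· ^ (-(0 : ℝ))) :=
    .of_bound C (eventually_nhdsWithin_of_forall fun t ht => by simpa using h0 t ht)
  exact ⟨mellinConvergent_of_isBigO_rpow a b w1 c w0,
    mellin_differentiableAt_of_isBigO_rpow a b w1 c w0⟩

/-- the integral of the theta function -/
def hh (N : ℕ) (χ : ℤ → ℂ) (Φ : ℍ → ℂ) (t : ℝ) : ℂ :=
  ∫ τ, Φ τ / τ.im * tt N χ τ t ∂fm (Gamma0 N)

theorem Hy.meas (H : Hy N χ Φ) :
    Measurable fun p : ℝ × ℍ => Φ p.2 / p.2.im * tt N χ p.2 p.1 := by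
  have a := H.cont.measurable
  have b := UpperHalfPlane.continuous_im.measurable
  have c := measurable_coe
  refine .mul (by fun_prop) (.tsum fun v => ?_)
  have d := continuous_conj.measurable
  fun_prop

theorem Hy.dif (H : Hy N χ Φ) {w : ℂ} (w0 : 0 < w.re) :
    DifferentiableAt ℂ (mellin (hh N χ Φ)) w := by
  have : NeZero N := ⟨H.pos.ne'⟩
  obtain ⟨k, hk⟩ := exists_nat_gt w.re
  obtain ⟨C, hC⟩ := H.bot
  obtain ⟨D, hD⟩ := H.top k
  refine (mel H.meas.stronglyMeasurable.integral_prod_right'.measurable (k := k + 2)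
    (D := D * (fm (Gamma0 N)).real univ) (fun t ht =>
      norm_integral_le_of_norm_le_const (Eventually.of_forall fun τ => hC τ t ht))
    (fun t ht => ?_) w0 (by push_cast; linarith)).2
  rw [mul_div_right_comm]
  exact norm_integral_le_of_norm_le_const (Eventually.of_forall fun τ => hD τ t ht)

theorem Hy.fub (H : Hy N χ Φ) {w : ℂ} (w0 : 0 < w.re) : mellin (hh N χ Φ) w =
    ∫ τ, Φ τ / τ.im * mellin (tt N χ τ) w ∂fm (Gamma0 N) := by
  have : NeZero N := ⟨H.pos.ne'⟩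
  obtain ⟨k, hk⟩ := exists_nat_gt w.re
  obtain ⟨C, hC⟩ := H.bot
  obtain ⟨D, hD⟩ := H.top k
  have b : ∀ t, 0 < t → ‖((min C (D / t ^ (k + 2)) : ℝ) : ℂ)‖ = min C (D / t ^ (k + 2)) :=
    fun t ht => by
      rw [norm_real, Real.norm_of_nonneg ((norm_nonneg _).trans (le_min (hC .I t ht) (hD .I t ht)))]
  have i := (mel (f := fun t => (min C (D / t ^ (k + 2)) : ℝ)) (by fun_prop) (k := k + 2)
    (fun t ht => (b t ht).trans_le (min_le_left _ _))
    (fun t ht => (b t ht).trans_le (min_le_right _ _)) w0 (by push_cast; linarith)).1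
  simp only [mellin, hh, smul_eq_mul, ← integral_const_mul]
  rw [integral_integral_swap ((i.norm.comp_fst _).mono'
    (Measurable.mul (by fun_prop) H.meas).aestronglyMeasurable ?_)]
  · simp only [mul_left_comm]
  filter_upwards [Measure.quasiMeasurePreserving_fst.ae (ae_restrict_mem measurableSet_Ioi)]
    with p hp
  rw [Function.uncurry, norm_smul, norm_mul, b _ hp]
  gcongr
  exact le_min (hC _ _ hp) (hD _ _ hp)

theorem mel_tt (hN : 0 < N) (h : ∀ a, ‖χ a‖ ≤ 1) (τ : ℍ) {s : ℂ} (hs : 1 < s.re) :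
    mellin (tt N χ τ) (s + 1) = π ^ (-(s + 1)) * Gamma (s + 1) * ∑' v, es N χ s τ v := by
  have y := τ.im_pos
  rw [← tsum_mul_left]
  refine (hasSum_mellin_pi_mul (a := fun v => χ v.2 * conj (uu τ (ei N v)))
    (q := fun v => ‖uu τ (ei N v)‖ ^ 2 / τ.im) (F := tt N χ τ) (s := s + 1) (fun v => ?_)
    (by simp; linarith) (fun t ht => ?_) ?_).tsum_eq.symm.trans (by simp only [es, mul_div_assoc])
  · by_cases e : uu τ (ei N v) = 0
    · simp [e]
    · exact .inr (by positivity)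
  · refine (tm_sum hN h τ ht).hasSum.congr_fun fun v => ?_
    rw [tm, uu_ei]
    congr 3
    ring
  · refine (((sum_uu τ (k := 2 * s.re + 1) (by linarith)).comp_injective (ei_inj hN)).mul_left
      (τ.im ^ (s.re + 1))).of_nonneg_of_le (fun _ => by positivity) fun v => ?_
    rw [norm_mul, norm_conj, Function.comp, add_re, one_re]
    rcases (norm_nonneg (uu τ (ei N v))).eq_or_lt with e | e
    · rw [← e, mul_zero, zero_div]
      positivity
    rw [Real.div_rpow (by positivity) y.le, ← Real.rpow_natCast, ← Real.rpow_mul e.le,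
      show -(2 * s.re + 1) = 1 - (2 : ℕ) * (s.re + 1) by push_cast; ring, Real.rpow_sub e,
      Real.rpow_one, div_div_eq_mul_div, ← mul_div_assoc, mul_comm (_ ^ _)]
    gcongr
    exact mul_le_of_le_one_left e.le (h _)

theorem Hy.strip (H : Hy N χ Φ) {s : ℂ} (hs : 1 < s.re) :
    IntegrableOn (fun z : ℍ => Φ z * (z.im : ℂ) ^ s) St := by
  obtain ⟨C, c, hc, hC⟩ := H.bd
  have a := H.cont.measurable
  have b := UpperHalfPlane.continuous_im.measurable
  refine (im_box measurableSet_Ico measurableSet_Ioi subset_rfl (by simp)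
    (g := fun y => C * Real.exp (-(c * y)) * y ^ s.re) (by fun_prop) ?_).mono'
    (Measurable.aestronglyMeasurable (by fun_prop)) (Eventually.of_forall fun z => ?_)
  · refine ((integrableOn_rpow_mul_exp_neg_mul_rpow (s := s.re - 2) (p := 1) (by linarith) one_pos
      hc).const_mul C).congr (ae_restrict_of_forall_mem measurableSet_Ioi fun y hy => ?_)
    simp only [Real.rpow_sub hy, Real.rpow_one, Real.rpow_two, neg_mul]
    ring
  · rw [norm_mul, norm_cpow_eq_rpow_re_of_pos z.im_pos]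
    have := z.im_pos
    gcongr
    exact hC z

theorem Hy.dir (H : Hy N χ Φ) {d : ℕ → ℂ} (h1 : Summable fun n => ‖d n‖ / n ^ 2) (h2 : d 0 = 0)
    (h3 : ∀ y : ℝ, 0 < y → HasSum (fun n : ℕ => y ^ 2 * d n * Real.exp (-(4 * π * n * y)))
      (∫ x in (0 : ℝ)..1, Φ (ofComplex (x + y * I)))) {s : ℂ} (hs : 1 < s.re) :
    (∫ z in St, Φ z * (z.im : ℂ) ^ s) * (4 * π : ℝ) ^ (s + 1) =
      Gamma (s + 1) * ∑' n : ℕ, d n * (n : ℂ) ^ (-1 - s) := by
  have p : (1 : ℝ) ≤ 4 * π := by linarith [Real.pi_gt_three]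
  have a := hasSum_mellin (a := d) (p := fun n => 4 * π * n) (s := s + 1)
    (F := fun y => (∫ x in (0 : ℝ)..1, Φ (ofComplex (x + y * I))) / y ^ 2)
    (fun n => n.eq_zero_or_pos.imp (fun e => by rw [e, h2]) fun e => by positivity) (by simp; linarith)
    (fun y hy => ((h3 y hy).div_const _).congr_fun fun n => by
      rw [neg_mul, mul_assoc _ (d n), mul_div_cancel_left₀ _ (pow_ne_zero 2 (ofReal_ne_zero.2 hy.ne'))])
    (h1.of_nonneg_of_le (fun _ => by positivity) fun n => by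
      rcases n.eq_zero_or_pos with rfl | e
      · simp [h2]
      have : (1 : ℝ) ≤ n := by exact_mod_cast e
      rw [← Real.rpow_two]
      gcongr
      exact (Real.rpow_le_rpow_of_exponent_le this (by simp; linarith)).trans
        (Real.rpow_le_rpow (by positivity) (le_mul_of_one_le_left (by positivity) p)
          (by simp; linarith)))
  rw [St, int_box measurableSet_Ico measurableSet_Ioi subset_rfl (H.strip hs),
    setIntegral_congr_fun measurableSet_Ioi (g := fun y : ℝ => (y : ℂ) ^ (s + 1 - 1) •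
      ((∫ x in (0 : ℝ)..1, Φ (ofComplex (x + y * I))) / y ^ 2)) fun y hy => ?_,
    ← mellin, ← a.tsum_eq, ← tsum_mul_right, ← tsum_mul_left]
  · refine tsum_congr fun n => ?_
    have : ((4 * π : ℝ) : ℂ) ^ (s + 1) ≠ 0 :=
      cpow_ne_zero_iff.2 (.inl (ofReal_ne_zero.2 (by positivity)))
    rw [ofReal_mul (4 * π), mul_cpow_ofReal_nonneg (by positivity) n.cast_nonneg, ofReal_natCast,
      show -1 - s = -(s + 1) by ring, cpow_neg]
    field_simp
  · simp only [pt_im _ hy, integral_mul_const, ← pt_coe _ hy, ofComplex_apply, real_smul,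
      intervalIntegral.integral_of_le zero_le_one, integral_Ioc_eq_integral_Ioo,
      integral_Ico_eq_integral_Ioo, smul_eq_mul, add_sub_cancel_right]
    push_cast
    ring

end Rs

open Rs

/-- **Rankin-Selberg** -/
theorem rs : RS := by
  intro N χ Φ d h1 chr cont law dec d1 d2 d3
  have H : Hy N χ Φ := ⟨by omega, chr, cont, law, dec⟩
  have p : (π : ℂ) ≠ 0 := ofReal_ne_zero.2 Real.pi_ne_zero
  have p4 : ((4 * π : ℝ) : ℂ) ≠ 0 := ofReal_ne_zero.2 (by positivity)
  refine ⟨fun s => mellin (hh N χ Φ) (s + 1) * π ^ (s + 1) * (4 * π : ℝ) ^ (s + 1) *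
    (Gamma (s + 1))⁻¹ ^ 2 / 2, fun s hs => DifferentiableAt.differentiableWithinAt ?_,
    fun s hs => ?_, ?_⟩
  · have a := (differentiableAt_id (𝕜 := ℂ) (x := s)).add_const 1
    exact (((((H.dif (by simp at hs ⊢; linarith)).comp s a).mul (a.const_cpow (.inl p))).mul
      (a.const_cpow (.inl p4))).mul
      (((differentiable_one_div_Gamma _).comp s a).pow 2)).div_const 2
  · have s0 : 0 < (s + 1).re := by simp; linarith
    have g := Gamma_ne_zero_of_re_pos s0
    have q : (π : ℂ) ^ (s + 1) ≠ 0 := cpow_ne_zero_iff.2 (.inl p)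
    have c : Summable fun n : ℕ => ‖χ (n + 1) * (n + 1 : ℂ) ^ (-1 - 2 * s)‖ := by
      refine ((summable_nat_add_iff 1).2 (Real.summable_nat_rpow.2
        (show -1 - 2 * s.re < -1 by linarith))).of_nonneg_of_le (fun _ => norm_nonneg _) fun n => ?_
      rw [norm_mul, ← Nat.cast_add_one (R := ℂ), norm_natCast_cpow_of_pos n.add_one_pos]
      simpa using mul_le_of_le_one_left (by positivity) (chr_le H.pos chr _)
    have e : ∑' u : ℕ, χ u * (u : ℂ) ^ (-1 - 2 * s) =
        ∑' n : ℕ, χ (n + 1) * (n + 1 : ℂ) ^ (-1 - 2 * s) := by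
      rw [← Nat.succ_injective.tsum_eq]
      · simp
      · rintro (_ | u) hu
        · exact absurd (by simp [(chr.zero 0).2 (by
            rw [isCoprime_zero_left, Int.isUnit_iff]; omega)]) hu
        · exact ⟨u, rfl⟩
    have f : ∀ τ : ℍ, Φ τ / τ.im * mellin (tt N χ τ) (s + 1) = _ := fun τ => by
      rw [mel_tt H.pos (chr_le H.pos chr) _ hs, mul_left_comm, ← tsum_mul_left, eis H h1]
    simp only [H.fub s0, f, integral_const_mul]
    rw [unf _ (H.strip hs) c, e, cpow_neg, (eq_div_iff g).2 ((mul_comm _ _).trans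
      (H.dir d1 d2 d3 hs).symm)]
    field_simp
  · have := H.fub (w := 1) (by simp)
    simp only [mellin, sub_self, cpow_zero, one_smul] at this
    simp only [zero_add, cpow_one, Gamma_one, mellin, sub_self, cpow_zero, one_smul, this]
    push_cast
    field_simp
    ring

end Vale.Agent.P004C.Wa
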