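import Vale.Agent.P004C.Wa.Rse0

/-!
# P004 C, block WA: the Rankin-Selberg series is a Hecke series (row RSE)
-/

open NumberField Module Ideal PowerSeries
open scoped Classical NumberTheorySymbols

noncomputable section

namespace Vale.Agent.P004C.Wa

open Vale.Agent.P004C.Al (Cm)
open Co Re0

namespace Re1

theorem rank {u v : ℕ → ℂ} {s t s' t' : ℂ}
    (hu : PowerSeries.mk u * (1 - C s * X + C t * X ^ 2) = 1)
    (hv : PowerSeries.mk v * (1 - C s' * X + C t' * X ^ 2) = 1) :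
    (PowerSeries.mk fun j => u j * v j) * RR s t s' t' = 1 - X * X * C (t * t') := by
  obtain ⟨u0, u1, u2⟩ := rec2 hu
  obtain ⟨v0, v1, v2⟩ := rec2 hv
  generalize hw : (PowerSeries.mk fun j => u j * v j) = w
  have e : w * RR s t s' t' = w - C (s * s') * (w * X ^ 1) +
      C (s ^ 2 * t' + s' ^ 2 * t - 2 * t * t') * (w * X ^ 2) - C (s * s' * t * t') * (w * X ^ 3) +
      C (t ^ 2 * t' ^ 2) * (w * X ^ 4) := by
    unfold RR
    ring
  rw [e, ← sq, ← hw]
  ext n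
  simp only [LinearMap.map_add, LinearMap.map_sub, coeff_C_mul, coeff_mul_C, coeff_mul_X_pow',
    coeff_mk, coeff_one, coeff_X_pow]
  rcases n with _ | _ | _ | _ | n
  · simp [u0, v0]
  · simp [u0, v0, u1, v1]
  · simp [u0, v0, u1, v1, u2 0, v2 0]
    ring
  · simp [u0, v0, u1, v1, u2 0, v2 0, u2 1, v2 1]
    ring
  · simp
    rw [u2 (n + 2), v2 (n + 2), u2 (n + 1), v2 (n + 1), u2 n, v2 n]
    ring

/-- evaluation -/
def Ev (x : ℂ) (W : ℂ⟦X⟧) (z : ℂ) : Prop := HasSum (fun e => coeff e W * x ^ e) z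

variable {x z z' : ℂ} {W W' : ℂ⟦X⟧}

theorem Ev.mulX (h : Ev x W z) : Ev x (W * X) (z * x) := by
  refine (hasSum_nat_add_iff' 1).1 ?_
  simpa [coeff_succ_mul_X, pow_succ, mul_assoc] using HasSum.mul_right x h

theorem Ev.mulC (h : Ev x W z) (r : ℂ) : Ev x (W * C r) (z * r) := by
  simpa [Ev, coeff_mul_C, mul_right_comm] using HasSum.mul_right r h

theorem Ev.add (h : Ev x W z) (h' : Ev x W' z') : Ev x (W + W') (z + z') := by
  simpa [Ev, add_mul] using HasSum.add h h'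

theorem Ev.sub (h : Ev x W z) (h' : Ev x W' z') : Ev x (W - W') (z - z') := by
  simpa [Ev, sub_mul] using HasSum.sub h h'

theorem Ev.one : Ev x 1 1 := by
  have := hasSum_single (f := fun e => coeff e (1 : ℂ⟦X⟧) * x ^ e) 0 fun e n => by
    rw [coeff_one, if_neg n, zero_mul]
  rwa [coeff_one, if_pos rfl, pow_zero, mul_one] at this

theorem Ev.rr (s t s' t' : ℂ) : ∃ r, ∀ W z, Ev x W z → Ev x (W * RR s t s' t') (z * r) := by
  refine ⟨1 - s * s' * x + (s ^ 2 * t' + s' ^ 2 * t - 2 * t * t') * x ^ 2 - s * s' * t * t' * x ^ 3 +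
    t ^ 2 * t' ^ 2 * x ^ 4, fun W z h => ?_⟩
  convert (((h.sub (h.mulX.mulC (s * s'))).add
    (h.mulX.mulX.mulC (s ^ 2 * t' + s' ^ 2 * t - 2 * t * t'))).sub
    (h.mulX.mulX.mulX.mulC (s * s' * t * t'))).add (h.mulX.mulX.mulX.mulX.mulC (t ^ 2 * t' ^ 2))
    using 1
  · unfold RR
    ring
  · ring

theorem fac {s t s' t' z₁ z₂ z₃ : ℂ} {U : ℂ⟦X⟧} (h3 : Ev x W z₃) (h2 : Ev x U z₂)
    (e3 : W * RR s t s' t' = 1) (e2 : U * RR s t s' t' = 1 - X * X * C (t * t'))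
    (e1 : z₁ * (1 - t * t' * x ^ 2) = 1) : z₃ = z₁ * z₂ := by
  obtain ⟨r, hr⟩ := Ev.rr (x := x) s t s' t'
  have a := (e3 ▸ hr _ _ h3 : Ev x 1 _).unique Ev.one
  have b := (e2 ▸ hr _ _ h2 : Ev x (1 - X * X * C (t * t')) _).unique
    (by simpa using Ev.one.sub (Ev.one.mulX.mulX.mulC (t * t')) :
      Ev x (1 - X * X * C (t * t')) (1 - x * x * (t * t')))
  linear_combination (-z₃) * e1 + z₁ * z₂ * a - z₃ * z₁ * b

theorem ex_p {R : Type} [CommRing R] {Q : Ideal R} (q : Q.IsPrime) (m : ℕ) :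
    0 < m → (m : R) ∈ Q → ∃ p : ℕ, p.Prime ∧ p ∣ m ∧ (p : R) ∈ Q := by
  induction m using Nat.recOnMul with
  | zero => exact fun h => absurd h (lt_irrefl _)
  | one => exact fun _ h => absurd ((eq_top_iff_one _).2 (by simpa using h)) q.ne_top
  | prime p hp => exact fun _ h => ⟨p, hp, dvd_rfl, h⟩
  | mul a b ha hb =>
    intro h0 h
    rcases q.mem_or_mem (Nat.cast_mul (α := R) a b ▸ h) with h | h
    · exact (ha (Nat.pos_of_mul_pos_right h0) h).imp fun _ k => ⟨k.1, k.2.1.mul_right _, k.2.2⟩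
    · exact (hb (Nat.pos_of_mul_pos_left h0) h).imp fun _ k => ⟨k.1, k.2.1.mul_left _, k.2.2⟩

variable {K : Type} [Field K] [NumberField K] {m : ℕ} {n n' : Ideal (𝓞 K)}

theorem nm' (h2 : finrank ℚ K = 2) (S : Sp m n n') : absNorm n' = m := by
  have := congrArg absNorm S.mul
  rw [map_mul, S.nm, nm_span h2, sq] at this
  exact mul_left_cancel₀ S.pos.ne' this

omit [NumberField K] in
theorem not_both (c : n ⊔ n' = ⊤) {A : Ideal (𝓞 K)} (a : A.IsMaximal) (l : n ≤ A) (l' : n' ≤ A) :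
    False := a.ne_top (top_le_iff.1 (c ▸ sup_le l l'))

theorem spl_m (h2 : finrank ℚ K = 2) (S : Sp m n n') {p : ℕ} (hp : p.Prime) (d : p ∣ m) :
    ∃ A A', Spl p A A' ∧ n ≤ A ∧ n' ≤ A' := by
  obtain ⟨A, a, b, c⟩ := ex_max hp (I := n) (S.nm ▸ d)
  obtain ⟨A', a', b', c'⟩ := ex_max hp (I := n') (nm' h2 S ▸ d)
  have ne : A ≠ A' := fun e => not_both S.cop a (le_of_dvd c) (e ▸ le_of_dvd c')
  refine ⟨A, A', ?_, le_of_dvd c, le_of_dvd c'⟩
  rcases dec h2 hp with ⟨P, P', k⟩ | k | ⟨P, k⟩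
  · rcases k.two a b with rfl | rfl <;> rcases k.two a' b' with rfl | rfl
    exacts [absurd rfl ne, k, k.symm, absurd rfl ne]
  · exact absurd ((ine_one k a b).trans (ine_one k a' b').symm) ne
  · exact absurd ((k.one a b).trans (k.one a' b').symm) ne

theorem nm_dvd {T : Ideal (𝓞 K)} {t : ℕ} (ht : (t : 𝓞 K) ∈ T) (h : ∀ x : 𝓞 K, ∃ k : ℤ, x - k ∈ T) :
    absNorm T ∣ t := by
  have e : AddSubgroup.zmultiples (1 : 𝓞 K ⧸ T) = ⊤ := eq_top_iff.2 fun y _ => by
    obtain ⟨y, rfl⟩ := Ideal.Quotient.mk_surjective y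
    obtain ⟨k, hk⟩ := h y
    exact ⟨k, by rw [Ideal.Quotient.eq.2 hk]; simp⟩
  have c : absNorm T = addOrderOf (1 : 𝓞 K ⧸ T) := by
    rw [← Nat.card_zmultiples, e, AddSubgroup.card_top]
    rfl
  rw [c, addOrderOf_dvd_iff_nsmul_eq_zero, nsmul_one, ← map_natCast (Ideal.Quotient.mk T),
    Quotient.eq_zero_iff_mem]
  exact ht

omit [NumberField K] in
theorem cyc2 (c : n ⊔ n' = ⊤) (e : n * n' = span {(m : 𝓞 K)}) (h : ∀ x : 𝓞 K, ∃ k : ℤ, x - k ∈ n)
    (x : 𝓞 K) : ∃ k : ℤ, x - k ∈ n ^ 2 := by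
  obtain ⟨k, hk⟩ := h x
  have : n ≤ n ^ 2 ⊔ span {(m : 𝓞 K)} := by rw [← e, sq, ← Ideal.mul_sup, c, mul_top]
  obtain ⟨y, hy, z, hz, r⟩ := Submodule.mem_sup.1 (this hk)
  obtain ⟨w, rfl⟩ := mem_span_singleton'.1 hz
  obtain ⟨l, hl⟩ := h w
  refine ⟨k + l * m, ?_⟩
  have mn : (m : 𝓞 K) ∈ n := (e.ge.trans mul_le_left) (mem_span_singleton_self _)
  convert add_mem hy (sq n ▸ mul_mem_mul hl mn) using 1
  push_cast
  linear_combination -r

theorem nm_sup (h2 : finrank ℚ K = 2) (S : Sp m n n') {t : ℕ} (d : t ∣ m ^ 2) :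
    absNorm (n ^ 2 ⊔ span {(t : 𝓞 K)}) = t := by
  have t0 : 0 < t := Nat.pos_of_dvd_of_pos d (pow_pos S.pos 2)
  have a := nm_dvd (T := n ^ 2 ⊔ span {(t : 𝓞 K)}) (mem_sup_right (mem_span_singleton_self _))
    fun x => (cyc2 S.cop S.mul S.cn x).imp fun _ => mem_sup_left
  have b := nm_dvd (T := n' ^ 2 ⊔ span {(t : 𝓞 K)}) (mem_sup_right (mem_span_singleton_self _))
    fun x => (cyc2 (sup_comm n n' ▸ S.cop) (mul_comm n n' ▸ S.mul) S.cn' x).imp
      fun _ => mem_sup_left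
  have l : (n ^ 2 ⊔ span {(t : 𝓞 K)}) * (n' ^ 2 ⊔ span {(t : 𝓞 K)}) ≤ span {(t : 𝓞 K)} := by
    rw [Ideal.sup_mul, Ideal.mul_sup]
    refine sup_le (sup_le ?_ mul_le_right) mul_le_left
    rw [← mul_pow, S.mul, span_singleton_pow, span_singleton_le_span_singleton]
    exact_mod_cast Nat.cast_dvd_cast (α := 𝓞 K) d
  have c := absNorm_dvd_absNorm_of_le l
  rw [map_mul, nm_span h2, sq] at c
  exact Nat.dvd_antisymm a (Nat.dvd_of_mul_dvd_mul_right t0 (c.trans (mul_dvd_mul_left _ b)))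

theorem cl1 (h2 : finrank ℚ K = 2) (S : Sp m n n') {a : Ideal (𝓞 K) → ℂ} (ha : Cm a)
    (z : ∀ I, I ⊔ n' ≠ ⊤ → a I = 0) (T : Ideal (𝓞 K)) :
    T ≠ ⊥ → (∀ Q, Q.IsMaximal → T ≤ Q → n ≤ Q) → ∀ k, co a (absNorm T * k) = a T * co a k := by
  induction T using UniqueFactorizationMonoid.induction_on_prime with
  | h₁ => exact fun h => absurd rfl h
  | h₂ U hU =>
    intro _ _ k
    rw [isUnit_iff_eq_one.1 hU, map_one, ha.one, one_mul, one_mul]
  | h₃ T Q t q ih =>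
    intro _ h k
    have q' := Al.Eu.prime_iff.1 q
    have l := h Q q' mul_le_left
    obtain ⟨p, hp, d, pQ⟩ := ex_p q'.isPrime m S.pos
      ((S.mul.ge.trans (mul_le_left.trans l)) (mem_span_singleton_self _))
    obtain ⟨A, A', s, -, b⟩ := spl_m h2 S hp d
    obtain rfl : Q = A := (s.two q' pQ).resolve_right fun e => not_both S.cop q' l (e ▸ b)
    rw [map_mul, ha.mul, mul_assoc, mul_assoc, ← ih t (fun R r x => h R r (mul_le_right.trans x)),
      ← co_dvd ha q.ne_zero, co_eq]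
    refine Finset.sum_congr rfl fun I hI => ?_
    split_ifs with c
    · rfl
    obtain ⟨R, r, x, y⟩ := ex_max hp (I := I) (by rw [mem_fs.1 hI, s.n]; exact dvd_mul_right _ _)
    obtain rfl : R = A' := (s.two r x).resolve_left fun e => c (e ▸ y)
    exact z I fun e => r.ne_top (top_le_iff.1 (e ▸ sup_le (le_of_dvd y) b))

theorem euler {f : ℕ → ℂ} (h0 : f 0 = 0) (h1 : f 1 = 1)
    (hm : ∀ {a b : ℕ}, a.Coprime b → f (a * b) = f a * f b) {s : ℂ}
    (su : Summable fun k => f k * (k : ℂ) ^ s) :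
    (∀ p : Nat.Primes, Ev (((p : ℕ) : ℂ) ^ s) (PowerSeries.mk fun j => f (p ^ j))
      (∑' e : ℕ, f (p ^ e) * (((p : ℕ) ^ e : ℕ) : ℂ) ^ s)) ∧
    HasProd (fun p : Nat.Primes => ∑' e : ℕ, f (p ^ e) * (((p : ℕ) ^ e : ℕ) : ℂ) ^ s)
      (∑' k, f k * (k : ℂ) ^ s) := by
  refine ⟨fun p => ?_, EulerProduct.eulerProduct_hasProd (f := fun k => f k * (k : ℂ) ^ s)
    (by simp [h1]) (fun h => ?_) su.norm (by simp [h0])⟩
  · have := (su.comp_injective (Nat.pow_right_injective p.2.two_le)).hasSum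
    refine cast (congrArg (HasSum · _) (funext fun e => ?_)) this
    simp only [Function.comp, coeff_mk, Nat.cast_pow, ← Complex.natCast_cpow_natCast_mul,
      Complex.cpow_nat_mul]
  · rw [hm h, Nat.cast_mul, Complex.natCast_mul_natCast_cpow]
    ring

end Re1

open Re1

theorem rse : RSE := by
  intro K _ _ J D θ h L _ _ hL M _ _ _ _ hM hi m n n' φ a S _ hd φ1 φ0 φm φb hc ab hp
  have B : Bq K L M := ⟨h.two, hL, hM, by
    have := finrank_mul_finrank ℚ K M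
    rw [← finrank_mul_finrank ℚ L M, h.two, hM, hL] at this
    omega, fun x y e => (hi x y e).imp fun q k => ⟨k, (algebraMap K M).injective (by
      rw [← e, k, map_ratCast, map_ratCast])⟩⟩
  have hφ : Cm φ := ⟨φ1, φm⟩
  have ha : Cm a := ⟨hc.one, hc.mul⟩
  have a0 : a ⊥ = 0 := (hc.zero _).2 (Or.inl rfl)
  have az : ∀ I, I ⊔ n' ≠ ⊤ → a I = 0 := fun I e => (hc.zero I).2 (Or.inr e)
  refine ⟨fun t k d => ?_, fun P hP mP => ?_, fun s hs => ?_⟩
  · have e := nm_sup h.two S d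
    have t0 : 0 < t := Nat.pos_of_dvd_of_pos d (pow_pos S.pos 2)
    rw [← cl1 h.two S ha az _ (fun z => by rw [z, absNorm_bot] at e; omega) (fun Q q l =>
      q.isPrime.le_of_pow_le (le_sup_left.trans l)), e]
  · obtain ⟨p, p1, d, pP⟩ := ex_p hP.isPrime m S.pos mP
    obtain ⟨A, A', s, l, l'⟩ := spl_m h.two S p1 d
    obtain ⟨Q, Q', k⟩ := B.ab s hP pP
    obtain ⟨f, f2, e⟩ : ∃ f ≤ 2, absNorm P = p ^ f := by
      rcases dec hL p1 with ⟨U, U', r⟩ | r | ⟨U, r⟩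
      · rcases r.two hP pP with rfl | rfl
        exacts [⟨1, one_le_two, by rw [r.n, pow_one]⟩, ⟨1, one_le_two, by rw [r.n', pow_one]⟩]
      · exact ⟨2, le_rfl, by rw [ine_one r hP pP, nm_span hL]⟩
      · exact ⟨1, one_le_two, by rw [r.one hP pP, r.n, pow_one]⟩
    refine ⟨Q, ⟨k.m, map_le_iff_le_comap.2 (l.trans k.k.ge), k.rl, ?_⟩, fun R ⟨r, x, y, _⟩ => ?_⟩
    · rw [k.rk s.n e, e]
      refine (eq_nm (sup_le ((Ideal.pow_right_mono l 2).trans (pow_le_pow_right f2)) ?_) ?_ ?_).symm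
      · rw [span_singleton_le_iff_mem, Nat.cast_pow]
        exact pow_mem_pow s.mem f
      · rw [nm_sup h.two S ((pow_dvd_pow _ f2).trans (pow_dvd_pow_of_dvd d 2)), map_pow, s.n]
      · rw [map_pow, s.n]
        exact pow_ne_zero _ p1.ne_zero
    · refine (k.two r (und r hP (map_le_iff_le_comap.2 (y ▸ relNorm_le_comap _ _)))).resolve_right
        fun z => not_both S.cop s.m' ((map_le_iff_le_comap.1 x).trans ?_) l'
      rw [z]
      exact k.k'.le
  have cb : ∀ I, ‖cM M φ a I‖ ≤ 1 := fun I => by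
    rw [cM, norm_mul]
    exact mul_le_one₀ (φb _) (norm_nonneg _) (ab _)
  have c0 : cM M φ a ⊥ = 0 := by rw [cM, relNorm_bot, φ0, zero_mul]
  have S3 := (sum_cpow cb hs).hasSum
  have T3 := co_sum (g := fun k => (k : ℂ) ^ (-s)) S3
  obtain ⟨l3, E3⟩ := euler (co_zero c0) (co_one (cM_cm hφ ha)) (co_mul (cM_cm hφ ha) c0)
    T3.summable
  have T2 : Summable fun k => co φ k * co a k * (k : ℂ) ^ (-s) := by
    obtain ⟨C, C0, hC⟩ := co_eps h.two ha a0 ab (ε := (s.re - 1) / 2) (by linarith)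
    have := (co_sum (g := fun k => (k : ℂ) ^ (-(((s.re + 1) / 2 : ℝ) : ℂ)))
      (sum_cpow φb (s := ((s.re + 1) / 2 : ℝ))
        (by rw [Complex.ofReal_re]; linarith)).hasSum).summable.norm.mul_left C
    refine .of_norm_bounded this fun k => ?_
    rcases Nat.eq_zero_or_pos k with rfl | k0
    · simp [co_zero φ0]
    rw [norm_mul, norm_mul, norm_mul, Complex.norm_natCast_cpow_of_pos k0,
      Complex.norm_natCast_cpow_of_pos k0, Complex.neg_re, Complex.neg_re, Complex.ofReal_re,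
      show -((s.re + 1) / 2) = (s.re - 1) / 2 + -s.re by ring, Real.rpow_add (Nat.cast_pos.2 k0)]
    calc _ ≤ ‖co φ k‖ * (C * (k : ℝ) ^ ((s.re - 1) / 2)) * (k : ℝ) ^ (-s.re) := by
          gcongr
          exact hC k
      _ = _ := by ring
  obtain ⟨l2, E2⟩ := euler (f := fun k => co φ k * co a k) (by simp [co_zero φ0])
    (by simp [co_one hφ, co_one ha]) (fun c => by rw [co_mul hφ φ0 c, co_mul ha a0 c]; ring) T2
  set g : ℕ → ℂ := fun v => if v.Coprime m then (J(v | D) : ℂ) else 0 with hg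
  have gm : ∀ u v, g (u * v) = g u * g v := fun u v => by
    simp only [hg, Nat.coprime_mul_iff_left, Nat.cast_mul, jacobiSym.mul_left, Int.cast_mul]
    by_cases x : u.Coprime m
    · by_cases y : v.Coprime m
      · rw [if_pos ⟨x, y⟩, if_pos x, if_pos y]
      · rw [if_neg fun z => y z.2, if_neg y, mul_zero]
    · rw [if_neg fun z => x z.1, if_neg x, zero_mul]
  have g1 : g 1 = 1 := by simp [hg]
  have gb : ∀ v, ‖g v‖ ≤ 1 := fun v => by
    simp only [hg]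
    split_ifs
    · rcases jacobiSym.trichotomy v D with e | e | e <;> simp [e]
    · simp
  have re : (-1 - 2 * s).re = -(1 + 2 * s.re) := by simp; ring
  have T1 : Summable fun v => ‖g v * (v : ℂ) ^ (-1 - 2 * s)‖ := by
    refine .of_nonneg_of_le (fun _ => norm_nonneg _) (fun v => ?_)
      (Real.summable_nat_rpow.2 (show -(1 + 2 * s.re) < -1 by linarith))
    rw [norm_mul, Complex.norm_natCast_cpow_of_re_ne_zero _ (by rw [re]; linarith), re]
    exact mul_le_of_le_one_left (by positivity) (gb v)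
  have fm : ∀ u v : ℕ, g (u * v) * ((u * v : ℕ) : ℂ) ^ (-1 - 2 * s) =
      g u * (u : ℂ) ^ (-1 - 2 * s) * (g v * (v : ℂ) ^ (-1 - 2 * s)) := fun u v => by
    rw [gm, Nat.cast_mul, Complex.natCast_mul_natCast_cpow]
    ring
  have E1 := EulerProduct.eulerProduct_hasProd (f := fun v => g v * (v : ℂ) ^ (-1 - 2 * s))
    (by simp [g1]) (fun _ => fm _ _) T1 (by
      rw [Nat.cast_zero, Complex.zero_cpow (fun e => by rw [e, Complex.zero_re] at re; linarith),
        mul_zero])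
  refine cast (congrArg (HasSum _) ?_) S3
  rw [← T3.tsum_eq]
  refine E3.unique (cast (congrArg (HasProd · _) (funext fun p => Eq.symm ?_)) (E1.mul E2))
  obtain ⟨σ, τ, e⟩ := ex_ep hL φ p.2
  obtain ⟨σ', τ', e'⟩ := ex_ep h.two a p.2
  have rm : ∀ P : Ideal (𝓞 L), Ram p P → (p : ℕ) ∣ m := fun P r => (r.dvd p.2).trans hd
  refine fac (l3 p) (l2 p) (loc B h hφ ha p.2 (fun P r => ?_) e e')
    (rank (e.ser hL hφ p.2) (e'.ser h.two ha p.2)) ?_
  · exact (spl_m h.two S p.2 (rm P r)).imp fun _ k => k.imp fun _ k => k.1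
  have p0 : ((p : ℕ) : ℂ) ≠ 0 := Nat.cast_ne_zero.2 p.2.ne_zero
  have tt : τ * τ' * (((p : ℕ) : ℂ) ^ (-s)) ^ 2 = g p * ((p : ℕ) : ℂ) ^ (-1 - 2 * s) := by
    rw [show -1 - 2 * s = -1 + (2 : ℕ) * -s by push_cast; ring, Complex.cpow_add _ _ p0,
      Complex.cpow_nat_mul, Complex.cpow_neg_one, ← mul_assoc, jac h ha p.2 e']
    congr 1
    simp only [hg]
    split_ifs with c
    · have t : τ = (if (span {((p : ℕ) : 𝓞 L)}).IsPrime then -1 else 1) *
          φ (span {((p : ℕ) : 𝓞 L)}) := by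
        rcases e with ⟨P, P', k, -, rfl⟩ | ⟨k, -, rfl⟩ | ⟨P, k, -⟩
        · rw [if_neg fun z => ?_, k.mul, φm, one_mul]
          have z := z.isMaximal (by simpa using p.2.ne_zero)
          exact k.ne ((ine_one z k.m k.mem).trans (ine_one z k.m' k.symm.mem).symm)
        · rw [if_pos k.isPrime, neg_one_mul]
        · exact absurd (rm P k) ((Nat.Prime.coprime_iff_not_dvd p.2).1 c)
      rw [t, eq_mul_inv_iff_mul_eq₀ p0]
      linear_combination (J((p : ℕ) | D) : ℂ) * hp p p.2 c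
    · obtain ⟨A, A', k, -, l⟩ := spl_m h.two S p.2
        (not_not.1 ((Nat.Prime.coprime_iff_not_dvd p.2).not.1 c))
      rw [az _ fun z => k.m'.ne_top (top_le_iff.1 (z ▸ sup_le
        ((span_singleton_le_iff_mem _).2 k.symm.mem) l))]
      simp
  have pw : ∀ j : ℕ, g (p ^ j) * (((p : ℕ) ^ j : ℕ) : ℂ) ^ (-1 - 2 * s) =
      (g p * ((p : ℕ) : ℂ) ^ (-1 - 2 * s)) ^ j := fun j => by
    induction j with
    | zero => simp [g1]
    | succ j ih => rw [pow_succ, fm, ih, pow_succ]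
  have lt : ‖g p * ((p : ℕ) : ℂ) ^ (-1 - 2 * s)‖ < 1 := by
    rw [norm_mul, Complex.norm_natCast_cpow_of_pos p.2.pos, re]
    exact (mul_le_of_le_one_left (by positivity) (gb p)).trans_lt
      (Real.rpow_lt_one_of_one_lt_of_neg (by exact_mod_cast p.2.one_lt) (by linarith))
  rw [tt, tsum_congr pw, tsum_geometric_of_norm_lt_one lt]
  exact inv_mul_cancel₀ fun z => by simp [← sub_eq_zero.1 z] at lt

end Vale.Agent.P004C.Wa
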