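import Vale.Agent.P004C.Wa.Sw1

/-!
# P004 C, block WA: the Siegel-Weil formula for the theta series of weight one
-/

open MeasureTheory Set Complex Filter NumberField CongruenceSubgroup
open UpperHalfPlane hiding I
open scoped Real Classical Topology MatrixGroups ComplexConjugate NumberTheorySymbols
  ArithmeticFunction.Moebius

namespace Vale.Agent.P004C.Wa.Sk

/-- the term of `tt` -/
noncomputable def tm (N : ℕ) (τ : ℍ) (t : ℝ) (v : ℤ × ℤ) : ℂ :=
  conj (v.1 * N * (τ : ℂ) + v.2) * Real.exp (-(π * t * ‖v.1 * N * (τ : ℂ) + v.2‖ ^ 2 / τ.im))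

theorem tt_tm (N : ℕ) (χ : ℤ → ℂ) (τ : ℍ) (t : ℝ) :
    tt N χ τ t = ∑' v : ℤ × ℤ, χ v.2 * tm N τ t v :=
  tsum_congr fun _ => mul_assoc _ _ _

theorem tm_eq (N : ℕ) (τ : ℍ) (t : ℝ) (v : ℤ × ℤ) :
    tm N τ t v = τ.im * kk t (N * v.1, v.2) τ := by
  have hy : (τ.im : ℂ) ≠ 0 := ofReal_ne_zero.2 τ.im_ne_zero
  have e : (((N : ℤ) * v.1 : ℤ) : ℂ) * τ + v.2 = v.1 * N * (τ : ℂ) + v.2 := by
    push_cast
    ring
  unfold tm kk
  simp only [e, UpperHalfPlane.coe_im, normSq_eq_norm_sq]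
  field_simp

theorem inj_row {N : ℕ} (hN : 0 < N) :
    Function.Injective fun p : ℤ × ℤ => ((N : ℤ) * p.1, p.2) := by
  intro p p' h
  simp only [Prod.mk.injEq] at h
  exact Prod.ext (mul_left_cancel₀ (by omega) h.1) h.2

theorem tt_eq {N : ℕ} (hN : 0 < N) (χ : ℤ → ℂ) (τ : ℍ) (t : ℝ) :
    tt N χ τ t = τ.im * PsiK (ph N χ) t τ := by
  rw [tt_tm, PsiK, ← (inj_row hN).tsum_eq (f := fun w => ph N χ w * kk t w τ), ← tsum_mul_left]
  · refine tsum_congr fun v => ?_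
    rw [tm_eq]
    simp only [ph, dvd_mul_right, if_true]
    ring
  · rintro ⟨c, d⟩ h
    by_contra hc
    have : ¬ (N : ℤ) ∣ c := fun ⟨a, ha⟩ => hc ⟨(a, d), by simp [ha]⟩
    simp [ph, this] at h

theorem summ_tm {N : ℕ} (hN : 0 < N) {χ : ℤ → ℂ} (h : ∀ d, ‖χ d‖ ≤ 1) (τ : ℍ) {t : ℝ}
    (ht : 0 < t) : Summable fun v : ℤ × ℤ => χ v.2 * tm N τ t v := by
  refine Summable.of_norm_bounded
    (((summ_kk ht τ.im_pos).comp_injective (inj_row hN)).mul_left τ.im) fun v => ?_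
  rw [norm_mul, tm_eq, norm_mul, norm_real, Real.norm_of_nonneg τ.im_pos.le]
  exact mul_le_of_le_one_left (mul_nonneg τ.im_pos.le (norm_nonneg _)) (h _)

theorem coe_sm (g : SL(2, ℤ)) (z : ℍ) :
    ((g • z : ℍ) : ℂ) = ((g 0 0 : ℂ) * z + g 0 1) / jj g z := by
  rw [UpperHalfPlane.coe_specialLinearGroup_apply, jj]
  simp

theorem jj_eq (g : SL(2, ℤ)) (z : ℍ) : jj g z = denom g z := by
  rw [ModularGroup.denom_apply, jj]

theorem jj_ne (g : SL(2, ℤ)) (z : ℍ) : jj g z ≠ 0 := by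
  rw [jj_eq]
  exact denom_ne_zero _ _

theorem kk_smul (t : ℝ) (w : ℤ × ℤ) (g : SL(2, ℤ)) (z : ℍ) : kk t w (g • z : ℍ) =
    jj g z * kk t (w.1 * g 0 0 + w.2 * g 1 0, w.1 * g 0 1 + w.2 * g 1 1) z := by
  have hd : jj g z ≠ 0 := jj_ne g z
  have hd' : normSq (jj g z) ≠ 0 := by rwa [Ne, normSq_eq_zero]
  have hy : z.im ≠ 0 := z.im_ne_zero
  have e1 : (w.1 : ℂ) * (g • z : ℍ) + w.2 = (((w.1 * g 0 0 + w.2 * g 1 0 : ℤ) : ℂ) * z +
      (w.1 * g 0 1 + w.2 * g 1 1 : ℤ)) / jj g z := by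
    rw [coe_sm, eq_div_iff hd, add_mul, mul_assoc, div_mul_cancel₀ _ hd, jj]
    push_cast
    ring
  have e2 : ((g • z : ℍ) : ℂ).im = z.im / normSq (jj g z) := by
    rw [jj_eq]
    exact ModularGroup.im_smul_eq_div_normSq g z
  unfold kk
  rw [e1, e2, map_div₀, map_div₀, UpperHalfPlane.coe_im]
  generalize (((w.1 * g 0 0 + w.2 * g 1 0 : ℤ) : ℂ) * z + (w.1 * g 0 1 + w.2 * g 1 1 : ℤ)) = u
  have e3 : π * t * (normSq u / normSq (jj g z)) / (z.im / normSq (jj g z)) =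
      π * t * normSq u / z.im := by field_simp
  rw [e3, ← mul_assoc]
  congr 1
  have e4 : ((normSq (jj g z) : ℝ) : ℂ) = jj g z * conj (jj g z) := (mul_conj _).symm
  have hd2 : conj (jj g z) ≠ 0 := by rwa [Ne, map_eq_zero]
  have hy' : (z.im : ℂ) ≠ 0 := by exact_mod_cast hy
  push_cast
  rw [e4]
  field_simp

/-- the lower unipotent matrix -/
def lo (n : ℕ) : SL(2, ℤ) := ⟨!![1, 0; (n : ℤ), 1], by simp [Matrix.det_fin_two]⟩

theorem psi_lo (n : ℕ) (χ : ℤ → ℂ) (t : ℝ) (z : ℍ) :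
    PsiK (ph n χ) t (lo n • z : ℍ) = jj (lo n) z * PsiK (ph n χ) t z := by
  let E : ℤ × ℤ ≃ ℤ × ℤ := ⟨fun w => (w.1 + w.2 * n, w.2), fun w => (w.1 - w.2 * n, w.2),
    fun w => by simp, fun w => by simp⟩
  unfold PsiK
  rw [← E.tsum_eq fun w => ph n χ w * kk t w z, ← tsum_mul_left]
  refine tsum_congr fun w => ?_
  rw [kk_smul]
  have e1 : ph n χ (E w) = ph n χ w := by
    simp only [ph, E, Equiv.coe_fn_mk]
    rw [if_congr (dvd_add_left (dvd_mul_left _ _)) rfl rfl]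
  have e2 : (w.1 * lo n 0 0 + w.2 * lo n 1 0, w.1 * lo n 0 1 + w.2 * lo n 1 1) = E w := by
    simp [lo, E]
  rw [e1, e2]
  ring

theorem summ_fib {α : Type*} (N : α → ℕ) (hf : ∀ m, {x | N x = m}.Finite) {g : ℕ → ℝ}
    (hg : ∀ m, 0 ≤ g m) (hs : Summable fun m => ((hf m).toFinset.card : ℝ) * g m) :
    Summable fun x => g (N x) := by
  refine summable_of_sum_le (fun x => hg _) (c := ∑' m, ((hf m).toFinset.card : ℝ) * g m)
    fun s => ?_
  rw [Finset.sum_comp g N]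
  refine le_trans (Finset.sum_le_sum fun m _ => ?_)
    (hs.sum_le_tsum (s.image N) fun m _ => mul_nonneg (Nat.cast_nonneg _) (hg m))
  rw [nsmul_eq_mul]
  refine mul_le_mul_of_nonneg_right (Nat.cast_le.2 (Finset.card_le_card fun x hx => ?_)) (hg m)
  exact (hf m).mem_toFinset.2 (Finset.mem_filter.1 hx).2

section

variable {K : Type} [Field K] [NumberField K] {J : K →+* ℂ} {D : ℕ} {θ : 𝓞 K}

theorem co_one (m : ℕ) : co (fun _ : Ideal (𝓞 K) => 1) m =
    ((Ideal.finite_setOfPred_absNorm_eq (S := 𝓞 K) m).toFinset.card : ℂ) := by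
  rw [co, finsum_mem_eq_finite_toFinset_sum _ (Ideal.finite_setOfPred_absNorm_eq m)]
  simp

/-- the sum of the theta series over all the classes -/
theorem te_sum (τ : ℍ)
    (hs : Summable fun m : ℕ => co (fun _ : Ideal (𝓞 K) => 1) (m + 1) * ee ((m + 1 : ℕ) * τ)) :
    HasSum (fun m : ℕ => (if m = 0 then (Fintype.card (ClassGroup (𝓞 K)) : ℂ) else
      2 * co (fun _ : Ideal (𝓞 K) => 1) m) * ee (m * τ)) (∑ C : ClassGroup (𝓞 K), TE C τ) := by
  have h1 : Summable fun I : Ideal (𝓞 K) => ‖ee (Ideal.absNorm I * τ)‖ := by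
    refine summ_fib (g := fun m : ℕ => ‖ee (m * τ)‖) (fun I : Ideal (𝓞 K) => Ideal.absNorm I)
      (fun m => Ideal.finite_setOfPred_absNorm_eq m) (fun _ => norm_nonneg _) ?_
    refine (summable_nat_add_iff 1).1 (hs.norm.congr fun m => ?_)
    rw [norm_mul, co_one, norm_natCast]
  have h2 : ∀ (p : Ideal (𝓞 K) → Prop) [DecidablePred p], Summable fun I : Ideal (𝓞 K) =>
      if p I then ee (Ideal.absNorm I * τ) else 0 := fun p _ =>
    Summable.of_norm_bounded h1 fun I => by split_ifs <;> simp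
  have h3 : ∑ C : ClassGroup (𝓞 K), TE C τ = Fintype.card (ClassGroup (𝓞 K)) +
      2 * ∑' I : Ideal (𝓞 K), if I ≠ ⊥ then ee (Ideal.absNorm I * τ) else 0 := by
    simp only [TE]
    rw [Finset.sum_add_distrib, ← Finset.mul_sum, ← Summable.tsum_finsetSum fun C _ => h2 _]
    congr 1
    · simp
    · congr 1
      refine tsum_congr fun I => ?_
      by_cases hI : I = ⊥ <;> simp [hI]
  have h4 := regroup' (h2 fun I => I ≠ ⊥).hasSum (fun I => Ideal.absNorm I)
    (fun m => (Ideal.finite_setOfPred_absNorm_eq (S := 𝓞 K) m).toFinset)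
    (fun m x hx => by simpa using hx) fun x _ => by simp
  rw [h3]
  refine ((hasSum_ite_eq (0 : ℕ) (Fintype.card (ClassGroup (𝓞 K)) : ℂ)).add
    (h4.mul_left 2)).congr_fun fun m => ?_
  split_ifs with hm
  · subst hm
    rw [Finset.sum_eq_zero fun I hI => if_neg (not_not.2 (Ideal.absNorm_eq_zero_iff.1
      (by simpa only [Set.Finite.mem_toFinset, mem_ofPred_eq] using hI)))]
    simp [ee]
  · rw [zero_add, co_one, mul_assoc, ← nsmul_eq_mul, ← Finset.sum_const]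
    congr 1
    refine Finset.sum_congr rfl fun I hI => ?_
    have e : Ideal.absNorm I = m := by simpa using hI
    rw [if_pos fun h => hm (by rw [← e, h, Ideal.absNorm_bot]), e]

/-- level `D` -/
theorem sw_one (H : THK) (hK : Kd J D θ) (τ : ℍ) :
    ∫ t in Ioi (0 : ℝ), PsiK (ph D fun d => (J(d | D) : ℂ)) t τ =
      2 / √D * ∑ C : ClassGroup (𝓞 K), TE C τ := by
  obtain ⟨h1, h2, -⟩ := H K J D θ hK
  have hm := hK.md
  obtain ⟨C₀, hC⟩ := eis hK.sqf (by omega)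
  have hD : (0 : ℝ) < D := by exact_mod_cast (by omega : 0 < D)
  have hq : ((√(D : ℝ) : ℝ) : ℂ) ≠ 0 := ofReal_ne_zero.2 (Real.sqrt_ne_zero'.2 hD)
  have h3 : ∀ z : ℍ, (∫ t in Ioi (0 : ℝ), PsiK (ph D fun d => (J(d | D) : ℂ)) t z) -
      2 / √D * ∑ C : ClassGroup (𝓞 K), TE C z =
      C₀ - 2 / √D * Fintype.card (ClassGroup (𝓞 K)) := by
    intro z
    have h4 := hC z z.im_pos
    have h5 : Summable fun m : ℕ =>
        co (fun _ : Ideal (𝓞 K) => 1) (m + 1) * ee ((m + 1 : ℕ) * z) := by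
      refine (((summable_nat_add_iff 1).2 h4.summable).mul_left (√(D : ℝ) / 4 : ℂ)).congr
        fun m => ?_
      rw [if_neg m.succ_ne_zero, h2 _ m.succ_pos]
      push_cast
      field_simp
    refine (h4.sub ((te_sum z h5).mul_left (2 / (√D : ℝ) : ℂ))).unique
      ((hasSum_ite_eq (0 : ℕ) _).congr_fun fun m => ?_)
    split_ifs with h
    · subst h
      simp [ee]
    · rw [h2 _ (Nat.pos_of_ne_zero h)]
      push_cast
      ring
  have h6 := h3 (lo D • τ)
  have h7 : lo D ∈ Gamma0 D := by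
    rw [Gamma0_mem]
    simp [lo]
  have h8 : ∀ C : ClassGroup (𝓞 K), TE C (lo D • τ) = jj (lo D) τ * TE C τ := fun C => by
    rw [(h1 C).law _ h7]
    simp [lo]
  simp only [psi_lo, h8] at h6
  rw [integral_const_mul, ← Finset.mul_sum, mul_left_comm, ← mul_sub, h3 τ] at h6
  have h9 : jj (lo D) τ - 1 ≠ 0 := by
    have : jj (lo D) τ - 1 = D * τ := by simp [jj, lo]
    rw [this]
    exact mul_ne_zero (by exact_mod_cast hD.ne') τ.ne_zero
  rw [← sub_eq_zero, h3 τ]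
  exact (mul_eq_zero.1 (by linear_combination h6)).resolve_left h9

end

theorem jac_one {D e : ℕ} (he : e ≠ 0) (h : ∀ p : ℕ, p.Prime → p ∣ e → J(p | D) = 1) :
    J(e | D) = 1 := by
  induction e using induction_on_primes with
  | zero => exact absurd rfl he
  | one => simp
  | prime_mul p a hp ih =>
    rw [Nat.cast_mul, jacobiSym.mul_left, h p hp (dvd_mul_right _ _),
      ih (right_ne_zero_of_mul he) fun q hq hd => h q hq (hd.mul_left _), one_mul]

theorem moeb {M : ℕ} (hM : 0 < M) (d : ℤ) (x : ℂ) : (if IsCoprime d (M : ℤ) then x else 0) =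
    ∑ e ∈ M.divisors, (μ e : ℂ) * if (e : ℤ) ∣ d then x else 0 := by
  have h1 : ∑ e ∈ (Nat.gcd d.natAbs M).divisors, (μ e : ℤ) =
      if Nat.gcd d.natAbs M = 1 then 1 else 0 := by
    rw [← ArithmeticFunction.coe_mul_zeta_apply, ArithmeticFunction.moebius_mul_coe_zeta,
      ArithmeticFunction.one_apply]
  have h2 : (Nat.gcd d.natAbs M).divisors = M.divisors.filter fun e : ℕ => (e : ℤ) ∣ d := by
    ext e
    simp only [Nat.mem_divisors, Finset.mem_filter, Nat.dvd_gcd_iff, Int.natCast_dvd]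
    have := Nat.gcd_pos_of_pos_right d.natAbs hM
    constructor
    · exact fun h => ⟨⟨h.1.2, hM.ne'⟩, h.1.1⟩
    · exact fun h => ⟨⟨h.2, h.1.1⟩, this.ne'⟩
  have h3 : IsCoprime d (M : ℤ) ↔ Nat.gcd d.natAbs M = 1 := by
    rw [Int.isCoprime_iff_gcd_eq_one, Int.gcd, Int.natAbs_natCast]
  simp only [mul_ite, mul_zero]
  rw [← Finset.sum_filter, ← Finset.sum_mul, ← h2, ← Int.cast_sum, h1]
  simp only [h3]
  split_ifs <;> simp

theorem coe_up {k : ℕ} (hk : 0 < k) (τ : ℍ) : ((ofComplex (k * τ) : ℍ) : ℂ) = k * τ := by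
  have : 0 < ((k : ℂ) * τ).im := by
    rw [← ofReal_natCast, im_ofReal_mul]
    exact mul_pos (by exact_mod_cast hk) τ.im_pos
  rw [ofComplex_apply_of_im_pos this]

theorem im_up {k : ℕ} (hk : 0 < k) (τ : ℍ) : (ofComplex (k * τ) : ℍ).im = k * τ.im := by
  rw [← UpperHalfPlane.coe_im, coe_up hk, ← ofReal_natCast, im_ofReal_mul, UpperHalfPlane.coe_im]

theorem tt_dvd {e k D : ℕ} (he : 0 < e) (hk : 0 < k) (hJ : J(e | D) = 1) (τ : ℍ) (t : ℝ) :
    tt (e * k * D) (fun d => if (e : ℤ) ∣ d then (J(d | D) : ℂ) else 0) τ t =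
      e * tt D (fun d => (J(d | D) : ℂ)) (ofComplex (k * τ)) (t * (e * (e * k))) := by
  have hi : Function.Injective fun p : ℤ × ℤ => (p.1, (e : ℤ) * p.2) := by
    intro p p' h
    simp only [Prod.mk.injEq] at h
    exact Prod.ext h.1 (mul_left_cancel₀ (by omega) h.2)
  rw [tt_tm, tt_tm, ← tsum_mul_left, ← hi.tsum_eq]
  · refine tsum_congr fun v => ?_
    simp only [dvd_mul_right, if_true, jacobiSym.mul_left, hJ, one_mul, tm, coe_up hk, im_up hk]
    have e1 : (v.1 : ℂ) * (e * k * D : ℕ) * τ + ((e : ℤ) * v.2 : ℤ) =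
        e * (v.1 * D * (k * (τ : ℂ)) + v.2) := by
      push_cast
      ring
    have k0 : (k : ℝ) ≠ 0 := by exact_mod_cast hk.ne'
    have y0 := τ.im_ne_zero
    rw [e1, map_mul, norm_mul, norm_natCast, map_natCast]
    generalize (v.1 : ℂ) * D * (k * (τ : ℂ)) + v.2 = u
    rw [show π * t * (e * ‖u‖) ^ 2 / τ.im = π * (t * (e * (e * k))) * ‖u‖ ^ 2 / (k * τ.im) by
      field_simp]
    ring
  · rintro ⟨c, d⟩ h
    by_contra hc
    have : ¬ (e : ℤ) ∣ d := fun ⟨a, ha⟩ => hc ⟨(c, a), by simp [ha]⟩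
    simp [this] at h

end Vale.Agent.P004C.Wa.Sk

namespace Vale.Agent.P004C.Wa

open Sk

/-- **Siegel-Weil** -/
theorem sw (H : THK) : SW := by
  intro K _ _ J D θ hK M hM hs τ
  have hm := hK.md
  have hD : 0 < D := by omega
  have : NeZero D := ⟨hD.ne'⟩
  have h1 : ∀ e ∈ M.divisors, IntegrableOn (fun t => (μ e : ℂ) * tt (M * D)
      (fun d => if (e : ℤ) ∣ d then (J(d | D) : ℂ) else 0) τ t) (Ioi 0) ∧
      ∫ t in Ioi (0 : ℝ), (μ e : ℂ) * tt (M * D)
        (fun d => if (e : ℤ) ∣ d then (J(d | D) : ℂ) else 0) τ t =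
      2 * τ.im / √D * ((μ e : ℂ) / e * up (M / e) (∑ C : ClassGroup (𝓞 K), TE C) τ) := by
    intro e he
    obtain ⟨k, rfl⟩ := Nat.dvd_of_mem_divisors he
    have e0 : 0 < e := Nat.pos_of_mul_pos_right hM
    have k0 : 0 < k := Nat.pos_of_mul_pos_left hM
    have e1 : (0 : ℝ) < e := by exact_mod_cast e0
    have k1 : (0 : ℝ) < k := by exact_mod_cast k0
    have e2 : (e : ℂ) ≠ 0 := by exact_mod_cast e0.ne'
    have k2 : (k : ℂ) ≠ 0 := by exact_mod_cast k0.ne'
    have hc : (0 : ℝ) < e * (e * k) := by positivity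
    have hJ : J(e | D) = 1 := jac_one e0.ne' fun p hp h => hs p hp (h.mul_right _)
    simp only [tt_dvd e0 k0 hJ, tt_eq hD]
    refine ⟨Integrable.const_mul (Integrable.const_mul (Integrable.const_mul ?_ _) _) _, ?_⟩
    · exact (integrableOn_Ioi_comp_mul_right_iff (fun t => PsiK (ph D fun d => (J(d | D) : ℂ)) t
        (ofComplex (k * τ) : ℍ)) 0 hc).2 (by
          rw [zero_mul]
          exact (psi_int (ph_per D) (ofComplex (k * τ) : ℍ).im_pos).1)
    · rw [integral_const_mul, integral_const_mul, integral_const_mul,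
        integral_comp_mul_right_Ioi (fun t => PsiK (ph D fun d => (J(d | D) : ℂ)) t
          (ofComplex (k * τ) : ℍ)) 0 hc, zero_mul, sw_one H hK, Nat.mul_div_cancel_left _ e0, up,
        Finset.sum_apply, im_up k0, real_smul]
      push_cast
      field_simp
  rw [Finset.mul_sum, ← Finset.sum_congr rfl fun e he => (h1 e he).2,
    ← integral_finsetSum _ fun e he => (h1 e he).1]
  refine setIntegral_congr_fun measurableSet_Ioi fun t ht => ?_
  simp only [tt_tm, ← tsum_mul_left]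
  rw [← Summable.tsum_finsetSum fun (e : ℕ) _ => (summ_tm (mul_pos hM hD)
    (χ := fun d => if (e : ℤ) ∣ d then (J(d | D) : ℂ) else 0) (fun d => by
    split_ifs
    · exact norm_jac _ _
    · simp) τ ht).mul_left (μ e : ℂ)]
  refine tsum_congr fun v => ?_
  rw [moeb hM, Finset.sum_mul]
  exact Finset.sum_congr rfl fun e _ => mul_assoc _ _ _

end Vale.Agent.P004C.Wa
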