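import Vale.Agent.P004C.Wa.Thk0
import Vale.Agent.P022.H138.LawF
import Vale.Agent.P022.H420.Po
import Vale.Agent.P022.H964.Lat
import Vale.Agent.P022.H724.IB
import Vale.Agent.P022.H761.Thi

/-!
# P004 C, block WA, row THK: the laws of the theta series of `K`
-/

open NumberField Module Ideal UpperHalfPlane CongruenceSubgroup
open scoped Classical ComplexConjugate NumberTheorySymbols MatrixGroups Real ModularForm

noncomputable section

namespace Vale.Agent.P004C.Wa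

namespace Tk

open Cj Vale.Agent.P022 Vale.Agent.P022.H964

section

variable {a b c : ℤ} {D : ℕ}

theorem law (ha : 0 < a) (hD : Odd D) (hd : b ^ 2 - 4 * a * c = -(D : ℤ)) (κ : ℕ) {m : ℕ}
    (hm : 0 < m) {f : ℤ × ℤ → ℂ} (hf : Per m f) {γ : SL(2, ℤ)} (hγ : γ ∈ Gamma0 (D * m ^ 2))
    {z : ℂ} (hz : ∀ v, f (γ 1 1 • v) = z * f v) (τ : ℍ) :
    th a b c D κ f (γ • τ : ℍ) = J(γ 1 1 | D) * z * jj γ τ ^ (κ + 1) * th a b c D κ f τ := by
  have h1 : γ 0 0 * γ 1 1 - γ 0 1 * γ 1 0 = 1 := by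
    have := γ.det_coe
    rwa [Matrix.det_fin_two] at this
  have h2 := H138.LAW H420.po a b c D ha hD hd κ m hm f hf _ _ _ _ h1
    ((ZMod.intCast_zmod_eq_zero_iff_dvd _ _).1 (Gamma0_mem.1 hγ)) τ τ.im_pos
  have h3 : th a b c D κ (fun v => f (γ 1 1 • v)) τ = z * th a b c D κ f τ := by
    rw [th, th, ← tsum_mul_left]
    refine tsum_congr fun v => ?_
    rw [thT, thT, hz]
    ring
  rw [coe_specialLinearGroup_apply]
  simp only [eq_intCast, Complex.ofReal_intCast]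
  rw [h2, h3, jj]
  ring

theorem mem_V (κ : ℕ) {m : ℕ} (hm : 0 < m) {f : ℤ × ℤ → ℂ} (hf : Per m f) :
    (fun τ : ℍ => th a b c D κ f τ) ∈ V a b c D κ :=
  ⟨1, 1, f, m, one_pos, hm, hf, fun τ => by simp [Th]⟩

theorem hol' (ha : 0 < a) (hD : 0 < D) (hd : b ^ 2 - 4 * a * c = -(D : ℤ)) (κ : ℕ) {m : ℕ}
    (hm : 0 < m) {f : ℤ × ℤ → ℂ} (hf : Per m f) :
    MDifferentiable (modelWithCornersSelf ℂ ℂ) (modelWithCornersSelf ℂ ℂ)
      fun τ : ℍ => th a b c D κ f τ := by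
  have : (fun τ : ℍ => th a b c D κ f τ) = Th a b c D κ 1 f := funext fun τ => by simp [Th]
  rw [this]
  exact mdiff_Th ha hD hd κ one_pos hm hf

theorem decay (ha : 0 < a) (hD : 0 < D) (hd : b ^ 2 - 4 * a * c = -(D : ℤ)) {F : ℍ → ℂ}
    (hF : F ∈ V a b c D 1) (γ : SL(2, ℤ)) : ∃ B e : ℝ, 0 < e ∧ ∀ τ : ℍ, 1 / 2 ≤ τ.im →
      ‖F (γ • τ)‖ ≤ B * ‖jj γ τ‖ ^ 2 * Real.exp (-(e * τ.im)) := by
  have h1 : F ∣[((1 : ℕ) + 1 : ℤ)] γ ∈ V a b c D 1 := by
    refine stable (k := ((1 : ℕ) + 1 : ℤ)) (V := V a b c D 1)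
      (fun f hf => V_S H420.po ha hD hd 1 hf) (fun f hf => ?_) (fun f hf => ?_) γ F hF
    · simpa using V_T a b c D 1 hf 1
    · simpa using V_T a b c D 1 hf (-1)
  obtain ⟨C, ρ, f, q, hρ, hq, hf, h⟩ := h1
  obtain ⟨B, hB0, hB⟩ := per_bounded hq hf
  have hg := good ha hD hd 1 hρ hB0 hB
  have hρ' : (0 : ℝ) < ρ := by exact_mod_cast hρ
  refine ⟨‖C‖ * ∑' v : ℤ × ℤ, ‖f v * ev a b D v ^ 1‖ *
    Real.exp (-(2 * π * (1 / 4) * (ρ * Qf a b c v))), π * ρ, by positivity, fun τ hτ => ?_⟩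
  have h2 : F (γ • τ) = C * Th a b c D 1 ρ f τ * jj γ τ ^ 2 := by
    have h0 : jj γ τ = denom γ τ := by rw [ModularGroup.denom_apply, jj]
    rw [← h, ModularForm.SL_slash_apply, h0, mul_assoc, ← zpow_natCast, ← zpow_add₀ (denom_ne_zero _ _)]
    simp
  have h3 := ((hg.sum (1 / 4) (by norm_num)).hasSum.mul_right (Real.exp (-(π * ρ * τ.im))))
  have h4 := tsum_of_norm_bounded h3 (f := fun v => f v * ev a b D v ^ 1 *
      Complex.exp (2 * π * Complex.I * τ * ((ρ * Qf a b c v : ℝ) : ℂ))) fun v => by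
    by_cases hv : v = 0
    · simp [hv, ev]
    rw [norm_mul, norm_exp, mul_assoc ‖_‖, ← Real.exp_add]
    refine mul_le_mul_of_nonneg_left (Real.exp_le_exp.2 ?_) (norm_nonneg _)
    obtain ⟨c₀, h0, hl⟩ := Q_lower ha hD hd
    have h5 : (0 : ℝ) < (v.1 : ℝ) ^ 2 + (v.2 : ℝ) ^ 2 := by
      have : v.1 ≠ 0 ∨ v.2 ≠ 0 := by
        by_contra k
        rw [not_or, not_not, not_not] at k
        exact hv (Prod.ext k.1 k.2)
      rcases this with k | k <;> positivity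
    have h6 : (0 : ℤ) < Qf a b c v := by exact_mod_cast (mul_pos h0 h5).trans_le (hl v)
    have h7 : (1 : ℝ) ≤ Qf a b c v := by exact_mod_cast h6
    have h8 : 0 ≤ π * ρ := by positivity
    have h9 := mul_nonneg h8 (mul_nonneg (sub_nonneg.2 hτ) (zero_le_one.trans h7))
    have h10 := mul_nonneg h8 (mul_nonneg τ.im_pos.le (sub_nonneg.2 h7))
    rw [coe_im]
    linarith
  rw [h2, norm_mul, norm_mul, norm_pow, Th_eq]
  refine (mul_le_mul_of_nonneg_right (mul_le_mul_of_nonneg_left h4 (norm_nonneg _))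
    (sq_nonneg _)).trans_eq ?_
  ring

end

variable {K : Type} [Field K] [NumberField K] {J : K →+* ℂ} {D : ℕ} {θ : 𝓞 K}

theorem ib (h : Kd J D θ) {I : Ideal (𝓞 K)} (hI : I ≠ ⊥) :
    ∃ (a b c : ℤ) (φ : (ℤ × ℤ) ≃+ I) (ρ : ℂ), 0 < a ∧ b ^ 2 - 4 * a * c = -(D : ℤ) ∧ ρ ≠ 0 ∧
    ∀ v, J (φ v : 𝓞 K) = ρ * ev a b D v ∧
      (absNorm (span {(φ v : 𝓞 K)}) : ℤ) = Qf a b c v * absNorm I :=
  haveI : Algebra.IsQuadraticExtension ℚ K := ⟨h.two⟩
  haveI := tc h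
  H724.IB K D (dsc h) J I hI

theorem odd (h : Kd J D θ) : Odd D := Nat.odd_iff.2 (by have := h.md; omega)

theorem idt {I I' : Ideal (𝓞 K)} (hI : I ≠ ⊥) (f : 𝓞 K → ℂ) (κ : ℕ) (τ : ℍ) (x : I)
    (e : span {(x : 𝓞 K)} = I * I') :
    idT J I f κ τ x = f x * J (x : 𝓞 K) ^ κ * ee (absNorm I' * τ) := by
  have hN : (absNorm I : ℂ) ≠ 0 := by simpa [absNorm_eq_zero_iff] using hI
  rw [idT, e, map_mul, ee, Nat.cast_mul, mul_div_cancel_left₀ _ hN, mul_assoc (2 * π * Complex.I)]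

theorem mw_te (h : Kd J D θ) (C : ClassGroup (𝓞 K)) : MW D (fun d => (J(d | D) : ℂ)) (TE C) := by
  obtain ⟨I, hI, -, rfl⟩ := ex_rep C (f := span {θ}) (by simpa using th_ne h) fun e => by
    obtain ⟨u, hu⟩ := span_singleton_eq_top.1 e
    have h1 := h.sq
    have h2 : θ ^ 2 = 1 := by rcases h.upm u with rfl | rfl <;> simp [← hu]
    have h3 : ((D + 1 : ℕ) : 𝓞 K) = 0 := by push_cast; linear_combination h1 - h2
    exact Nat.succ_ne_zero D (by exact_mod_cast h3)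
  obtain ⟨a, b, c, φ, ρ, ha, hd, -, hφ⟩ := ib h hI
  have hf : Per 1 fun _ => ρ ^ 0 * 1 := fun _ _ => rfl
  have e : TE (cl I)⁻¹ = fun τ : ℍ => th a b c D 0 (fun _ => ρ ^ 0 * 1) τ := funext fun τ => by
    have h1 := fib h.upm hI (g := fun I' => ee (absNorm I' * τ))
      (H761.hasSum_idT H420.po hI ha (odd h).pos hd hφ one_pos (f := fun _ => 1) 0 hf τ)
      fun x I' _ e => by rw [idt hI _ _ _ _ e]; simp
    rw [TE, ← tsum_mul_left, tsum_congr fun I' => mul_ite_zero _ _ _, h1.tsum_eq,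
      idt (I' := ⊥) hI _ _ _ _ (by simp)]
    simp [ee]
  rw [e]
  refine ⟨hol' ha (odd h).pos hd 0 one_pos hf, fun γ hγ τ => ?_, fun γ => ?_⟩
  · rw [law ha (odd h) hd 0 one_pos hf (by simpa using hγ) (z := 1) (fun _ => (one_mul _).symm)]
    simp
  · simpa using bdd_all H420.po ha (odd h).pos hd 0 (mem_V 0 one_pos hf) γ

theorem chr_norm {m : ℕ} {ε : ℤ → ℂ} (hm : 0 < m) (h : Chr m ε) {k : ℤ} (hk : ε k ≠ 0) :
    ‖ε k‖ = 1 := by
  have : NeZero m := ⟨hm.ne'⟩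
  obtain ⟨u, hu⟩ := (ZMod.coe_int_isUnit_iff_isCoprime k m).2
    (not_not.1 (mt (h.zero k).2 hk)).symm
  obtain ⟨i, hi, e⟩ := isOfFinOrder_iff_pow_eq_one.1 (isOfFinOrder_of_finite u)
  have h1 : ∀ j : ℕ, ε (k ^ j) = ε k ^ j := fun j => by
    induction j with
    | zero => simpa using h.one
    | succ j ih => rw [pow_succ, h.mul, ih, pow_succ]
  have h2 : ε k ^ i = 1 := by
    rw [← h1, ← h.one]
    refine h.per _ _ ((ZMod.intCast_zmod_eq_zero_iff_dvd _ _).1 ?_)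
    push_cast
    rw [← hu, ← Units.val_pow_eq_pow_val, e, Units.val_one, sub_self]
  exact (pow_eq_one_iff_of_nonneg (norm_nonneg _) hi.ne').1 (by rw [← norm_pow, h2, norm_one])

variable {m : ℕ} {n n' : Ideal (𝓞 K)} {ε : ℤ → ℂ} {a : Ideal (𝓞 K) → ℂ}

theorem a_norm (h : Kd J D θ) (hs : Sp m n n') (hε : Chr m ε) (ha : Ha J n' ε a)
    (I : Ideal (𝓞 K)) : a I = 0 ∨ ‖a I‖ ^ 2 * absNorm I = 1 := by
  obtain ⟨s, c⟩ := ex_cg h
  refine or_iff_not_imp_left.2 fun h0 => ?_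
  have hI : I ≠ ⊥ := fun e => h0 ((ha.hc.zero I).2 (Or.inl e))
  have hp : 0 < Nat.card (ClassGroup (𝓞 K)) := Nat.card_pos
  set i := Nat.card (ClassGroup (𝓞 K))
  obtain ⟨x, hx⟩ := (cl_one (pow_ne_zero i hI)).1 (by rw [cl_pow hI, pow_card_eq_one'])
  have x0 : x ≠ 0 := fun e => pow_ne_zero i hI (by rw [hx, e]; simp)
  have h1 : ∀ j : ℕ, a (I ^ j) = a I ^ j := fun j => by
    induction j with
    | zero => simpa using ha.hc.one
    | succ j ih => rw [pow_succ, ha.hc.mul, ih, pow_succ]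
  obtain ⟨k, hk⟩ := hs.cn' x
  have h2 := ha.fin x k x0 hk
  rw [← hx, h1] at h2
  have h3 := chr_norm hs.pos hε (right_ne_zero_of_mul (h2 ▸ pow_ne_zero i h0))
  have h4 := c.ab x
  rw [← hx, map_pow, Nat.cast_pow] at h4
  have h5 : ‖J x‖ ≠ 0 := by simpa using x0
  refine (pow_eq_one_iff_of_nonneg (by positivity) hp.ne').1 ?_
  rw [mul_pow, h4, pow_right_comm, ← norm_pow, h2, norm_mul, h3, norm_inv]
  field_simp

theorem ta_eq (h : Kd J D θ) (hs : Sp m n n') (hε : Chr m ε) (ha : Ha J n' ε a)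
    (C : ClassGroup (𝓞 K)) : ∃ (p q r : ℤ) (f : ℤ × ℤ → ℂ), 0 < p ∧ q ^ 2 - 4 * p * r = -(D : ℤ) ∧
      Per m f ∧ (∀ (d : ℤ) v, f (d • v) = conj (ε d) * f v) ∧
      ∀ τ : ℍ, TA a C τ = conj (th p q r D 1 f τ) / 2 := by
  obtain ⟨s, c⟩ := ex_cg h
  obtain ⟨I, hI, hc, rfl⟩ := ex_rep C (sp_ne hs).2 fun e => by
    have h1 := hε.per 1 (-1) ((c.sp_int hs _).1 (e ▸ Submodule.mem_top))
    rw [hε.one, hε.odd] at h1
    norm_num at h1
  have a0 : a I ≠ 0 := fun e => ((ha.hc.zero I).1 e).elim hI fun k => k hc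
  have hN : (absNorm I : ℂ) ≠ 0 := by simpa [absNorm_eq_zero_iff] using hI
  obtain ⟨p, q, r, φ, ρ, hp, hd, -, hφ⟩ := ib h hI
  choose k hk using hs.cn'
  have uq : ∀ (x : 𝓞 K) (j : ℤ), x - j ∈ n' → ε (k x) = ε j := fun x j e => hε.per _ _
    ((c.sp_int hs _).1 (by
      have := sub_mem e (hk x)
      rwa [sub_sub_sub_cancel_left, ← Int.cast_sub] at this))
  let f : 𝓞 K → ℂ := fun x => conj (ε (k x) / (a I * absNorm I))
  have hf : PerO m f := fun x y => by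
    have := add_mem (hk x) (mul_mem_right y _ (sp_m hs).2)
    simp only [f]
    rw [uq _ (k x) (by rwa [sub_add_eq_add_sub] at this)]
  refine ⟨p, q, r, _, hp, hd, H761.per_of hf φ (ρ ^ 1), fun d v => ?_, fun τ => ?_⟩
  · have := mul_mem_left _ (d : 𝓞 K) (hk (φ v))
    simp only [f]
    rw [uq _ (d * k (φ v)) (by
      rw [map_zsmul, Submodule.coe_smul_of_tower, zsmul_eq_mul, Int.cast_mul, ← mul_sub]
      exact this), hε.mul, mul_div_assoc, map_mul]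
    ring
  · have h1 := fib h.upm hI
      (g := fun I' => conj (a I' * absNorm I' * conj (ee (absNorm I' * τ))))
      (H761.hasSum_idT H420.po hI hp (odd h).pos hd hφ hs.pos 1 (H761.per_of hf φ _) τ)
      fun x I' x0 e => by
        have e1 := ha.fin x (k x) x0 (hk x)
        have e2 : ((absNorm (span {(x : 𝓞 K)}) : ℝ) : ℂ) = J (x : 𝓞 K) * conj (J (x : 𝓞 K)) := by
          rw [c.ab, Complex.mul_conj, Complex.normSq_eq_norm_sq]
        rw [e, ha.hc.mul] at e1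
        rw [e, map_mul, Complex.ofReal_natCast, Nat.cast_mul] at e2
        have j0 : J (x : 𝓞 K) ≠ 0 := by simpa using x0
        have e3 : a I' * absNorm I' = ε (k x) / (a I * absNorm I) * conj (J (x : 𝓞 K)) := by
          field_simp at e1 ⊢
          apply mul_left_cancel₀ j0
          linear_combination (absNorm I * absNorm I' : ℂ) * e1 + ε (k x) * e2
        rw [idt hI _ _ _ _ e, e3, map_mul, map_mul, Complex.conj_conj, Complex.conj_conj, pow_one]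
    rw [idt (I' := ⊥) hI _ _ _ _ (by simp)] at h1
    have h2 := (h1.map (starRingEnd ℂ) Complex.continuous_conj).div_const 2
    rw [TA]
    refine (HasSum.tsum_eq (h2.congr_fun fun I' => ?_)).trans (by simp)
    by_cases e : I' = ⊥
    · simp [e]
    · by_cases e' : cl I' = (cl I)⁻¹ <;> simp [e, e', map_ofNat]

end Tk

open Tk in
theorem thk : THK := by
  intro K _ _ J D θ h
  refine ⟨mw_te h, fun n hn => cnt h hn, fun m n n' ε a hs hε ha =>
    ⟨a_norm h hs hε ha, fun C => ?_⟩⟩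
  obtain ⟨p, q, r, f, hp, hd, hf, hz, e⟩ := ta_eq h hs hε ha C
  refine ⟨?_, fun γ hγ τ => ?_, fun γ => ?_⟩
  · rw [funext e]
    exact (Complex.continuous_conj.comp
      (hol' hp (odd h).pos hd 1 hs.pos hf).continuous).div_const 2
  · rw [e, e, law hp (odd h) hd 1 hs.pos hf hγ (hz _)]
    simp only [map_mul, map_pow, map_intCast, Complex.conj_conj]
    ring
  · obtain ⟨B, c, hc, hB⟩ := decay hp (odd h).pos hd (mem_V 1 hs.pos hf) γ
    refine ⟨B, c, hc, fun τ hτ => le_trans ?_ (hB τ hτ)⟩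
    rw [e, norm_div, Complex.norm_conj, Complex.norm_two]
    exact half_le_self (norm_nonneg _)

end Vale.Agent.P004C.Wa
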