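import Vale.Agent.P004C.Wa.Tc

/-!
# P004 C, block WA: row THM, the depleted theta series is a modular form of weight one
-/

set_option linter.all false
set_option autoImplicit false

open NumberField Module Ideal CongruenceSubgroup
open UpperHalfPlane hiding I
open scoped Classical MatrixGroups Real Manifold ModularForm NumberTheorySymbols

noncomputable section

namespace Vale.Agent.P004C.Wa

open Vale.Agent.P022 Vale.Agent.P022.H724 Tb

theorem Tb.cop_norm {L : Type} [Field L] [NumberField L] (B : QB L) {I : Ideal (𝓞 L)} {n : ℕ}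
    (h : IsCoprime I (span {(n : 𝓞 L)})) : (absNorm I).Coprime n := by
  obtain ⟨x, hx, y, hy, e⟩ := Submodule.mem_sup.1 ((eq_top_iff_one _).1 (isCoprime_iff_sup_eq.1 h))
  obtain ⟨y, rfl⟩ := mem_span_singleton.1 hy
  obtain ⟨k, hk⟩ := norm_per B x y n
  obtain ⟨l, hl⟩ := absNorm_dvd_norm_of_mem hx
  rw [Int.cast_natCast, e, map_one, hl] at hk
  exact Nat.isCoprime_iff_coprime.1 ⟨l, k, by linear_combination -hk⟩

theorem thm : THM := by
  intro L _ _ h2 sg f ψ hS h hf m₀ m m0 k1 k2 k3 k4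
  obtain ⟨B, u, D, T, c, H⟩ := ts h2 hS
  obtain ⟨R, hR, cop⟩ := ex_sys (L := L) m0.ne'
  have dv : m₀ ∣ m := (dvd_mul_left _ _).trans k4
  have m1 : 0 < m₀ := Nat.pos_of_dvd_of_pos dv m0
  have cm : ∀ n : ℕ, n.Coprime m ↔ n.Coprime m₀ := fun n => ⟨fun k => k.coprime_dvd_right dv,
    fun k => Nat.coprime_of_dvd fun p hp a b => hp.one_lt.ne' (Nat.eq_one_of_dvd_coprimes k a (k3 p hp b))⟩
  have cz : ∀ x : 𝓞 L, (absNorm (span {x})).Coprime m ↔ IsCoprime (Algebra.norm ℤ x) (m₀ : ℤ) :=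
    fun x => by rw [cm, absNorm_span_singleton, Int.isCoprime_iff_gcd_eq_one]; rfl
  let F : 𝓞 L → ℂ := fun x => if IsCoprime (Algebra.norm ℤ x) (m₀ : ℤ) then chi sg ψ x else 0
  have pF : PerO m₀ F := fun x y => by
    obtain ⟨k, hk⟩ := norm_per B x y m₀
    rw [Int.cast_natCast, sub_eq_iff_eq_add'] at hk
    simp only [F, hk, IsCoprime.add_mul_left_left_iff]
    rw [chi_per hS h hf (y := x) (by simpa using f.mul_mem_right y k1)]
  have uF : ∀ x, F (u * x) = F x := fun x => by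
    simp only [F, ← cz, chi_unit hS h H.eta, span_singleton_mul_left_unit u.isUnit]
  have r0 : ∀ i, ψ (R i) ≠ 0 := fun i e => by
    refine ((h.zero _).1 e).elim (hR.1 i) fun k => k (eq_top_mono (sup_le_sup_left ?_ _)
      (isCoprime_iff_sup_eq.1 (cop i)))
    obtain ⟨t, rfl⟩ := dv
    simpa using f.mul_mem_right (t : 𝓞 L) k1
  have e : tg (dp m ψ) = ((Subgroup.zpowers u).index : ℂ)⁻¹ •
      ∑ i, (ψ (R i))⁻¹ • fun τ : ℍ => tI (R i) (W (sg ·) D F) τ := funext fun τ => by
    refine (H.dec hS hR (s := (sg ·)) (F := fun i x => (ψ (R i))⁻¹ * F x) (C := 1) ?_ (fun I => ?_)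
      (fun i x I e => ?_) τ.im_pos).tsum_eq.trans (by simp [tI_mul])
    · simp [dp, psi_bot hS h]
    · unfold dp
      split_ifs
      exacts [psi_le hS h hf I, by simp]
    · simp only [F, ← cz, chi, ← e, map_mul, Nat.coprime_mul_iff_left,
        and_iff_right (cop_norm B (cop i)), h.mul, dp]
      split_ifs
      · rcases eq_or_ne x 0 with rfl | x0
        · rw [span_singleton_zero, Ideal.mul_eq_bot] at e
          simp [e.resolve_left (hR.1 i), psi_bot hS h]
        · have := r0 i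
          field_simp
          rw [sq, sg_sq hS (by simpa using x0), mul_one]
      · simp
  have mf := fun i => H.mf (R i) (hR.1 i) m₀ m1 F pF uF
  refine ⟨?_, fun γ hγ τ => ?_, fun γ => ?_⟩
  · rw [e]
    exact (MDifferentiable.sum fun i _ => (mf i).1.const_smul _).const_smul _
  · have det : γ 0 0 * γ 1 1 - γ 0 1 * γ 1 0 = 1 := by
      rw [← Matrix.det_fin_two, γ.det_coe]
    obtain ⟨z, hz⟩ := (ZMod.intCast_zmod_eq_zero_iff_dvd _ _).1 (Gamma0_mem.1 hγ)
    have cd : IsCoprime (γ 1 1) (m : ℤ) := ⟨γ 0 0, -γ 0 1 * m * z, by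
      rw [hz] at det; push_cast at det; linear_combination det⟩
    have cd0 : IsCoprime (γ 1 1) (m₀ : ℤ) := cd.of_isCoprime_of_dvd_right (Int.natCast_dvd_natCast.2 dv)
    have od : Odd (γ 1 1) := Int.isCoprime_two_right.1
      (cd0.of_isCoprime_of_dvd_right (Int.natCast_dvd_natCast.2 k2))
    have d0 : ((γ 1 1 : ℤ) : L) ≠ 0 := Int.cast_ne_zero.2 fun e => by simp [e] at od
    have dz : (((discr L).natAbs * m₀ ^ 2 : ℕ) : ℤ) ∣ γ 1 0 := hz ▸ Dvd.dvd.mul_right
      (Int.natCast_dvd_natCast.2 (by rw [sq, sq, ← mul_assoc]; exact mul_dvd_mul k4 dv)) z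
    have dF : (fun t => F ((γ 1 1 : ℤ) * t)) = fun t => chi sg ψ (γ 1 1 : ℤ) * F t := funext fun t => by
      have n := B.norm_eq (γ 1 1) 0
      simp only [Int.cast_zero, zero_mul, add_zero, mul_zero] at n
      simp only [F, map_mul, n, chi_mul hS h, IsCoprime.mul_left_iff]
      simp [cd0.pow_left]
    have c1 : ((γ • τ : ℍ) : ℂ) = (γ 0 0 * τ + γ 0 1) / (γ 1 0 * τ + γ 1 1) := by
      simp [specialLinearGroup_apply]
    simp only [e, Pi.smul_apply, Finset.sum_apply, smul_eq_mul, c1, Finset.mul_sum]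
    refine Finset.sum_congr rfl fun i _ => ?_
    rw [(mf i).2.2 _ _ _ _ det dz od _ τ.im_pos, dF, tI_mul, eps, if_pos cd, chi, jj]
    have := sg_sq hS d0
    simp only [map_intCast]
    generalize sg (γ 1 1 : ℤ) = s at this
    generalize tI (R i) _ _ = t
    linear_combination (((Subgroup.zpowers u).index : ℂ)⁻¹ * (ψ (R i))⁻¹ * ((γ 1 1).sign *
      J(discr L | (γ 1 1).natAbs) : ℤ) * (γ 1 0 * τ + γ 1 1) * ψ (span {((γ 1 1 : ℤ) : 𝓞 L)}) * t) * this
  · rw [e, ModularForm.SL_smul_slash, SlashAction.sum_slash]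
    refine Filter.BoundedAtFilter.smul _ (Finset.sum_induction _ IsBoundedAtImInfty
      (fun _ _ => Filter.BoundedAtFilter.add) UpperHalfPlane.zero_form_isBoundedAtImInfty
      fun i _ => ?_)
    rw [ModularForm.SL_smul_slash]
    exact Filter.BoundedAtFilter.smul _ ((mf i).2.1 γ)

end Vale.Agent.P004C.Wa
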