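import Vale.Agent.P004C.Wa.Wald1

/-! # P004 C, block WA: the period formula -/

open NumberField Module UpperHalfPlane CongruenceSubgroup MeasureTheory
open scoped Classical MatrixGroups Real Manifold ModularForm ComplexConjugate NumberTheorySymbols
  ArithmeticFunction.Moebius ArithmeticFunction.sigma

noncomputable section

namespace Vale.Agent.P004C.Wa

open Vale.Agent.P004Z.W2

namespace Wd

/-- exponential decay -/
def Dc (f : ℍ → ℂ) : Prop :=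
  ∃ B c : ℝ, 0 < c ∧ ∀ τ : ℍ, 1 / 2 ≤ τ.im → ‖f τ‖ ≤ B * Real.exp (-(c * τ.im))

theorem Dc.sum {ι : Type} (s : Finset ι) {f : ι → ℍ → ℂ} (h : ∀ i, Dc (f i)) :
    Dc fun τ => ∑ i ∈ s, f i τ := by
  induction s using Finset.induction_on with
  | empty => exact ⟨0, 1, one_pos, by simp⟩
  | insert i s n ih =>
    obtain ⟨B, c, p, b⟩ := h i
    obtain ⟨B', c', p', b'⟩ := ih
    refine ⟨|B| + |B'|, min c c', lt_min p p', fun τ k => ?_⟩
    simp only [Finset.sum_insert n, add_mul]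
    refine norm_add_le_of_le ((b τ k).trans ?_) ((b' τ k).trans ?_) <;>
      refine mul_le_mul (le_abs_self _) (Real.exp_le_exp.2 (neg_le_neg
        (mul_le_mul_of_nonneg_right ?_ τ.im_pos.le))) (Real.exp_pos _).le (abs_nonneg _)
    exacts [min_le_left _ _, min_le_right _ _]

variable {N : ℕ} {F T E : ℍ → ℂ} {γ : SL(2, ℤ)}

theorem dc_mul (hF : ∃ B : ℝ, ∀ τ : ℍ, 1 / 2 ≤ τ.im → ‖F (γ • τ)‖ ≤ B * ‖jj γ τ‖)
    (hT : ∃ B c : ℝ, 0 < c ∧ ∀ τ : ℍ, 1 / 2 ≤ τ.im →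
      ‖T (γ • τ)‖ ≤ B * ‖jj γ τ‖ ^ 2 * Real.exp (-(c * τ.im))) :
    Dc fun τ => jj γ τ * (F (γ • τ) * T (γ • τ) * (γ • τ).im ^ 2) := by
  obtain ⟨B, b⟩ := hF
  obtain ⟨B', c, p, b'⟩ := hT
  obtain ⟨C, e⟩ := sq_exp p
  refine ⟨|B| * |B'| * C, c / 2, half_pos p, fun τ k => ?_⟩
  have j := norm_pos_iff.2 (jj_ne γ τ)
  have y := τ.im_pos
  rw [norm_mul, norm_mul, norm_mul, norm_pow, Complex.norm_real, Real.norm_eq_abs, sq_abs, im_sm,
    mul_assoc _ C]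
  refine le_trans ?_ (mul_le_mul_of_nonneg_left (e _ y.le) (by positivity))
  calc _ ≤ ‖jj γ τ‖ * (|B| * ‖jj γ τ‖ * (|B'| * ‖jj γ τ‖ ^ 2 * Real.exp (-(c * τ.im))) *
        (τ.im / ‖jj γ τ‖ ^ 2) ^ 2) := by
        gcongr
        · exact (b τ k).trans (by gcongr; exact le_abs_self _)
        · exact (b' τ k).trans (by gcongr; exact le_abs_self _)
    _ = _ := by field_simp

theorem int_mul {Γ : Subgroup SL(2, ℤ)} [Γ.FiniteIndex] (cF : Continuous F) (cT : Continuous T)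
    (cE : Continuous E) (h : ∀ γ : SL(2, ℤ),
      Dc fun τ => jj γ τ * (F (γ • τ) * T (γ • τ) * (γ • τ).im ^ 2))
    (hE : ∀ γ : SL(2, ℤ), ∃ B : ℝ, ∀ τ : ℍ, 1 / 2 ≤ τ.im → ‖E (γ • τ)‖ ≤ B * ‖jj γ τ‖) :
    Integrable (fun τ => F τ * T τ * E τ * τ.im ^ 2) (fm Γ) := by
  refine int_bd (by fun_prop) fun γ => ?_
  obtain ⟨B, c, p, b⟩ := h γ
  obtain ⟨B', b'⟩ := hE γ
  refine ⟨|B'| * |B|, fun τ k => ?_⟩
  have := b τ k
  rw [norm_mul] at this
  rw [mul_right_comm, norm_mul, mul_comm]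
  refine (mul_le_mul_of_nonneg_right ((b' τ k).trans (mul_le_mul_of_nonneg_right (le_abs_self _)
    (norm_nonneg _))) (norm_nonneg _)).trans ?_
  rw [mul_assoc]
  refine mul_le_mul_of_nonneg_left (this.trans ((mul_le_mul_of_nonneg_right (le_abs_self _)
    (Real.exp_pos _).le).trans (mul_le_of_le_one_right (abs_nonneg _)
      (Real.exp_le_one_iff.2 ?_)))) (abs_nonneg _)
  have := τ.im_pos
  exact neg_nonpos.2 (by positivity)

theorem coe_up {k : ℕ} (hk : 0 < k) (τ : ℍ) : ((ofComplex (k * τ) : ℍ) : ℂ) = k * τ := by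
  rw [ofComplex_apply_of_im_pos (by simpa using mul_pos (Nat.cast_pos.2 hk) τ.im_pos)]

theorem four {d : ℕ → ℂ} {B c : ℕ → ℂ} {H : ℍ → ℂ} {D : ℕ} (hD : 0 < D) (hH : QE H B)
    (hT : ∀ τ : ℍ, HasSum (fun l : ℕ => c l * conj (ee (l * τ))) (T τ))
    (e : ∀ k, d (D * k) = B k * c (D * k)) (e0 : ∀ l, ¬ D ∣ l → d l = 0) {y : ℝ} (hy : 0 < y) :
    HasSum (fun l : ℕ => y ^ 2 * d l * Real.exp (-(4 * π * l * y)))
      (∫ x in (0 : ℝ)..1, up D H (ofComplex (x + y * Complex.I)) * T (ofComplex (x + y * Complex.I)) *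
        (ofComplex (x + y * Complex.I)).im ^ 2) := by
  have q : ∀ x : ℝ, ((ofComplex (x + y * Complex.I) : ℍ) : ℂ) = x + y * Complex.I := fun x => by
    rw [ofComplex_apply_of_im_pos (by simpa using hy)]
  have h1 : ∀ x : ℝ, HasSum (fun k : ℕ => B k * ee (k * D * (y * Complex.I)) * ee (k * D * x))
      (up D H (ofComplex (x + y * Complex.I))) := fun x => (hH _).congr_fun fun k => by
    rw [coe_up hD, q, mul_assoc, ← ee_add]
    congr 2
    ring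
  have h2 : ∀ x : ℝ, HasSum (fun l : ℕ => c l * conj (ee (l * (y * Complex.I))) * conj (ee (l * x)))
      (T (ofComplex (x + y * Complex.I))) := fun x => (hT _).congr_fun fun k => by
    rw [q, mul_assoc, ← map_mul, ← ee_add]
    congr 3
    ring
  have h3 := (pars (u := fun k => B k * ee (k * D * (y * Complex.I)))
    (v := fun l => c l * conj (ee (l * (y * Complex.I)))) (by simpa [ee] using (h1 0).summable)
    (by simpa [ee] using (h2 0).summable) D).mul_right ((y : ℂ) ^ 2)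
  simp only [fun x => (h1 x).tsum_eq, fun x => (h2 x).tsum_eq,
    ← intervalIntegral.integral_mul_const] at h3
  simp only [show ∀ x : ℝ, (ofComplex (x + y * Complex.I)).im = y from fun x => by
    rw [← coe_im, q]
    simp]
  refine ((mul_right_injective₀ hD.ne').hasSum_iff fun l k => by
    rw [e0 l fun ⟨j, z⟩ => k ⟨j, z.symm⟩, mul_zero, zero_mul]).1 (h3.congr_fun fun k => ?_)
  have : ee (k * D * (y * Complex.I)) * conj (ee ((D * k : ℕ) * (y * Complex.I))) =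
      Real.exp (-(4 * π * (D * k : ℕ) * y)) := by
    rw [conj_ee, ← ee_add, ee, Complex.ofReal_exp]
    congr 1
    simp only [map_mul, Complex.conj_I, Complex.conj_ofReal, map_natCast]
    push_cast
    linear_combination (4 * π * D * k * y) * Complex.I_mul_I
  simp only [Function.comp_apply, e]
  rw [← this]
  ring

variable {K : Type} [Field K] [NumberField K] {J : K →+* ℂ} {D M : ℕ} {θ : 𝓞 K}
  {n n' : Ideal (𝓞 K)} {ε : ℤ → ℂ} {a : Ideal (𝓞 K) → ℂ} {G : ℍ → ℂ} {A : ℕ → ℂ}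

/-- the integrand -/
def Ps (D : ℕ) (H : ℍ → ℂ) (a : Ideal (𝓞 K) → ℂ) (C C' : ClassGroup (𝓞 K)) (t : ℕ) (τ : ℍ) : ℂ :=
  up D H τ * TA a C τ * up t (TE C') τ * τ.im ^ 2

theorem pair (hK : KER) (hL : LIFT) (hF : FRI) (hC : CMS) (k : Kd J D θ) (m1 : 1 < M)
    (sp : Sp M n n') (cop : D.Coprime M) (he : Chr M ε) (ha : Ha J n' ε a) (hG : MW M ε G)
    (qe : QE G A) (dep : ∀ k, ¬ k.Coprime M → A k = 0) (hk : ∀ k, k.Coprime M → Hk ε G k (A k))
    {I₁ I₂ I₁' : Ideal (𝓞 K)} {ω₁ ω₂ : K} {τ₁ τ₂ : ℍ} (c₁ : (Ideal.absNorm I₁).Coprime (M * D))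
    (c₂ : (Ideal.absNorm I₂).Coprime (M * D))
    (e : I₁ * I₁' = Ideal.span {(Ideal.absNorm I₁ : 𝓞 K)}) (b₁ : Bs (Iv J I₁) (J ω₁) τ₁)
    (b₂ : Bs (Iv J I₂) (J ω₂) τ₂)
    (a₁ : ∀ x ∈ I₁, ∃ y ∈ n' ^ 2 * Ideal.span {θ}, x * ω₁ = y ∧ y - x ∈ n)
    (a₂ : ∀ x ∈ I₂, ∃ y ∈ n' ^ 2 * Ideal.span {θ}, x * ω₂ = y ∧ y - x ∈ n)
    (hi : ∀ C C', ∀ e ∈ M.divisors,
      Integrable (Ps D (fr M G) a C C' (M / e)) (fm (Gamma0 (M * D)))) :
    8 / ε D * ∑ e ∈ M.divisors, (μ e : ℂ) / e * ∫ τ, Ps D (fr M G) a (cl (n * I₁ * I₂))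
        (cl ((n' ⊔ Ideal.span {(e : 𝓞 K)}) * I₁' * I₂)) (M / e) τ ∂fm (Gamma0 (M * D)) =
      -4 * Complex.I * a n * ∑ t ∈ D.divisors, t * ε t *
        ((a I₁ / ε (Ideal.absNorm I₁) * up t G τ₁ / J ω₁) *
          (a I₂ / ε (Ideal.absNorm I₂) * up t G τ₂ / J ω₂)) := by
  have D0 := Nat.pos_of_ne_zero k.sqf.ne_zero
  have N0 := Nat.mul_pos sp.pos D0
  obtain ⟨me, inv, int, val⟩ := hL M D ε G A m1 k.sqf cop he hG qe dep hk τ₁ τ₂
  have := ((hF _ N0).1 (fun τ => G τ * kM M (M * D) ε τ₁ τ₂ τ)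
    (hG.hol.continuous.measurable.mul me) inv int).2.trans val
  have y₁ : (τ₁.im : ℂ) ≠ 0 := Complex.ofReal_ne_zero.2 τ₁.im_ne_zero
  have y₂ : (τ₂.im : ℂ) ≠ 0 := Complex.ofReal_ne_zero.2 τ₂.im_ne_zero
  have w₁ := b₁.1
  have w₂ := b₂.1
  simp only [← integral_const_mul]
  rw [← integral_finsetSum _ fun e l => (hi _ _ e l).const_mul _, ← integral_const_mul,
    integral_congr_ae (g := fun τ : ℍ => -(a n * (a I₁ / ε (Ideal.absNorm I₁)) *
      (a I₂ / ε (Ideal.absNorm I₂)) * τ₁.im / (τ₂.im * J ω₁ * J ω₂)) *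
      (G (ofComplex (-1 / ((M * D : ℕ) * τ))) *
        kM M (M * D) ε τ₁ τ₂ (ofComplex (-1 / ((M * D : ℕ) * τ))))) (.of_forall fun τ => ?_),
    integral_const_mul, this, Finset.mul_sum, Finset.mul_sum, Finset.mul_sum]
  · refine Finset.sum_congr rfl fun t _ => ?_
    field_simp
  · have c := congrArg (up D (fr M G) τ * τ.im ^ 2 * ·)
      (hC K J D θ k M n n' ε a sp cop he ha I₁ I₂ I₁' ω₁ ω₂ τ₁ τ₂ c₁ c₂ e b₁ b₂ a₁ a₂ τ)
    simp only [Ps]
    rw [hK M _ ε sp.pos N0 he]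
    refine Eq.trans ?_ (c.symm.trans ?_)
    · simp only [Finset.mul_sum]
      exact Finset.sum_congr rfl fun _ _ => by ring
    · have t0 := τ.ne_zero
      have n0 : ((M * D : ℕ) : ℂ) ≠ 0 := Nat.cast_ne_zero.2 N0.ne'
      simp only [up, fr, coe_up D0, ← mul_assoc, ← Nat.cast_mul]
      field_simp

theorem van (hG : GEN) (hN : GNT) (k : Kd J D θ) {m : ℕ} (sp : Sp m n n') (cop : D.Coprime m)
    (he : Chr m ε) (ha : Ha J n' ε a) {H : ℍ → ℂ} (wH : MW (m ^ 2) (fun d => conj (ε d)) H)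
    (ram : ∀ r : ℕ, r.Prime → r ∣ D → ∃ x y : ℂ, ‖x‖ = 1 ∧ ‖y‖ = 1 ∧ x * y = ε r ∧
      Hk (fun d => conj (ε d)) H r (conj (ε r) * (x + y))) {e : ℕ} (d : e ∣ m ^ 2)
    (C C' : ClassGroup (𝓞 K)) (h : ¬ IsSquare (C * C' * cl (n' ^ 2 ⊔ Ideal.span {(e : 𝓞 K)}))) :
    ∫ τ, Ps D H a C C' (m ^ 2 / e) τ ∂fm (Gamma0 (m ^ 2 * D)) = 0 := by
  obtain ⟨R, rc⟩ := ex_rc k k.sqf.ne_zero
  have ne := nm_e k (sp_sq sp) d
  have e0 := Nat.pos_of_dvd_of_pos d (pow_pos sp.pos 2)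
  have E0 : n' ^ 2 ⊔ Ideal.span {(e : 𝓞 K)} ≠ ⊥ := fun z => by
    rw [z, Ideal.absNorm_bot] at ne
    exact e0.ne ne
  have c := Nat.Coprime.mul_left (Nat.Coprime.mul_left (rc.cop C) (rc.cop C'))
    ((cop.pow_right 2).symm.coprime_dvd_left d)
  have := mt ((hN K J D θ k).2 (R C * R C' * (n' ^ 2 ⊔ Ideal.span {(e : 𝓞 K)}))
    (by rwa [map_mul, map_mul, ne])) (by
      rwa [Pe.cl_mul (mul_ne_zero (rc.ne _) (rc.ne _)) E0, Pe.cl_mul (rc.ne _) (rc.ne _), rc.eq, rc.eq])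
  push Not at this
  obtain ⟨r, hr, rD, q⟩ := this
  rw [map_mul, map_mul, ne] at q
  have q := (jacobiSym.eq_one_or_neg_one (Int.isCoprime_iff_gcd_eq_one.1
    (Nat.isCoprime_iff_coprime.2 (c.coprime_dvd_right rD)))).resolve_left q
  have rm := cop.coprime_dvd_left rD
  obtain ⟨x, y, hx, hy, e1, e2⟩ := ram r hr rD
  have n1 := chr_norm he sp.pos (Nat.isCoprime_iff_coprime.2 rm)
  have := hG K J D θ k m n n' ε a H sp cop he ha wH r (m ^ 2 / e) (conj (ε r) * x) (conj (ε r) * y)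
    (R C) (R C') hr rD (Nat.div_dvd_of_dvd d) (by simp [n1, hx]) (by simp [n1, hy]) (by
      linear_combination conj (ε r) ^ 2 * e1 +
        conj (ε r) * chr_conj he sp.pos (Nat.isCoprime_iff_coprime.2 rm)) (by rwa [← mul_add]) (by
      have s1 : J((e : ℤ) ^ 2 | r) = 1 := jacobiSym.sq_one' (Int.isCoprime_iff_gcd_eq_one.1
        (Nat.isCoprime_iff_coprime.2 ((rm.pow_right 2).symm.coprime_dvd_left d)))
      have s2 : J((m : ℤ) ^ 2 | r) = 1 := jacobiSym.sq_one' (Int.isCoprime_iff_gcd_eq_one.1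
        (Nat.isCoprime_iff_coprime.2 rm.symm))
      rw [← q, ← mul_one J((m ^ 2 / e * _ * _ : ℕ) | r), ← s1, ← mul_one J((_ * _ * e : ℕ) | r), ← s2,
        ← jacobiSym.mul_left, ← jacobiSym.mul_left]
      obtain ⟨t, z⟩ := d
      rw [z, Nat.mul_div_cancel_left _ e0, ← Nat.cast_pow m, z]
      congr 1
      push_cast
      ring)
  rwa [rc.eq, rc.eq] at this

theorem ser (k : Kd J D θ) (ha : ∀ I I', a (I * I') = a I * a I') (t0 : a (Ideal.span {θ}) ≠ 0)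
    (B : ℕ → ℂ) {s : ℂ} (h : 1 < s.re) :
    (∑' l : ℕ, (if D ∣ l then B (l / D) * (l * co a l) else 0) * (l : ℂ) ^ (-1 - s)) *
      (D ^ s / a (Ideal.span {θ})) = ∑' l : ℕ, B l * (co a l * (l : ℂ) ^ (-s)) := by
  have D0 := k.sqf.ne_zero
  have Dn : (D : ℂ) ≠ 0 := Nat.cast_ne_zero.2 D0
  rw [← (mul_right_injective₀ D0).tsum_eq (f := fun l : ℕ =>
    (if D ∣ l then B (l / D) * (l * co a l) else 0) * (l : ℂ) ^ (-1 - s)) fun l q => by
      by_contra z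
      have y : ¬ D ∣ l := fun ⟨j, e⟩ => z ⟨j, e.symm⟩
      exact q (by simp only [if_neg y, zero_mul]), ← tsum_mul_right]
  refine tsum_congr fun l => ?_
  rw [if_pos (dvd_mul_right _ _), Nat.mul_div_cancel_left l (Nat.pos_of_ne_zero D0), co_D k ha]
  rcases eq_or_ne l 0 with rfl | l0
  · rw [Nat.cast_zero, Complex.zero_cpow (neg_ne_zero.2 fun z => by norm_num [z] at h)]
    simp
  have l0 : (l : ℂ) ≠ 0 := Nat.cast_ne_zero.2 l0
  have := (Complex.cpow_ne_zero_iff_of_exponent_ne_zero (y := s) fun z => by norm_num [z] at h).2 Dn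
  rw [Nat.cast_mul, Complex.natCast_mul_natCast_cpow, sub_eq_add_neg, Complex.cpow_add _ _ Dn,
    Complex.cpow_add _ _ l0, Complex.cpow_neg_one, Complex.cpow_neg_one, Complex.cpow_neg (D : ℂ)]
  field_simp

end Wd

open Wd

theorem wald (hK : KER) (hL : LIFT) (hF : FRI) (hT : THK) (hC : CMS) (hP : PER) (hG : GEN)
    (hN : GNT) (hS : SW) (hR : RS) : WALD := by
  intro K _ _ J D θ k m n n' ε a G A B ν R m1 sp cop he ha mG qe dep hk ram qB ⟨C, bB⟩ v1 v2 rc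
  have D0 := Nat.pos_of_ne_zero k.sqf.ne_zero
  have d4 : D % 4 = 3 := by have := k.md; omega
  have sp2 := sp_sq sp
  have M0 := sp2.pos
  have N0 := Nat.mul_pos M0 D0
  have : NeZero (m ^ 2 * D) := ⟨N0.ne'⟩
  have he2 := chr_sq he
  have cop2 : D.Coprime (m ^ 2) := cop.pow_right 2
  have pc : ∀ l : ℕ, l.Coprime (m ^ 2) ↔ l.Coprime m := fun l => Nat.coprime_pow_right_iff two_pos _ _
  obtain ⟨cH, wH, -, kH⟩ := (hF _ M0).2 ε G he2 mG
  have wF := ((hF _ M0).2 _ _ cH wH).2.2.1 D D0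
  obtain ⟨T1, T2, T3⟩ := hT K J D θ k
  obtain ⟨T3, T4⟩ := T3 m n n' ε a sp he ha
  have al := Lt.ha_le k sp he ha
  have dc := fun C γ => dc_mul (mw_bd wF N0 (fun _ e => chr_one cH
    ((Int.natCast_dvd_natCast.2 (dvd_mul_right _ _)).trans e)) γ) ((T4 C).2.2 γ)
  have hi : ∀ C C', ∀ e ∈ (m ^ 2).divisors, Integrable (Ps D (fr (m ^ 2) G) a C C' (m ^ 2 / e))
      (fm (Gamma0 (m ^ 2 * D))) := fun C C' e l =>
    have t := Nat.div_pos (Nat.divisor_le l) (Nat.pos_of_mem_divisors l)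
    have w := ((hF _ D0).2 _ _ (chr_J d4) (T1 C')).2.2.1 _ t
    int_mul wF.hol.continuous (T4 C).1 w.hol.continuous (dc C) (mw_bd w (Nat.mul_pos D0 t)
      fun _ e => chr_one (chr_J d4) ((Int.natCast_dvd_natCast.2 (dvd_mul_right _ _)).trans e))
  obtain ⟨R', rc'⟩ := ex_rc k N0.ne'
  obtain ⟨P1, P2⟩ := hP.2 K J D θ k _ _ _ sp2 cop2
  choose ω τ b ad using fun C => P1 (R' C) 2 (rc'.cop C)
  obtain ⟨P2, P3⟩ := P2 ε a G ν R' ω τ he2 (ha_sq ha) mG v1 v2 rc' fun C => ⟨b C, fun x hx =>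
    (ad C x hx).imp fun y h => ⟨Ideal.mul_mono_left (Ideal.pow_le_self two_ne_zero) h.1, h.2⟩⟩
  obtain ⟨s, cs⟩ := Cj.ex_cg k
  have n0 := (Cj.sp_ne sp).1
  have r0 : ∀ C, (R' C).map s ≠ ⊥ := fun C z => Pe.nm_ne (rc'.ne C) (by
    rw [← Cj.absNorm_map s, z, Ideal.absNorm_bot])
  have ci : ∀ C, cl ((R' C).map s) = C⁻¹ := fun C => eq_inv_of_mul_eq_one_right (by
    rw [← cl_span (Ideal.absNorm (R' C) : 𝓞 K), ← cs.nm, Pe.cl_mul (rc'.ne C) (r0 C), rc'.eq])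
  have E0 : ∀ e : ℕ, n' ^ 2 ⊔ Ideal.span {(e : 𝓞 K)} ≠ ⊥ := fun e z =>
    (Cj.sp_ne sp2).2 (sup_eq_bot_iff.1 z).1
  have S := Finset.sum_congr rfl fun C (_ : C ∈ Finset.univ) => Finset.sum_congr rfl
    fun C' (_ : C' ∈ Finset.univ) => pair hK hL hF hC k (Nat.one_lt_pow two_ne_zero m1) sp2 cop2 he2
      (ha_sq ha) mG qe (fun l h => dep l (mt (pc l).2 h)) (fun l h => hk l ((pc l).1 h))
      (rc'.cop C) (rc'.cop C') (cs.nm _) (b C) (b C') (ad C) (ad C') hi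
  simp only [fun C C' => Pe.cl_mul (mul_ne_zero (pow_ne_zero 2 n0) (rc'.ne C)) (rc'.ne C'),
    fun C => Pe.cl_mul (pow_ne_zero 2 n0) (rc'.ne C), fun e C => Pe.cl_mul (E0 e) (r0 C),
    fun e C C' => Pe.cl_mul (mul_ne_zero (E0 e) (r0 C)) (rc'.ne C'), rc'.eq, ci,
    show cl (n ^ 2) = cl n ^ 2 by rw [sq, sq, Pe.cl_mul n0 n0], ← Finset.mul_sum,
    Finset.sum_comm (t := (m ^ 2).divisors), Finset.sum_comm (t := D.divisors),
    ← Finset.sum_mul, ← sq] at S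
  rw [Finset.sum_congr rfl P3, Finset.sum_const, nsmul_eq_mul, ← (hN K J D θ k).1, ← P2 R
    ⟨rc.ne, rc.eq, fun C => (pc _).2 (rc.cop C)⟩, Finset.sum_congr rfl fun e l => congrArg _
      (pair_sum _ _ _ (van hG hN k sp cop he ha wH (fun r hr d => by
        obtain ⟨x, y, h1, h2, h3, h4⟩ := ram r hr d
        have c := cop.coprime_dvd_left d
        exact ⟨x, y, h1, h2, h3, h4 ▸ kH r _ hr ((pc r).2 c) (hk r c)⟩)
        (Nat.dvd_of_mem_divisors l)))] at S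
  have e1 : ∀ l, D * l / D = l := fun l => Nat.mul_div_cancel_left l D0
  obtain ⟨L, L1, L2, L3⟩ := hR (m ^ 2 * D) _
    (fun τ => up D (fr (m ^ 2) G) τ * (∑ C, TA a C τ) * τ.im ^ 2)
    (fun l => if D ∣ l then B (l / D) * (l * co a l) else 0)
    ((Nat.one_lt_pow two_ne_zero m1).trans_le (Nat.le_mul_of_pos_right _ D0)) (chr_M _ d4)
    ((wF.hol.continuous.mul (continuous_finsetSum _ fun C _ => (T4 C).1)).mul (by fun_prop))
    (fun γ h z => by
      have c := IsCoprime.mul_right_iff.1 (Nat.cast_mul (α := ℤ) _ _ ▸ cop_d h)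
      have j := jj_ne γ z
      have j' : conj (jj γ z) ≠ 0 := (map_ne_zero _).2 j
      simp only [wF.law γ h, fun C => (T4 C).2.1 γ (mul_comm D _ ▸ h), ← Finset.mul_sum, im_sm,
        if_pos c.1, Complex.ofReal_div, Complex.ofReal_pow, ← Complex.mul_conj']
      field_simp
      linear_combination (up D (fr (m ^ 2) G) z * J(γ 1 1 | D) * (∑ C, TA a C z) * (z.im : ℂ) ^ 2) *
        chr_conj he2 M0 c.1)
    (fun γ => by
      simpa only [← Finset.mul_sum, ← Finset.sum_mul, Dc] using Dc.sum Finset.univ fun C => dc C γ)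
    (.of_nonneg_of_le (fun _ => by positivity) (fun l => by
      rcases l.eq_zero_or_pos with rfl | l0
      · simp
      have q : (0 : ℝ) < l := by exact_mod_cast l0
      split_ifs
      · rw [norm_mul, norm_mul, Complex.norm_natCast, div_le_iff₀ (by positivity)]
        calc _ ≤ |C| * (l : ℝ) ^ (1 / 8 : ℝ) * (l * (σ 0 l * (l : ℝ) ^ (-(1 / 2) : ℝ))) := by
              gcongr
              · refine (bB _).trans ?_
                gcongr
                exacts [le_abs_self _, Nat.div_le_self _ _]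
              · exact co_le T3 T2 l0
          _ = _ := by
              rw [show (-(11 / 8) : ℝ) = 1 / 8 + -(1 / 2) + -1 by norm_num, Real.rpow_add q,
                Real.rpow_add q, Real.rpow_neg_one]
              field_simp
      · rw [norm_zero, zero_div]
        positivity) (sum_sig.mul_left |C|))
    (by simp)
    (fun y => four D0 qB (sum_TA al) (fun l => by rw [if_pos (dvd_mul_right _ _), e1])
      fun l h => if_neg h)
  have t0 : a (Ideal.span {θ}) ≠ 0 := fun z => by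
    have c := congrArg a (cs.nm (Ideal.span {θ}))
    rw [ha.hc.mul, z, zero_mul, Pe.nm_θ k, eq_comm, ha.hc.zero, Ideal.span_singleton_eq_bot,
      or_iff_right (Nat.cast_ne_zero.2 D0.ne')] at c
    obtain ⟨u, v, e⟩ := (Nat.isCoprime_iff_coprime.2 cop).map (Int.castRingHom (𝓞 K))
    exact c ((Ideal.eq_top_iff_one _).2 (e ▸ Submodule.add_mem_sup
      (Ideal.mul_mem_left _ _ (by simpa using Ideal.mem_span_singleton_self _))
      (Ideal.mul_mem_left _ _ (by simpa using (Cj.sp_m sp).2))))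
  have Dn : (D : ℂ) ≠ 0 := Nat.cast_ne_zero.2 D0.ne'
  refine ⟨fun s => L s * D ^ s / a (Ideal.span {θ}), Complex.I, Complex.I_pow_four,
    (L1.mul (differentiable_id.const_cpow (.inl Dn)).differentiableOn).div_const _, fun s h => ?_, ?_⟩
  · simp only [L2 s h, mul_assoc, mul_div_assoc, ser k ha.hc.mul t0 B h, Nat.isCoprime_iff_coprime, pc]
  have r0 : ((√D : ℝ) : ℂ) ≠ 0 := Complex.ofReal_ne_zero.2 (Real.sqrt_pos.2 (Nat.cast_pos.2 D0)).ne'
  have L4 : L 0 / (2 * π ^ 2) = 2 / √D * ∑ e ∈ (m ^ 2).divisors, (μ e : ℂ) / e * ∑ C, ∑ C',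
      ∫ τ, Ps D (fr (m ^ 2) G) a C C' (m ^ 2 / e) τ ∂fm (Gamma0 (m ^ 2 * D)) := by
    rw [← L3, Finset.sum_congr rfl fun e l => by
      rw [Finset.sum_congr rfl fun C _ => (integral_finsetSum _ fun C' _ => hi C C' e l).symm,
        ← integral_finsetSum _ fun C _ => integrable_finsetSum _ fun C' _ => hi C C' e l,
        ← integral_const_mul], ← integral_finsetSum _ fun e l => (integrable_finsetSum _ fun C _ =>
      integrable_finsetSum _ fun C' _ => hi C C' e l).const_mul _, ← integral_const_mul]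
    refine integral_congr_ae (.of_forall fun z => ?_)
    have y : (z.im : ℂ) ≠ 0 := Complex.ofReal_ne_zero.2 z.im_ne_zero
    simp only [hS K J D θ k _ M0 (fun p hp d => j_one k sp cop hp (hp.dvd_of_dvd_pow d)) z, Ps,
      ← Finset.sum_mul, ← Finset.mul_sum, show ∀ t, ∑ C : ClassGroup (𝓞 K), up t (TE C) z =
        up t (∑ C : ClassGroup (𝓞 K), TE C) z from fun t => by simp [up]]
    simp only [Finset.mul_sum]
    refine Finset.sum_congr rfl fun e _ => ?_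
    field_simp
  have h0 : (Nat.card {C : ClassGroup (𝓞 K) // C ^ 2 = 1} : ℂ) ≠ 0 :=
    Nat.cast_ne_zero.2 (Nat.card_ne_zero.2 ⟨⟨⟨1, one_pow 2⟩⟩, inferInstance⟩)
  have x0 : ε D ≠ 0 := mt (he.zero _).1 (not_not.2 (Nat.isCoprime_iff_coprime.2 cop))
  have p0 : (π : ℂ) ≠ 0 := Complex.ofReal_ne_zero.2 Real.pi_ne_zero
  simp only [mul_left_comm _ (Nat.card _ : ℂ), ← Finset.mul_sum] at S
  rw [sq n, ha.hc.mul] at S
  simp only [Complex.cpow_zero]
  push_cast at S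
  field_simp at S L4 ⊢
  linear_combination -Complex.I * L4 - Complex.I * π ^ 2 / 2 * S +
    4 * π ^ 2 * ε D * a n ^ 2 * per J (m ^ 2) ε G a ν R ^ 2 * Complex.I_mul_I

end Vale.Agent.P004C.Wa
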