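import Vale.Agent.P004C.Wa.St
import Vale.Agent.P016Z.TH.MeanA

/-!
# P004 C, block WA: sums over the ideals of a class as sums over the lattice `A⁻¹`
-/

open NumberField Module UpperHalfPlane Ideal
open scoped Classical Real ComplexConjugate

set_option linter.unusedSectionVars false

noncomputable section

namespace Vale.Agent.P004C.Wa.Lt

variable {K : Type} [Field K] [NumberField K]

/-- the lattice `A⁻¹` -/
abbrev Lv (A : Ideal (𝓞 K)) : Type := {y : K // ∀ x ∈ A, ∃ z : 𝓞 K, x * y = z}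

/-- the ideal `y A` -/
def id (A : Ideal (𝓞 K)) (y : Lv A) : Ideal (𝓞 K) where
  carrier := {z | ∃ x ∈ A, (x : K) * y = z}
  add_mem' := by
    rintro _ _ ⟨x, hx, e⟩ ⟨x', hx', e'⟩
    exact ⟨x + x', A.add_mem hx hx', by push_cast; rw [add_mul, e, e']⟩
  zero_mem' := ⟨0, A.zero_mem, by simp⟩
  smul_mem' := by
    rintro c _ ⟨x, hx, e⟩
    exact ⟨c * x, A.mul_mem_left c hx, by rw [smul_eq_mul]; push_cast; rw [mul_assoc, e]⟩

variable {A : Ideal (𝓞 K)}

theorem mem_id {y : Lv A} {z : 𝓞 K} : z ∈ id A y ↔ ∃ x ∈ A, (x : K) * y = z := Iff.rfl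

/-- clearing the denominator -/
theorem mul_id (y : Lv A) {u v : 𝓞 K} (h : (v : K) * y = u) :
    span {v} * id A y = span {u} * A := by
  ext z
  simp only [mem_span_singleton_mul, mem_id]
  constructor
  · rintro ⟨w, ⟨x, hx, e⟩, rfl⟩
    refine ⟨x, hx, RingOfIntegers.ext ?_⟩
    push_cast
    change (u : K) * x = v * (w : K)
    rw [← e, ← h]; ring
  · rintro ⟨x, hx, rfl⟩
    obtain ⟨w, e⟩ := y.2 x hx
    refine ⟨w, ⟨x, hx, e⟩, RingOfIntegers.ext ?_⟩
    push_cast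
    change (v : K) * w = u * (x : K)
    rw [← e, ← h]; ring

theorem den (hA : A ≠ ⊥) : ∃ v : 𝓞 K, v ≠ 0 ∧ ∀ y : Lv A, ∃ u : 𝓞 K, (v : K) * y = u := by
  obtain ⟨v, hv, h⟩ := Submodule.exists_mem_ne_zero_of_ne_bot hA
  exact ⟨v, h, fun y => y.2 v hv⟩

theorem id_bot (hA : A ≠ ⊥) (y : Lv A) : id A y = ⊥ ↔ (y : K) = 0 := by
  obtain ⟨v, hv, h⟩ := Submodule.exists_mem_ne_zero_of_ne_bot hA
  constructor
  · intro e
    obtain ⟨u, hu⟩ := y.2 v hv
    have : u ∈ id A y := ⟨v, hv, hu⟩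
    rw [e, Ideal.mem_bot] at this
    rw [this] at hu
    exact (mul_eq_zero.1 hu).resolve_left (by exact_mod_cast h)
  · intro e
    rw [eq_bot_iff]
    rintro z ⟨x, -, hx⟩
    rw [e, mul_zero] at hx
    exact_mod_cast hx.symm

theorem cl_iff {I I' : Ideal (𝓞 K)} (h : I ≠ ⊥) (h' : I' ≠ ⊥) :
    cl I = cl I' ↔ ∃ v u : 𝓞 K, v ≠ 0 ∧ u ≠ 0 ∧ span {v} * I = span {u} * I' := by
  rw [cl, cl, dif_neg h, dif_neg h', ClassGroup.mk0_eq_mk0_iff]
  simp only [exists_prop]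

theorem cl_id (hA : A ≠ ⊥) (y : Lv A) (hy : (y : K) ≠ 0) : cl (id A y) = cl A := by
  obtain ⟨v, hv, h⟩ := den hA
  obtain ⟨u, hu⟩ := h y
  refine (cl_iff (mt (id_bot hA y).1 hy) hA).2 ⟨v, u, hv, fun e => ?_, mul_id y hu⟩
  rw [e] at hu
  exact mul_ne_zero (by exact_mod_cast hv) hy hu

theorem ex_id (hA : A ≠ ⊥) {I : Ideal (𝓞 K)} (hI : I ≠ ⊥) (h : cl I = cl A) :
    ∃ y : Lv A, id A y = I := by
  obtain ⟨v, u, hv, -, e⟩ := (cl_iff hI hA).1 h
  have v0 : (v : K) ≠ 0 := by exact_mod_cast hv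
  refine ⟨⟨(u : K) / v, fun x hx => ?_⟩, ?_⟩
  · have : u * x ∈ span {v} * I := e ▸ mul_mem_mul (mem_span_singleton_self u) hx
    obtain ⟨z, -, hz⟩ := mem_span_singleton_mul.1 this
    have k : (v : K) * z = u * x := by exact_mod_cast congrArg (fun t : 𝓞 K => (t : K)) hz
    exact ⟨z, by field_simp; rw [k]; ring⟩
  · exact mul_left_cancel₀ (span_singleton_eq_bot.not.2 hv)
      ((mul_id _ (by field_simp)).trans e.symm)

/-- the negative -/
def ng (y : Lv A) : Lv A :=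
  ⟨-y, fun x hx => (y.2 x hx).elim fun z e => ⟨-z, by push_cast; rw [mul_neg, e]⟩⟩

theorem id_eq (hu : ∀ u : (𝓞 K)ˣ, u = 1 ∨ u = -1) (hA : A ≠ ⊥) (y y' : Lv A) :
    id A y' = id A y ↔ y' = y ∨ y' = ng y := by
  obtain ⟨v, hv, h⟩ := den hA
  have v0 : (v : K) ≠ 0 := by exact_mod_cast hv
  obtain ⟨u, e⟩ := h y
  obtain ⟨u', e'⟩ := h y'
  constructor
  · intro k
    have k1 : span {u} = span {u'} :=
      mul_right_cancel₀ hA ((mul_id y e).symm.trans (k ▸ mul_id y' e'))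
    obtain ⟨w, hw⟩ := span_singleton_eq_span_singleton.1 k1
    rcases hu w with rfl | rfl
    · refine .inl (Subtype.ext (mul_left_cancel₀ v0 ?_))
      rw [e, e', ← hw]; simp
    · refine .inr (Subtype.ext (mul_left_cancel₀ v0 ?_))
      rw [e', ← hw, ng, mul_neg, e]; simp
  · rintro (rfl | rfl)
    · rfl
    · refine mul_left_cancel₀ (span_singleton_eq_bot.not.2 hv) ?_
      rw [mul_id y e, mul_id (ng y) (u := -u) (by rw [ng, mul_neg, e]; simp), span_singleton_neg]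

/-- the number of `y` with `y A = I` -/
theorem fib (hu : ∀ u : (𝓞 K)ˣ, u = 1 ∨ u = -1) (hA : A ≠ ⊥) (I : Ideal (𝓞 K)) :
    (id A ⁻¹' {I}).Finite ∧
      (id A ⁻¹' {I}).ncard = if I = ⊥ then 1 else if cl I = cl A then 2 else 0 := by
  split_ifs with h1 h2
  · have : id A ⁻¹' {I} = {⟨0, fun _ _ => ⟨0, by simp⟩⟩} := Set.ext fun y => by
      simp [h1, id_bot hA, Subtype.ext_iff]
    rw [this]; simp
  · obtain ⟨y, rfl⟩ := ex_id hA h1 h2
    have : id A ⁻¹' {id A y} = {y, ng y} := Set.ext fun y' => by simp [id_eq hu hA]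
    rw [this]
    refine ⟨Set.toFinite _, Set.ncard_pair fun e => h1 ((id_bot hA y).2 ?_)⟩
    exact self_eq_neg.1 (congrArg Subtype.val e)
  · have : id A ⁻¹' {I} = ∅ := Set.eq_empty_of_forall_notMem fun y (e : id A y = I) =>
      h2 (e ▸ cl_id hA y (mt (id_bot hA y).2 (e ▸ h1)))
    rw [this]; simp

/-- **sums over `A⁻¹` are sums over the ideals of the class of `A`** -/
theorem lat (hu : ∀ u : (𝓞 K)ˣ, u = 1 ∨ u = -1) (hA : A ≠ ⊥) (f : Ideal (𝓞 K) → ℂ)
    (hf : Summable fun I => ‖f I‖) :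
    (Summable fun y : Lv A => ‖f (id A y)‖) ∧ HasSum (fun y : Lv A => f (id A y))
      (f ⊥ + 2 * ∑' I, if I ≠ ⊥ ∧ cl I = cl A then f I else 0) := by
  have c : ∀ {G : Type} [NormedField G] (g : Ideal (𝓞 K) → G) (I : Ideal (𝓞 K)),
      ∑' y : id A ⁻¹' {I}, g (id A y) = (id A ⁻¹' {I}).ncard * g I := fun g I => by
    rw [tsum_congr fun y : id A ⁻¹' {I} => congrArg g y.2, tsum_const, nsmul_eq_mul]; rfl
  have s : Summable fun y : Lv A => ‖f (id A y)‖ := by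
    rw [← (Equiv.sigmaFiberEquiv (id A)).summable_iff]
    refine (summable_sigma_of_nonneg fun _ => norm_nonneg _).2 ⟨fun I => ?_, ?_⟩
    · have : Finite {y // id A y = I} := (fib hu hA I).1.to_subtype
      exact .of_finite
    · refine .of_nonneg_of_le (fun _ => tsum_nonneg fun _ => norm_nonneg _) (fun I => ?_)
        (hf.mul_left 2)
      refine (c (fun I => ‖f I‖) I).trans_le (mul_le_mul_of_nonneg_right ?_ (norm_nonneg _))
      rw [(fib hu hA I).2]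
      split_ifs <;> norm_num
  refine ⟨s, ?_⟩
  have k := s.of_norm.hasSum.tsum_fiberwise (id A)
  have k2 : Summable fun I => if I ≠ ⊥ ∧ cl I = cl A then f I else 0 :=
    .of_norm_bounded hf fun I => by split_ifs <;> simp
  have k3 := (hasSum_ite_eq ⊥ (f ⊥)).add (k2.hasSum.mul_left 2)
  have k4 : (fun I => ∑' y : id A ⁻¹' {I}, f (id A y)) = fun I =>
      (if I = ⊥ then f ⊥ else 0) + 2 * if I ≠ ⊥ ∧ cl I = cl A then f I else 0 := funext fun I => by
    rw [c f I, (fib hu hA I).2]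
    by_cases h1 : I = ⊥ <;> by_cases h2 : cl I = cl A <;> simp [h1, h2]
  rw [k4] at k
  rw [← k.unique k3]
  exact s.of_norm.hasSum

/-! ### the norm -/

variable {J : K →+* ℂ} {D : ℕ} {θ : 𝓞 K}

theorem nrm (h : Kd J D θ) (x : 𝓞 K) : (absNorm (span {x}) : ℝ) = ‖J x‖ ^ 2 := by
  have n : J.toRatAlgHom ≠ ((starRingEnd ℂ).comp J).toRatAlgHom := fun e => by
    have k : J θ = conj (J θ) := congrArg (fun f : K →ₐ[ℚ] ℂ => f θ) e
    have := congrArg Complex.im k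
    rw [Complex.conj_im] at this
    linarith [h.im]
  have u : (Finset.univ : Finset (K →ₐ[ℚ] ℂ)) =
      {J.toRatAlgHom, ((starRingEnd ℂ).comp J).toRatAlgHom} :=
    (Finset.eq_univ_of_card _ (by rw [Finset.card_pair n, AlgHom.card, h.two])).symm
  have e := Algebra.norm_eq_prod_embeddings ℚ ℂ (x : K)
  rw [u, Finset.prod_pair n, ← Algebra.coe_norm_int] at e
  have e2 := congrArg norm e
  rw [absNorm_span_singleton, Nat.cast_natAbs, Int.cast_abs]
  simpa [sq] using e2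

theorem nrm_id (h : Kd J D θ) (hA : A ≠ ⊥) (y : Lv A) :
    (absNorm (id A y) : ℝ) = absNorm A * ‖J y‖ ^ 2 := by
  obtain ⟨v, hv, k⟩ := den hA
  obtain ⟨u, e⟩ := k y
  have e2 := congrArg (fun I => (absNorm I : ℝ)) (mul_id y e)
  simp only [map_mul, Nat.cast_mul, nrm h, ← e, norm_mul] at e2
  have : ‖J v‖ ≠ 0 := norm_ne_zero_iff.2 ((map_ne_zero J).2 (by exact_mod_cast hv))
  refine mul_left_cancel₀ (pow_ne_zero 2 this) (e2.trans (by ring))

theorem nrm_id' (h : Kd J D θ) (hA : A ≠ ⊥) (y : Lv A) :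
    (absNorm (id A y) : ℂ) = absNorm A * (‖J y‖ : ℂ) ^ 2 := by
  exact_mod_cast congrArg (fun t : ℝ => (t : ℂ)) (nrm_id h hA y)

theorem norm_ee (x : ℝ) (τ : ℍ) : ‖ee (x * τ)‖ = Real.exp (-(2 * π * τ.im * x)) := by
  rw [ee, Complex.norm_exp]
  congr 1
  simp
  ring

/-- `Σ N(I) ^ k exp (- c N I)` converges -/
theorem sum_exp (K : Type) [Field K] [NumberField K] (k : ℕ) {c : ℝ} (hc : 0 < c) :
    Summable fun I : Ideal (𝓞 K) => (absNorm I : ℝ) ^ k * Real.exp (-(c * absNorm I)) := by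
  refine .of_nonneg_of_le (fun _ => by positivity) (fun I => ?_)
    (((P016Z.TH.Mn.summable_norm K).mul_left ((k + 2).factorial / c ^ (k + 2))).add
      (hasSum_ite_eq ⊥ (1 : ℝ)).summable)
  split_ifs with h
  · subst h
    cases k <;> simp
  · have n : (0 : ℝ) < absNorm I := by exact_mod_cast Nat.pos_of_ne_zero (mt absNorm_eq_zero_iff.1 h)
    have := Real.pow_div_factorial_le_exp (c * absNorm I) (by positivity) (k + 2)
    rw [add_zero, Real.exp_neg, ← div_eq_mul_inv, div_le_iff₀ (Real.exp_pos _)]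
    refine le_trans (le_of_eq ?_) (mul_le_mul_of_nonneg_left this (by positivity))
    field_simp
    ring

/-- **the theta series of weight one** -/
theorem te (h : Kd J D θ) (hA : A ≠ ⊥) (τ : ℍ) :
    (Summable fun y : Lv A => ‖ee (absNorm A * (‖J y‖ : ℂ) ^ 2 * τ)‖) ∧
      HasSum (fun y : Lv A => ee (absNorm A * (‖J y‖ : ℂ) ^ 2 * τ)) (TE (cl A) τ) := by
  have := lat h.upm hA (fun I => ee (absNorm I * τ))
    ((sum_exp K 0 (c := 2 * π * τ.im) (by have := τ.im_pos; positivity)).congr fun I => by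
      rw [pow_zero, one_mul, ← norm_ee, Complex.ofReal_natCast])
  simpa only [nrm_id' h hA, TE, absNorm_bot, Nat.cast_zero, zero_mul, ee, mul_zero,
    Complex.exp_zero] using this

/-- **the theta series of weight two** -/
theorem ta' (h : Kd J D θ) (hA : A ≠ ⊥) {a : Ideal (𝓞 K) → ℂ} (ha : ∀ I, ‖a I‖ ≤ 1) (τ : ℍ) :
    (Summable fun y : Lv A => ‖a (id A y) * (absNorm A * (‖J y‖ : ℂ) ^ 2) *
      conj (ee (absNorm A * (‖J y‖ : ℂ) ^ 2 * τ))‖) ∧
    HasSum (fun y : Lv A => a (id A y) * (absNorm A * (‖J y‖ : ℂ) ^ 2) *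
      conj (ee (absNorm A * (‖J y‖ : ℂ) ^ 2 * τ))) (2 * TA a (cl A) τ) := by
  have := lat h.upm hA (fun I => a I * absNorm I * conj (ee (absNorm I * τ)))
    (.of_nonneg_of_le (fun _ => norm_nonneg _) (fun I => by
      rw [norm_mul, norm_mul, Complex.norm_conj, ← Complex.ofReal_natCast, norm_ee, pow_one,
        Complex.norm_real, Real.norm_natCast, mul_assoc]
      exact mul_le_of_le_one_left (by positivity) (ha I))
      (sum_exp K 1 (c := 2 * π * τ.im) (by have := τ.im_pos; positivity)))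
  have e : (∑' I, if I ≠ ⊥ ∧ cl I = cl A then a I * absNorm I * conj (ee (absNorm I * τ)) else 0) =
      TA a (cl A) τ := tsum_congr fun I => by
    by_cases h1 : I = ⊥ <;> simp [h1]
  rw [e] at this
  simpa only [nrm_id' h hA, absNorm_bot, Nat.cast_zero, zero_mul, mul_zero, zero_add] using this

/-! ### the size of a Hecke character -/

theorem chr_norm {m : ℕ} {ε : ℤ → ℂ} (hm : 0 < m) (h : Chr m ε) (k : ℤ) : ε k = 0 ∨ ‖ε k‖ = 1 := by
  refine or_iff_not_imp_left.2 fun n => ?_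
  have p : ∀ i : ℕ, ε (k ^ i) = ε k ^ i := fun i => by
    induction i with
    | zero => simpa using h.one
    | succ i ih => rw [pow_succ, h.mul, ih, pow_succ]
  have : NeZero m := ⟨hm.ne'⟩
  obtain ⟨i, j, ne, e⟩ := Finite.exists_ne_map_eq_of_infinite fun i : ℕ => ((k ^ i : ℤ) : ZMod m)
  have e2 : ‖ε k‖ ^ i = ‖ε k‖ ^ j := by
    rw [← norm_pow, ← norm_pow, ← p, ← p,
      h.per _ _ ((ZMod.intCast_eq_intCast_iff_dvd_sub _ _ _).1 e.symm)]
  by_contra k1
  exact ne (pow_right_injective₀ (norm_pos_iff.2 n) k1 e2)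

variable {m : ℕ} {n n' : Ideal (𝓞 K)} {ε : ℤ → ℂ} {a : Ideal (𝓞 K) → ℂ}

theorem ha_pow (ha : Ha J n' ε a) (I : Ideal (𝓞 K)) (i : ℕ) : a (I ^ i) = a I ^ i := by
  induction i with
  | zero => simpa using ha.hc.one
  | succ i ih => rw [pow_succ, ha.hc.mul, ih, pow_succ]

/-- `|a I| ^ 2 N I = 1` -/
theorem ha_norm (h : Kd J D θ) (hs : Sp m n n') (hε : Chr m ε) (ha : Ha J n' ε a)
    (I : Ideal (𝓞 K)) : a I = 0 ∨ ‖a I‖ ^ 2 * absNorm I = 1 := by
  refine or_iff_not_imp_left.2 fun n0 => ?_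
  have I0 : I ≠ ⊥ := fun e => n0 ((ha.hc.zero I).2 (.inl e))
  have I1 : I ∈ nonZeroDivisors _ := mem_nonZeroDivisors_of_ne_zero I0
  have c0 : 0 < Fintype.card (ClassGroup (𝓞 K)) := Fintype.card_pos
  have k : ClassGroup.mk0 (⟨I, I1⟩ ^ Fintype.card (ClassGroup (𝓞 K))) = 1 := by
    rw [map_pow, pow_card_eq_one]
  generalize Fintype.card (ClassGroup (𝓞 K)) = c at c0 k
  obtain ⟨x, hx⟩ := (ClassGroup.mk0_eq_one_iff (pow_mem I1 c)).1 k
  replace hx : I ^ c = span {x} := hx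
  have x0 : x ≠ 0 := fun e => pow_ne_zero c I0 (by rw [hx, e]; simp)
  obtain ⟨t, ht⟩ := hs.cn' x
  have e := ha.fin x t x0 ht
  rw [← hx, ha_pow ha] at e
  have e1 := (chr_norm hs.pos hε t).resolve_left fun z => pow_ne_zero c n0 (by rw [e, z, mul_zero])
  have e2 := nrm h x
  rw [← hx, map_pow, Nat.cast_pow] at e2
  have j0 : ‖J x‖ ≠ 0 := norm_ne_zero_iff.2 ((map_ne_zero J).2 (by exact_mod_cast x0))
  refine (pow_eq_one_iff_of_nonneg (by positivity) c0.ne').1 ?_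
  rw [mul_pow, e2, ← pow_mul, mul_comm 2, pow_mul, ← norm_pow, e, norm_mul, e1, norm_inv]
  field_simp

theorem ha_le (h : Kd J D θ) (hs : Sp m n n') (hε : Chr m ε) (ha : Ha J n' ε a)
    (I : Ideal (𝓞 K)) : ‖a I‖ ≤ 1 := by
  rcases ha_norm h hs hε ha I with e | e
  · simp [e]
  · have : (1 : ℝ) ≤ absNorm I := by
      exact_mod_cast Nat.pos_of_ne_zero fun z => by simp [z] at e
    by_contra k
    nlinarith [norm_nonneg (a I), not_le.1 k]

/-- **the theta series of weight two** of a Hecke character -/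
theorem ta (h : Kd J D θ) (hs : Sp m n n') (hε : Chr m ε) (ha : Ha J n' ε a) (hA : A ≠ ⊥) (τ : ℍ) :
    (Summable fun y : Lv A => ‖a (id A y) * (absNorm A * (‖J y‖ : ℂ) ^ 2) *
      conj (ee (absNorm A * (‖J y‖ : ℂ) ^ 2 * τ))‖) ∧
    HasSum (fun y : Lv A => a (id A y) * (absNorm A * (‖J y‖ : ℂ) ^ 2) *
      conj (ee (absNorm A * (‖J y‖ : ℂ) ^ 2 * τ))) (2 * TA a (cl A) τ) :=
  ta' h hA (ha_le h hs hε ha) τ

end Vale.Agent.P004C.Wa.Lt
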