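import Vale.Agent.P004C.Wa.Cms0
import Vale.Agent.P004C.Wa.Lat

/-!
# P004 C, block WA, row CMS: the value of the character, the exponents
-/

open NumberField Module
open scoped Classical ComplexConjugate UpperHalfPlane Real

noncomputable section

namespace Vale.Agent.P004C.Wa.Cms

open Cj Lt

variable {K : Type} [Field K] [NumberField K] {J : K →+* ℂ} {D M : ℕ} {θ : 𝓞 K}
  {s : 𝓞 K ≃+* 𝓞 K} {n n' : Ideal (𝓞 K)} {I₁ I₂ : Ideal (𝓞 K)} {q₁ r₁ q₂ r₂ : 𝓞 K}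
  {ε : ℤ → ℂ} {a : Ideal (𝓞 K) → ℂ}

/-- the element `w / t` of `A⁻¹` -/
def toLv {A A' : Ideal (𝓞 K)} {t : 𝓞 K} (e : A * A' = Ideal.span {t}) (ht : t ≠ 0) (w : 𝓞 K)
    (hw : w ∈ A') : Lv A :=
  ⟨w / t, fun x hx => by
    obtain ⟨z, hz⟩ := Ideal.mem_span_singleton'.mp (e ▸ Ideal.mul_mem_mul hx hw)
    have t0 : (t : K) ≠ 0 := by exact_mod_cast ht
    refine ⟨z, ?_⟩
    have : (z : K) * t = x * w := by exact_mod_cast congrArg (fun y : 𝓞 K => (y : K)) hz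
    field_simp
    linear_combination -this⟩

theorem toLv_surj {A A' : Ideal (𝓞 K)} {t : 𝓞 K} (e : A * A' = Ideal.span {t}) (ht : t ≠ 0)
    (y : Lv A) : ∃ w hw, toLv e ht w hw = y := by
  have t0 : (t : K) ≠ 0 := by exact_mod_cast ht
  have hA : A ≠ ⊥ := by
    rintro rfl
    exact ht (Ideal.span_singleton_eq_bot.mp (by rw [← e, Ideal.bot_mul]))
  obtain ⟨w, hw⟩ := y.2 t (Ideal.mul_le_left (e ▸ Ideal.mem_span_singleton_self t))
  refine ⟨w, ?_, Subtype.ext ?_⟩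
  · rw [← Ideal.span_singleton_le_iff_mem, ← Ideal.dvd_iff_le, ← mul_dvd_mul_iff_left hA, e,
      mul_comm, ← mul_id y hw]
    exact dvd_mul_right _ _
  · simp only [toLv]
    rw [← hw]
    field_simp

omit [NumberField K] in
theorem toLv_inj {A A' : Ideal (𝓞 K)} {t : 𝓞 K} (e : A * A' = Ideal.span {t}) (ht : t ≠ 0)
    {w w' : 𝓞 K} {hw hw'} (h : toLv e ht w hw = toLv e ht w' hw') : w = w' := by
  have t0 : (t : K) ≠ 0 := by exact_mod_cast ht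
  have := congrArg Subtype.val h
  simp only [toLv] at this
  exact RingOfIntegers.ext ((div_left_inj' t0).mp this)

theorem chr (c : Cg J θ s) (k : Kd J D θ) (h : Sp M n n') (hε : Chr M ε) (ha : Ha J n' ε a)
    (b₁ : Ad θ s M n' I₁ q₁ r₁) (b₂ : Ad θ s M n' I₂ q₂ r₂) (X : ℤ × ℤ × ℤ × ℤ)
    (h0 : be θ M q₁ r₁ q₂ r₂ X ≠ 0) {C : Ideal (𝓞 K)}
    (e : Ideal.span {(M * Ideal.absNorm I₁ * Ideal.absNorm I₂ : 𝓞 K)} * C =
      Ideal.span {be θ M q₁ r₁ q₂ r₂ X} * (n * I₁ * I₂)) :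
    a C * J (be θ M q₁ r₁ q₂ r₂ X) * (ε (Ideal.absNorm I₁) * ε (Ideal.absNorm I₂)) =
      a n * a I₁ * a I₂ * (M * Ideal.absNorm I₁ * Ideal.absNorm I₂) * (ε (-X.2.2.1) * ε D) := by
  have hM : (M : 𝓞 K) ≠ 0 := by exact_mod_cast h.pos.ne'
  have ht : (M * Ideal.absNorm I₁ * Ideal.absNorm I₂ : 𝓞 K) ≠ 0 :=
    mul_ne_zero (mul_ne_zero hM b₁.nz) b₂.nz
  have hc : IsCoprime n' (n * I₁ * I₂) :=
    ((Ideal.isCoprime_iff_sup_eq.mpr h.cop).symm.mul_right (cop h b₁.cp)).mul_right (cop h b₂.cp)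
  obtain ⟨i, hi, ν, hν, e1⟩ := Ideal.isCoprime_iff_exists.mp hc
  have ν1 : ν - ((1 : ℤ) : 𝓞 K) ∈ n' := by
    have : ν - ((1 : ℤ) : 𝓞 K) = -i := by push_cast; linear_combination e1
    rw [this]
    exact neg_mem hi
  have ν0 : ν ≠ 0 := by
    rintro rfl
    have h2 : ((1 - -1 : ℤ) : 𝓞 K) ∈ n' := by
      have : ((1 - -1 : ℤ) : 𝓞 K) = 2 * i := by push_cast; linear_combination -2 * e1
      rw [this]
      exact Ideal.mul_mem_left _ _ hi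
    have := hε.per _ _ ((c.sp_int h _).mp h2)
    rw [hε.one, hε.odd] at this
    norm_num at this
  obtain ⟨d, hd⟩ := Ideal.dvd_span_singleton.mpr hν
  have e2 : Ideal.span {(M * Ideal.absNorm I₁ * Ideal.absNorm I₂ : 𝓞 K)} * (C * d) =
      Ideal.span {be θ M q₁ r₁ q₂ r₂ X * ν} := by
    rw [← mul_assoc, e, mul_assoc, ← hd, Ideal.span_singleton_mul_span_singleton]
  obtain ⟨x, hx⟩ := Ideal.mem_span_singleton'.mp
    (Ideal.mul_le_left (e2 ▸ Ideal.mem_span_singleton_self _))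
  have e3 : C * d = Ideal.span {x} := by
    rw [← hx, mul_comm x, ← Ideal.span_singleton_mul_span_singleton _ x] at e2
    exact mul_left_cancel₀ (mt Ideal.span_singleton_eq_bot.mp ht) e2
  have x0 : x ≠ 0 := by
    rintro rfl
    exact mul_ne_zero h0 ν0 (by rw [← hx, zero_mul])
  obtain ⟨j, hj⟩ := h.cn' x
  have a1 := ha.fin x j x0 hj
  have a2 := ha.fin ν 1 ν0 ν1
  rw [← e3, ha.hc.mul] at a1
  rw [hd, ha.hc.mul, ha.hc.mul, ha.hc.mul, hε.one] at a2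
  have m1 : ν * r₁ ∈ n' * Ideal.span {(M : 𝓞 K)} := by
    rw [← h.mul]
    exact Ideal.le_of_dvd ⟨I₁ * I₂ * I₁.map s, by ring⟩ (Ideal.mul_mem_mul hν b₁.rm)
  obtain ⟨ρ, hρ, eρ⟩ := Ideal.mem_mul_span_singleton.mp m1
  have e4 : x * Ideal.absNorm I₁ * Ideal.absNorm I₂ = vv θ q₂ r₂ X * ρ + ν * uu θ q₂ r₂ X * q₁ := by
    apply mul_left_cancel₀ hM
    simp only [be] at hx
    linear_combination hx - vv θ q₂ r₂ X * eρ
  have e5 : ε (j * Ideal.absNorm I₁ * Ideal.absNorm I₂) = ε (-X.2.2.1 * D) := by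
    refine hε.per _ _ ((c.sp_int h _).mp ?_)
    have : ((j * Ideal.absNorm I₁ * Ideal.absNorm I₂ - -X.2.2.1 * D : ℤ) : 𝓞 K) =
        -(Ideal.absNorm I₁ * Ideal.absNorm I₂) * (x - j) + vv θ q₂ r₂ X * ρ +
          uu θ q₂ r₂ X * q₁ * (ν - ((1 : ℤ) : 𝓞 K)) + X.2.2.2 * θ * q₁ * r₂ +
          X.2.2.1 * q₁ * (q₂ - θ) + X.2.2.1 * θ * (q₁ - θ) := by
      simp only [uu] at e4 ⊢
      push_cast
      linear_combination e4 + (X.2.2.1 : 𝓞 K) * k.sq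
    rw [this]
    exact add_mem (add_mem (add_mem (add_mem (add_mem (Ideal.mul_mem_left _ _ hj)
      (Ideal.mul_mem_left _ _ hρ)) (Ideal.mul_mem_left _ _ ν1)) (Ideal.mul_mem_left _ _ b₂.rn))
      (Ideal.mul_mem_left _ _ b₂.qt)) (Ideal.mul_mem_left _ _ b₁.qt)
  rw [hε.mul, hε.mul, hε.mul] at e5
  have jx : J x ≠ 0 := by simpa using x0
  have jν : J ν ≠ 0 := by simpa using ν0
  have e6 := congrArg (fun t : 𝓞 K => J t) hx
  simp only [map_mul, map_natCast] at e6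
  field_simp at a1 a2
  rw [← e5, ← a1]
  linear_combination (a C * (ε (Ideal.absNorm I₁) * ε (Ideal.absNorm I₂))) *
    (-J (be θ M q₁ r₁ q₂ r₂ X) * a2 - a n * a I₁ * a I₂ * a d * e6)

theorem nsq (z : ℂ) : ((‖z‖ : ℝ) : ℂ) ^ 2 = z * conj z := by
  rw [Complex.mul_conj, Complex.normSq_eq_norm_sq]
  push_cast
  rfl

theorem ee_sub (z w : ℂ) : ee (z - conj w) = ee z * conj (ee w) := by
  simp only [ee]
  rw [← Complex.exp_conj, ← Complex.exp_add]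
  congr 1
  simp only [map_mul, Complex.conj_I, Complex.conj_ofReal, map_ofNat]
  ring

theorem cj_th (c : Cg J θ s) : conj (J θ) = -J θ := by
  rw [← c.cj, c.st]
  simp

theorem Ad.vol (b : Ad θ s M n' I₁ q₁ r₁) (c : Cg J θ s) {τ : ℍ} (hq : J q₁ = J θ * J r₁ * τ) :
    J θ * (J r₁ * conj (J r₁)) * (2 * Complex.I * τ.im) = -Ideal.absNorm I₁ := by
  have e := congrArg (fun t : 𝓞 K => J t) b.cov
  have e1 := c.cj r₁
  have e2 := c.cj q₁
  simp only [map_add, map_mul, map_neg, map_natCast] at e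
  rw [e1, e2, hq, map_mul, map_mul, cj_th c] at e
  have e3 : (τ : ℂ) - conj (τ : ℂ) = 2 * Complex.I * τ.im := by
    rw [Complex.sub_conj]
    push_cast
    simp only [UpperHalfPlane.coe_im]
    ring
  rw [← e, ← e3]
  ring

theorem pp_be (k : Kd J D θ) (hM : 0 < M) {τ₁ τ₂ : ℍ} (h₁ : J q₁ = J θ * J r₁ * τ₁)
    (h₂ : J q₂ = J θ * J r₂ * τ₂) (X : ℤ × ℤ × ℤ × ℤ) :
    J (be θ M q₁ r₁ q₂ r₂ X) = pp M (M * D) τ₁ τ₂ X * (M * (J θ * J r₁) * (J θ * J r₂)) := by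
  have hM' : (M : ℂ) ≠ 0 := by exact_mod_cast hM.ne'
  have hD : (D : ℂ) ≠ 0 := by exact_mod_cast k.sqf.ne_zero
  simp only [be, uu, vv, pp, map_add, map_mul, map_neg, map_natCast, map_intCast, h₁, h₂]
  push_cast
  field_simp
  linear_combination (X.2.1 : ℂ) * J r₁ * J r₂ * (jt_re k).2

theorem pp_al (c : Cg J θ s) (k : Kd J D θ) (hM : 0 < M) {τ₁ τ₂ : ℍ}
    (h₁ : J q₁ = J θ * J r₁ * τ₁) (h₂ : J q₂ = J θ * J r₂ * τ₂) (X : ℤ × ℤ × ℤ × ℤ) :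
    J (al θ s M q₁ r₁ q₂ r₂ X) =
      pp M (M * D) (conj τ₁) τ₂ X * (M * (J θ * conj (J r₁)) * (J θ * J r₂)) := by
  have hM' : (M : ℂ) ≠ 0 := by exact_mod_cast hM.ne'
  have hD : (D : ℂ) ≠ 0 := by exact_mod_cast k.sqf.ne_zero
  have e1 := c.cj r₁
  have e2 := c.cj q₁
  simp only [al, uu, vv, pp, map_add, map_sub, map_mul, map_neg, map_natCast, map_intCast, e1, e2,
    h₁, h₂, cj_th c]
  push_cast
  field_simp
  linear_combination (X.2.1 : ℂ) * conj (J r₁) * J r₂ * (jt_re k).2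

end Vale.Agent.P004C.Wa.Cms
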