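import Vale.Agent.P004C.Wa.St

/-! # P004 C, block WA: bases of lattices, inverse ideals -/

set_option autoImplicit false
set_option linter.all false

open NumberField Module UpperHalfPlane CongruenceSubgroup
open scoped Classical MatrixGroups ComplexConjugate

noncomputable section

namespace Vale.Agent.P004C.Wa

namespace Pe

variable {Λ : Set ℂ} {ω ω' : ℂ} {τ τ' : ℍ}

theorem lin_inj {a b a' b' : ℤ} (h : (a : ℂ) * τ + b = a' * τ + b') : a = a' ∧ b = b' := by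
  have h1 := congrArg Complex.im h
  simp only [Complex.add_im, Complex.mul_im, Complex.intCast_re, Complex.intCast_im, zero_mul,
    add_zero, coe_im] at h1
  obtain rfl : a = a' := by exact_mod_cast mul_right_cancel₀ τ.im_pos.ne' h1
  exact ⟨rfl, by exact_mod_cast add_left_cancel h⟩

theorem jj_ne (γ : SL(2, ℤ)) (τ : ℍ) : jj γ τ ≠ 0 := by
  have := denom_ne_zero (γ : GL (Fin 2) ℝ) τ
  rwa [ModularGroup.denom_apply] at this

theorem jj_smul (γ : SL(2, ℤ)) (τ : ℍ) : jj γ τ * (γ • τ : ℍ) = (γ 0 0 : ℂ) * τ + γ 0 1 := by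
  have e : ((γ • τ : ℍ) : ℂ) = ((γ 0 0 : ℂ) * τ + γ 0 1) / jj γ τ := by
    rw [specialLinearGroup_apply]
    simp [jj]
  rw [e, mul_div_cancel₀ _ (jj_ne γ τ)]

end Pe

open Pe

namespace Bs

variable {Λ : Set ℂ} {ω ω' : ℂ} {τ τ' : ℍ} (h : Bs Λ ω τ)
include h

theorem mem (u v : ℤ) : ω * (u * τ + v) ∈ Λ := (h.2 _).2 ⟨u, v, rfl⟩

theorem one : ω ∈ Λ := by simpa using h.mem 0 1

theorem tau : ω * τ ∈ Λ := by simpa using h.mem 1 0

theorem smul (γ : SL(2, ℤ)) : Bs Λ (ω * jj γ τ) (γ • τ) := by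
  have e := jj_smul γ τ
  have hd : (γ 0 0 : ℂ) * γ 1 1 - γ 0 1 * γ 1 0 = 1 := by
    have := γ.det_coe
    rw [Matrix.det_fin_two] at this
    exact_mod_cast this
  refine ⟨mul_ne_zero h.1 (jj_ne γ τ), fun z => (h.2 z).trans ⟨?_, ?_⟩⟩
  · rintro ⟨m, n, rfl⟩
    refine ⟨m * γ 1 1 - n * γ 1 0, n * γ 0 0 - m * γ 0 1, ?_⟩
    rw [jj] at e ⊢
    push_cast
    linear_combination -ω * (((m : ℂ) * γ 1 1 - n * γ 1 0) * e + ((m : ℂ) * τ + n) * hd)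
  · rintro ⟨m, n, rfl⟩
    refine ⟨m * γ 0 0 + n * γ 1 0, m * γ 0 1 + n * γ 1 1, ?_⟩
    rw [jj] at e ⊢
    push_cast
    linear_combination ω * m * e

/-- two bases differ by a matrix -/
theorem uq (h' : Bs Λ ω' τ') : ∃ γ : SL(2, ℤ), τ' = γ • τ ∧ ω' = ω * jj γ τ := by
  obtain ⟨a, b, e1⟩ := (h.2 _).1 h'.tau
  obtain ⟨p, q, e2⟩ := (h.2 _).1 h'.one
  obtain ⟨a', b', e3⟩ := (h'.2 _).1 h.tau
  obtain ⟨p', q', e4⟩ := (h'.2 _).1 h.one
  obtain ⟨f1, f2⟩ := lin_inj (τ := τ) (a := a' * a + b' * p) (b := a' * b + b' * q) (a' := 1)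
    (b' := 0) (mul_left_cancel₀ h.1 (by
      push_cast; linear_combination -a' * e1 - b' * e2 - e3))
  obtain ⟨f3, f4⟩ := lin_inj (τ := τ) (a := p' * a + q' * p) (b := p' * b + q' * q) (a' := 0)
    (b' := 1) (mul_left_cancel₀ h.1 (by
      push_cast; linear_combination -p' * e1 - q' * e2 - e4))
  have d : (a * q - b * p) * (a' * q' - b' * p') = 1 := by
    linear_combination (p' * b + q' * q) * f1 + f4 - (p' * a + q' * p) * f2
  have c0 : (p : ℂ) * τ + q ≠ 0 := fun e => h'.1 (by rw [e2, e, mul_zero])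
  have e0 : ((p : ℂ) * τ + q) * τ' = a * τ + b := mul_left_cancel₀ h.1 (by
    rw [← e1, e2, mul_assoc])
  have e5 : (τ' : ℂ) * (Complex.normSq ((p : ℂ) * τ + q) : ℝ) =
      (a * τ + b) * conj ((p : ℂ) * τ + q) := by
    rw [← e0, ← Complex.mul_conj]
    ring
  have e6 := congrArg Complex.im e5
  simp only [Complex.mul_im, Complex.ofReal_re, Complex.ofReal_im, Complex.add_re, Complex.add_im,
    Complex.mul_re, Complex.conj_re, Complex.conj_im, Complex.intCast_re, Complex.intCast_im,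
    coe_im, coe_re] at e6
  have pos : (0 : ℝ) < ((a * q - b * p : ℤ) : ℝ) := by
    have h1 := mul_pos τ'.im_pos (Complex.normSq_pos.2 c0)
    refine pos_of_mul_pos_left (b := τ.im) (lt_of_lt_of_eq h1 ?_) τ.im_pos.le
    push_cast
    linear_combination e6
  have d1 : a * q - b * p = 1 := Int.eq_one_of_mul_eq_one_right (by exact_mod_cast pos.le) d
  let γ : SL(2, ℤ) := ⟨!![a, b; p, q], by rw [Matrix.det_fin_two_of, d1]⟩
  exact ⟨γ, UpperHalfPlane.ext (mul_left_cancel₀ c0 (e0.trans (jj_smul γ τ).symm)), e2⟩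

theorem dvd {M : ℕ} (hM : 0 < M) {u v : ℤ} (e : ω * (u * τ + v) / M ∈ Λ) :
    (M : ℤ) ∣ u ∧ (M : ℤ) ∣ v := by
  obtain ⟨a, b, k⟩ := (h.2 _).1 e
  rw [div_eq_iff (Nat.cast_ne_zero.2 hM.ne')] at k
  obtain ⟨f1, f2⟩ := lin_inj (τ := τ) (a := u) (b := v) (a' := M * a) (b' := M * b)
    (mul_left_cancel₀ h.1 (by push_cast; linear_combination k))
  exact ⟨⟨a, f1⟩, ⟨b, f2⟩⟩

theorem sub {z w : ℂ} (hz : z ∈ Λ) (hw : w ∈ Λ) : z - w ∈ Λ := by
  obtain ⟨a, b, rfl⟩ := (h.2 _).1 hz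
  obtain ⟨c, d, rfl⟩ := (h.2 _).1 hw
  exact (h.2 _).2 ⟨a - c, b - d, by push_cast; ring⟩

end Bs

namespace Pe

theorem lf_eq {k M : ℕ} {ε : ℤ → ℂ} {G : ℍ → ℂ} (hM : 0 < M)
    (hG : ∀ γ ∈ Gamma0 M, ∀ τ, G (γ • τ) = ε (γ 1 1) * jj γ τ ^ k * G τ) {Λ : Set ℂ} {P ω : ℂ}
    {τ : ℍ} {d : ℤ} (h : Bs Λ ω τ) (hd : IsCoprime d (M : ℤ))
    (hε : ∀ a b, (M : ℤ) ∣ a - b → ε a = ε b) (e : d * ω / M - P ∈ Λ) :
    lf k M G Λ P = ε d * G τ / ω ^ k := by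
  have M0 : (M : ℂ) ≠ 0 := Nat.cast_ne_zero.2 hM.ne'
  have ex : ∃ x : ℂ × ℍ, Bs Λ x.1 x.2 ∧ x.1 / M - P ∈ Λ := by
    obtain ⟨γ, a, b⟩ := hd.symm.exists_SL2_row 1
    refine ⟨(_, _), h.smul γ, ?_⟩
    have := h.sub e (h.mem (-1) 0)
    rw [jj, a, b]
    convert this using 1
    push_cast
    field_simp
    ring
  rw [lf, dif_pos ex]
  obtain ⟨b, p⟩ := ex.choose_spec
  generalize ex.choose = x at b p
  obtain ⟨γ, e1, e2⟩ := h.uq b
  obtain ⟨f1, f2⟩ := h.dvd hM (u := γ 1 0) (v := γ 1 1 - d) (by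
    convert h.sub p e using 1
    rw [e2, jj]
    push_cast
    ring)
  have := pow_ne_zero k (jj_ne γ τ)
  rw [e1, e2, hG γ (Gamma0_mem.2 ((ZMod.intCast_zmod_eq_zero_iff_dvd _ _).2 f1)), hε _ _ f2,
    mul_pow, mul_right_comm, mul_div_mul_right _ _ this]

theorem lift (u v : ℤ) {Q : ℕ} (hQ : 0 < Q)
    (h : ∀ p : ℕ, p.Prime → p ∣ Q → (p : ℤ) ∣ u → ¬ (p : ℤ) ∣ v) :
    ∃ a b : ℤ, IsCoprime (u + Q * a) (v + Q * b) := by
  obtain ⟨a, h0⟩ : ∃ a : ℤ, u + Q * a ≠ 0 := by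
    by_cases e : u = 0
    · exact ⟨1, by rw [e]; positivity⟩
    · exact ⟨0, by simpa using e⟩
  refine ⟨a, ∏ p ∈ (u + Q * a).natAbs.primeFactors.filter fun p : ℕ => ¬ (p : ℤ) ∣ v, (p : ℤ), ?_⟩
  rw [Int.isCoprime_iff_gcd_eq_one, Int.gcd_eq_natAbs, ← Nat.coprime_iff_gcd_eq_one]
  refine Nat.coprime_of_dvd fun p hp h1 h2 => ?_
  rw [← Int.natCast_dvd] at h2
  have hp' := Nat.prime_iff_prime_int.1 hp
  by_cases hv : (p : ℤ) ∣ v
  · rcases hp'.dvd_or_dvd ((dvd_add_right hv).1 h2) with q | q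
    · exact h p hp (Int.natCast_dvd_natCast.1 q)
        ((dvd_add_left (q.mul_right a)).1 (Int.natCast_dvd.2 h1)) hv
    · obtain ⟨r, hr, q⟩ := (hp'.dvd_finset_prod_iff _).1 q
      rw [Finset.mem_filter] at hr
      obtain rfl := (Nat.prime_dvd_prime_iff_eq hp (Nat.prime_of_mem_primeFactors hr.1)).1
        (Int.natCast_dvd_natCast.1 q)
      exact hr.2 hv
  · refine hv ((dvd_add_left (Dvd.dvd.mul_left (Finset.dvd_prod_of_mem _ ?_) _)).1 h2)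
    exact Finset.mem_filter.2 ⟨Nat.mem_primeFactors.2 ⟨hp, h1, Int.natAbs_ne_zero.2 h0⟩, hv⟩

/-! ### inverse ideals -/

variable {K : Type} [Field K] [NumberField K] {J : K →+* ℂ} {I I' A : Ideal (𝓞 K)} {z w : ℂ}

theorem J_inj {x y : 𝓞 K} (h : J x = J y) : x = y := RingOfIntegers.coe_injective (J.injective h)

theorem iv_J (y : 𝓞 K) : J y ∈ Iv J I := fun x _ => ⟨x * y, by simp⟩

theorem iv_mul (y : 𝓞 K) (h : z ∈ Iv J I) : J y * z ∈ Iv J I := fun x hx => by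
  obtain ⟨u, e⟩ := h (y * x) (I.mul_mem_left y hx)
  exact ⟨u, by rw [← e]; simp; ring⟩

theorem iv_int (k : ℤ) (h : z ∈ Iv J I) : k * z ∈ Iv J I := by simpa using iv_mul k h

theorem iv_add (h : z ∈ Iv J I) (h' : w ∈ Iv J I) : z + w ∈ Iv J I := fun x hx => by
  obtain ⟨u, e⟩ := h x hx
  obtain ⟨v, e'⟩ := h' x hx
  exact ⟨u + v, by rw [mul_add, e, e']; simp⟩

theorem mem_mul : z ∈ Iv J (A * I) ↔ ∀ a ∈ A, J a * z ∈ Iv J I := by
  refine ⟨fun h a ha x hx => ?_, fun h x hx => ?_⟩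
  · obtain ⟨u, e⟩ := h (a * x) (Ideal.mul_mem_mul ha hx)
    exact ⟨u, by rw [← e]; simp; ring⟩
  · refine Submodule.mul_induction_on hx (fun a ha x hx => ?_) ?_
    · obtain ⟨u, e⟩ := h a ha x hx
      exact ⟨u, by rw [← e]; simp; ring⟩
    · rintro x y ⟨u, e⟩ ⟨v, e'⟩
      exact ⟨u + v, by simp [add_mul, e, e']⟩

theorem mem_pair {a b : 𝓞 K} : z ∈ Iv J (Ideal.span {a, b} * I) ↔
    J a * z ∈ Iv J I ∧ J b * z ∈ Iv J I := by
  rw [mem_mul]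
  refine ⟨fun h => ⟨h a (Ideal.subset_span (by simp)), h b (Ideal.subset_span (by simp))⟩,
    fun h x hx => ?_⟩
  obtain ⟨u, v, rfl⟩ := Ideal.mem_span_pair.1 hx
  convert iv_add (iv_mul u h.1) (iv_mul v h.2) using 1
  simp
  ring

theorem mem_one {a : 𝓞 K} : z ∈ Iv J (Ideal.span {a} * I) ↔ J a * z ∈ Iv J I := by
  rw [← and_self_iff (a := J a * z ∈ Iv J I), ← mem_pair, Set.pair_eq_singleton]

theorem nm_ne (hI : I ≠ ⊥) : Ideal.absNorm I ≠ 0 := mt Ideal.absNorm_eq_zero_iff.1 hI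

theorem ex_K (hI : I ≠ ⊥) (h : z ∈ Iv J I) : ∃ x : K, z = J x := by
  obtain ⟨y, e⟩ := h _ (Ideal.absNorm_mem I)
  have : ((Ideal.absNorm I : ℕ) : ℂ) ≠ 0 := Nat.cast_ne_zero.2 (nm_ne hI)
  exact ⟨y / Ideal.absNorm I, by
    rw [map_div₀, ← e, map_natCast, eq_div_iff this, mul_comm]; simp⟩

theorem nm_nat (h : finrank ℚ K = 2) (n : ℕ) :
    Ideal.absNorm (Ideal.span {(n : 𝓞 K)}) = n ^ 2 := by
  rw [Ideal.absNorm_span_natCast, RingOfIntegers.rank, h]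

theorem ex_inv (h : finrank ℚ K = 2) (hI : I ≠ ⊥) : ∃ I₁ : Ideal (𝓞 K),
    Ideal.span {(Ideal.absNorm I : 𝓞 K)} = I * I₁ ∧ Ideal.absNorm I₁ = Ideal.absNorm I := by
  obtain ⟨I₁, e⟩ := Ideal.dvd_iff_le.2
    ((Ideal.span_singleton_le_iff_mem _).2 (Ideal.absNorm_mem I))
  refine ⟨I₁, e, mul_left_cancel₀ (nm_ne hI) ?_⟩
  rw [← map_mul, ← e, nm_nat h, sq]

variable {D : ℕ} {θ : 𝓞 K}

theorem ex_bs (h : Kd J D θ) (hI : I ≠ ⊥) : ∃ ω τ, Bs (Iv J I) ω τ := by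
  obtain ⟨I₁, e, n1⟩ := ex_inv h.two hI
  have N0 : ((Ideal.absNorm I : ℕ) : ℂ) ≠ 0 := Nat.cast_ne_zero.2 (nm_ne hI)
  have h1 : I₁ ≠ ⊥ := fun k => nm_ne hI (by rw [← n1, k, Ideal.absNorm_bot])
  have m : ∀ z, z ∈ Iv J I ↔ ∃ y ∈ I₁, Ideal.absNorm I * z = J y := fun z => by
    refine ⟨fun hz => ?_, fun ⟨y, hy, k⟩ x hx => ?_⟩
    · obtain ⟨y, k⟩ := hz _ (Ideal.absNorm_mem I)
      refine ⟨y, (Ideal.span_singleton_le_iff_mem _).1 (Ideal.dvd_iff_le.1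
        ((mul_dvd_mul_iff_left hI).1 ?_)), by simpa using k⟩
      rw [← e, Ideal.dvd_iff_le, Ideal.mul_le]
      intro x hx u hu
      obtain ⟨v, rfl⟩ := Ideal.mem_span_singleton'.1 hu
      obtain ⟨t, k'⟩ := hz x hx
      refine Ideal.mem_span_singleton'.2 ⟨v * t, J_inj (J := J) ?_⟩
      simp only [map_mul, RingOfIntegers.coe_eq_algebraMap] at k k' ⊢
      rw [← k, ← k']
      ring
    · obtain ⟨t, k'⟩ := Ideal.mem_span_singleton'.1 (e.ge (Ideal.mul_mem_mul hx hy))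
      refine ⟨t, mul_left_cancel₀ N0 ?_⟩
      have := congrArg (fun x : 𝓞 K => J x) k'
      simp only [map_mul, RingOfIntegers.coe_eq_algebraMap, map_natCast] at this k ⊢
      rw [mul_left_comm, k, ← this, mul_comm]
  let b := Module.finBasisOfFinrankEq ℤ (I₁.restrictScalars ℤ) (n := 2) (by
    rw [Ideal.finrank_eq_finrank (RingOfIntegers.basis K) I₁ h1, RingOfIntegers.rank, h.two])
  obtain ⟨x, hx⟩ : ∃ x, x = J (b 0 : 𝓞 K) := ⟨_, rfl⟩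
  obtain ⟨y, hy⟩ : ∃ y, y = J (b 1 : 𝓞 K) := ⟨_, rfl⟩
  have sp : ∀ z, (∃ y ∈ I₁, z = J y) ↔ ∃ u v : ℤ, z = u * x + v * y := fun z => by
    refine ⟨fun ⟨t, ht, k⟩ => ⟨b.repr ⟨t, ht⟩ 0, b.repr ⟨t, ht⟩ 1, ?_⟩, fun ⟨u, v, k⟩ =>
      ⟨u * b 0 + v * b 1, add_mem (I₁.mul_mem_left _ (b 0).2) (I₁.mul_mem_left _ (b 1).2), by
        simp [k, hx, hy]⟩⟩
    have := congrArg (fun x : I₁.restrictScalars ℤ => J (x : 𝓞 K)) (b.sum_repr ⟨t, ht⟩)
    simp only [Fin.sum_univ_two] at this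
    rw [k, ← this, hx, hy]
    simp
  have y0 : y ≠ 0 := fun k => b.ne_zero 1 (Subtype.ext (J_inj (J := J) (by simpa [hy] using k)))
  have key : ∀ x' : ℂ, 0 < (x' / y).im → (∀ z, (∃ u v : ℤ, z = u * x + v * y) ↔
      ∃ u v : ℤ, z = u * x' + v * y) → ∃ ω τ, Bs (Iv J I) ω τ := fun x' p q =>
    ⟨y / Ideal.absNorm I, ⟨x' / y, p⟩, div_ne_zero y0 N0, fun z => by
      rw [m, sp, q]
      refine exists₂_congr fun u v => ?_
      rw [coe_mk, div_mul_eq_mul_div, eq_div_iff N0, mul_comm z, mul_add y, mul_left_comm,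
        mul_div_cancel₀ _ y0, mul_comm y]⟩
  rcases lt_trichotomy (x / y).im 0 with k | k | k
  · refine key (-x) (by rw [neg_div, Complex.neg_im]; linarith) fun z => ?_
    constructor <;> rintro ⟨m, n, rfl⟩ <;> exact ⟨-m, n, by push_cast; ring⟩
  · obtain ⟨u, v, p⟩ := (sp (J θ * y)).1 ⟨θ * b 1, I₁.mul_mem_left _ (b 1).2, by simp [hy]⟩
    have : J θ = u * (x / y) + v := by
      field_simp
      linear_combination p
    have q := h.im
    simp [this, k] at q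
  · exact key x k fun _ => Iff.rfl

/-- a basis with a prescribed first vector modulo `Q` -/
theorem adapt (h : Kd J D θ) (hI : I ≠ ⊥) (s : 𝓞 K) {Q : ℕ} (hQ : 0 < Q)
    (k : ∀ p : ℕ, p.Prime → p ∣ Q → ¬ (p : 𝓞 K) ∣ Ideal.absNorm I * s) : ∃ (ω : K) (τ : ℍ),
      Bs (Iv J I) (J ω) τ ∧ ∀ x ∈ I, ∃ y : 𝓞 K, x * ω = (x * s + Q * y : 𝓞 K) := by
  obtain ⟨w, τ, B⟩ := ex_bs h hI
  obtain ⟨u, v, e⟩ := (B.2 _).1 (iv_J s)
  obtain ⟨a, b, c⟩ := lift u v hQ fun p hp q ⟨u', h1⟩ ⟨v', h2⟩ => by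
    obtain ⟨y, f⟩ := B.mem u' v' _ (Ideal.absNorm_mem I)
    refine k p hp q ⟨y, J_inj (J := J) ?_⟩
    simp only [map_mul, RingOfIntegers.coe_eq_algebraMap, map_natCast] at e f ⊢
    rw [e, ← f, h1, h2]
    push_cast
    ring
  obtain ⟨γ, g0, g1⟩ := c.exists_SL2_row 1
  obtain ⟨ω, hω⟩ := ex_K hI (B.smul γ).one
  refine ⟨ω, _, hω ▸ B.smul γ, fun x hx => ?_⟩
  obtain ⟨y, f⟩ := B.mem a b x hx
  refine ⟨y, J.injective ?_⟩
  simp only [map_mul, map_add, RingOfIntegers.coe_eq_algebraMap, map_natCast] at e f ⊢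
  rw [← hω, e, ← f, jj, g0, g1]
  push_cast
  ring

/-! ### norms -/

theorem nm_eq (h : Kd J D θ) (x : 𝓞 K) :
    (Ideal.absNorm (Ideal.span {x}) : ℂ) = J x * conj (J x) := by
  let a : K →ₐ[ℚ] ℂ := J.toRatAlgHom
  let b : K →ₐ[ℚ] ℂ := ((starRingEnd ℂ).comp J).toRatAlgHom
  have ab : a ≠ b := fun e => by
    have : J θ = conj (J θ) := DFunLike.congr_fun e (θ : K)
    have q := congrArg Complex.im this
    rw [Complex.conj_im] at q
    linarith [h.im]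
  have u : (Finset.univ : Finset (K →ₐ[ℚ] ℂ)) = {a, b} :=
    (Finset.eq_univ_of_card _ (by rw [Finset.card_pair ab, AlgHom.card, h.two])).symm
  have e := Algebra.norm_eq_prod_embeddings ℚ ℂ (x : K)
  rw [u, Finset.prod_pair ab, ← Algebra.coe_norm_int] at e
  have e' : ((Algebra.norm ℤ x : ℤ) : ℂ) = J x * conj (J x) := by
    rw [← show algebraMap ℚ ℂ _ = _ from map_intCast _ _]
    exact e
  have p : (0 : ℝ) ≤ (Algebra.norm ℤ x : ℤ) := by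
    have : (((Algebra.norm ℤ x : ℤ) : ℝ) : ℂ) = (Complex.normSq (J x) : ℝ) := by
      rw [← Complex.mul_conj, ← e', Complex.ofReal_intCast]
    exact (Complex.ofReal_injective this).symm ▸ Complex.normSq_nonneg _
  rw [Ideal.absNorm_span_singleton, ← e', ← Int.cast_natCast, Int.natAbs_of_nonneg
    (by exact_mod_cast p)]

theorem ex_cj (h : Kd J D θ) : ∃ s : 𝓞 K →+* 𝓞 K, (∀ x, J (s x) = conj (J x)) ∧
    ∀ x, x * s x = Ideal.absNorm (Ideal.span {x}) := by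
  have k : ∀ x : 𝓞 K, ∃ y : 𝓞 K, J y = conj (J x) := fun x => by
    obtain rfl | x0 := eq_or_ne x 0
    · exact ⟨0, by simp⟩
    obtain ⟨y, e⟩ := Ideal.mem_span_singleton'.1 (Ideal.absNorm_mem (Ideal.span {x}))
    refine ⟨y, mul_left_cancel₀ (a := J x) (fun q => x0 (J_inj (J := J) (by simpa using q))) ?_⟩
    rw [← nm_eq h, mul_comm]
    simpa using congrArg (fun x : 𝓞 K => J x) e
  choose s hs using k
  exact ⟨⟨⟨⟨s, J_inj (J := J) (by simp [hs])⟩, fun x y => J_inj (J := J) (by simp [hs])⟩,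
    J_inj (J := J) (by simp [hs]), fun x y => J_inj (J := J) (by simp [hs])⟩, hs,
    fun x => J_inj (J := J) (by simpa [hs] using (nm_eq h x).symm)⟩

theorem nm_θ (h : Kd J D θ) : Ideal.absNorm (Ideal.span {θ}) = D := by
  refine Nat.pow_left_injective two_ne_zero ?_
  beta_reduce
  rw [← map_pow, Ideal.span_singleton_pow, h.sq, Ideal.span_singleton_neg, nm_nat h.two]

variable {M : ℕ} {n n' : Ideal (𝓞 K)}

theorem int_mem (hs : Sp M n n') {k : ℤ} (h : (k : 𝓞 K) ∈ n) : (M : ℤ) ∣ k := by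
  rw [← hs.nm, Ideal.absNorm_apply, Submodule.cardQuot_apply,
    ← addOrderOf_eq_card_of_forall_mem_zmultiples (g := (1 : 𝓞 K ⧸ n)) fun x => ?_,
    addOrderOf_dvd_iff_zsmul_eq_zero, zsmul_one, ← map_intCast (Ideal.Quotient.mk n),
    Ideal.Quotient.eq_zero_iff_mem]
  · exact h
  · obtain ⟨x, rfl⟩ := Ideal.Quotient.mk_surjective x
    obtain ⟨k, e⟩ := hs.cn x
    exact ⟨k, by
      beta_reduce
      rw [zsmul_one, ← map_intCast (Ideal.Quotient.mk n), eq_comm, Ideal.Quotient.eq]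
      exact e⟩

theorem M_mem (hs : Sp M n n') : (M : 𝓞 K) ∈ n ∧ (M : 𝓞 K) ∈ n' :=
  Ideal.mul_le_inf (hs.mul.ge (Ideal.mem_span_singleton_self _))

theorem inf_mem (hs : Sp M n n') {x : 𝓞 K} (h : x ∈ n) (h' : x ∈ n') : ∃ y, x = M * y :=
  Ideal.mem_span_singleton.1 (hs.mul.le ((Ideal.mul_eq_inf_of_coprime hs.cop).ge ⟨h, h'⟩))

theorem ex_nu (hs : Sp M n n') : ∃ ν ∈ n', ν - 1 ∈ n := by
  obtain ⟨a, ha, b, hb, e⟩ := Submodule.mem_sup.1 (hs.cop.ge (Submodule.mem_top (x := 1)))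
  exact ⟨b, hb, by rw [← e]; simpa using ha⟩

theorem nm_cong (h : Kd J D θ) (hs : Sp M n n') {x : 𝓞 K} {d k : ℤ} (h1 : x - d ∈ n)
    (h2 : x - k ∈ n') : (M : ℤ) ∣ Ideal.absNorm (Ideal.span {x}) - d * k := by
  obtain ⟨s, -, e⟩ := ex_cj h
  obtain ⟨ν, a, b⟩ := ex_nu hs
  have n1 : Ideal.absNorm n' = M := mul_left_cancel₀ hs.pos.ne' (by
    rw [← sq, ← nm_nat h.two, ← hs.mul, map_mul, hs.nm])
  obtain ⟨c, hc⟩ := Ideal.absNorm_dvd_absNorm_of_le ((Ideal.span_singleton_le_iff_mem _).2 a)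
  have m1 : s ν ∈ n := by
    have : s ν = M * c - (ν - 1) * s ν := by
      have := e ν
      rw [hc, n1] at this
      push_cast at this
      linear_combination this
    rw [this]
    exact sub_mem (n.mul_mem_right _ (M_mem hs).1) (n.mul_mem_right _ b)
  obtain ⟨y, hy⟩ := inf_mem hs (n.mul_mem_left (x - k) b) (n'.mul_mem_right _ h2)
  have := congrArg s hy
  simp only [map_mul, map_sub, map_intCast, map_natCast, map_one] at this
  refine int_mem hs ?_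
  push_cast
  rw [← e, show x * s x - d * k = (x - d) * s x + d * ((s x - k) * s ν - M * s y) by
    linear_combination -d * this]
  exact add_mem (n.mul_mem_right _ h1) (n.mul_mem_left _ (sub_mem (n.mul_mem_left _ m1)
    (n.mul_mem_right _ (M_mem hs).1)))

theorem not_dvd (hs : Sp M n n') {N p : ℕ} (hN : N.Coprime M) {s : 𝓞 K} (h : s - 1 ∈ n)
    (hp : p.Prime) (d : p ∣ M) : ¬ (p : 𝓞 K) ∣ N * s := fun ⟨y, e⟩ => by
  obtain ⟨k, hk⟩ := hs.cn y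
  have := int_mem hs (k := N - p * k) (by
    push_cast
    rw [show (N : 𝓞 K) - p * k = p * (y - k) - N * (s - 1) by linear_combination e]
    exact sub_mem (n.mul_mem_left _ hk) (n.mul_mem_left _ h))
  have q : (p : ℤ) ∣ N :=
    (dvd_sub_left (dvd_mul_right _ _)).1 ((Int.natCast_dvd_natCast.2 d).trans this)
  exact hp.one_lt.ne' (Nat.eq_one_of_dvd_coprimes hN (Int.natCast_dvd_natCast.1 q) d)

theorem cl_mul (h : I ≠ ⊥) (h' : I' ≠ ⊥) : cl (I * I') = cl I * cl I' := by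
  have k : I * I' ≠ ⊥ := mul_ne_zero h h'
  rw [cl, cl, cl, dif_neg h, dif_neg h', dif_neg k, ← map_mul]
  rfl

theorem cl_eq (h : I ≠ ⊥) (h' : I' ≠ ⊥) (e : cl I = cl I') : ∃ x y : 𝓞 K, x ≠ 0 ∧ y ≠ 0 ∧
    Ideal.span {x} * I = Ideal.span {y} * I' := by
  rw [cl, cl, dif_neg h, dif_neg h', ClassGroup.mk0_eq_mk0_iff] at e
  obtain ⟨x, y, a, b, e⟩ := e
  exact ⟨x, y, a, b, e⟩

end Pe

end Vale.Agent.P004C.Wa
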