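import Vale.Agent.P004C.Defs
import Vale.Agent.P004Z.W2.Wt

/-!
# P004 C, block WA: toric periods of weight one forms (words and rows)
-/

open NumberField Module UpperHalfPlane CongruenceSubgroup MeasureTheory
open scoped Classical MatrixGroups Real Manifold ModularForm ComplexConjugate NumberTheorySymbols
  ArithmeticFunction.Moebius

noncomputable section

namespace Vale.Agent.P004C.Wa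

open Vale.Agent.P004Z.W2 (fm)

/-- `exp (2 π i z)` -/
def ee (z : ℂ) : ℂ := Complex.exp (2 * π * Complex.I * z)

/-- odd character modulo `m` -/
structure Chr (m : ℕ) (ε : ℤ → ℂ) : Prop where
  one : ε 1 = 1
  mul : ∀ a b, ε (a * b) = ε a * ε b
  per : ∀ a b, (m : ℤ) ∣ a - b → ε a = ε b
  zero : ∀ a, ε a = 0 ↔ ¬ IsCoprime a (m : ℤ)
  odd : ε (-1) = -1

/-- the factor of automorphy -/
def jj (γ : SL(2, ℤ)) (τ : ℍ) : ℂ := (γ 1 0 : ℂ) * τ + (γ 1 1 : ℂ)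

/-- modular forms of weight one on `Γ₀(N)` -/
structure MW (N : ℕ) (ε : ℤ → ℂ) (F : ℍ → ℂ) : Prop where
  hol : MDifferentiable 𝓘(ℂ) 𝓘(ℂ) F
  law : ∀ γ ∈ Gamma0 N, ∀ τ, F (γ • τ) = ε (γ 1 1) * jj γ τ * F τ
  bdd : ∀ γ : SL(2, ℤ), IsBoundedAtImInfty (F ∣[(1 : ℤ)] γ)

/-- the expansion -/
def QE (F : ℍ → ℂ) (A : ℕ → ℂ) : Prop := ∀ τ : ℍ, HasSum (fun n : ℕ => A n * ee (n * τ)) (F τ)

/-- eigenvalue of the Hecke operator `T n` -/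
def Hk (ε : ℤ → ℂ) (F : ℍ → ℂ) (n : ℕ) (x : ℂ) : Prop := ∀ τ : ℍ,
  ∑ p ∈ n.divisorsAntidiagonal, ε p.1 * ∑ b ∈ Finset.range p.2,
    F (ofComplex ((p.1 * τ + b) / p.2)) / p.2 = x * F τ

/-- `F (t τ)` -/
def up (t : ℕ) (F : ℍ → ℂ) (τ : ℍ) : ℂ := F (ofComplex (t * τ))

/-- the Fricke involution -/
def fr (N : ℕ) (F : ℍ → ℂ) (τ : ℍ) : ℂ := F (ofComplex (-1 / (N * τ))) / (N * τ)

/-! ### the Shimizu lift -/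

/-- the kernel, mixed model -/
def kM (M N : ℕ) (ε : ℤ → ℂ) (τ₁ τ₂ τ : ℍ) : ℂ := ∑' X : ℤ × ℤ × ℤ × ℤ,
  if (N : ℤ) ∣ X.2.2.1 ∧ IsCoprime X.2.2.2 (M : ℤ) then
    ε X.1 * ((τ : ℂ) * conj ((X.2.2.1 : ℂ) * τ₂ + X.2.2.2) - conj ((X.1 : ℂ) * τ₂ + X.2.1)) *
      ee (((X.1 * X.2.2.2 - X.2.1 * X.2.2.1 : ℤ) : ℂ) * (τ₁ : ℂ)) *
      Real.exp (-(π * τ₁.im *
        ‖(τ : ℂ) * ((X.2.2.1 : ℂ) * τ₂ + X.2.2.2) - ((X.1 : ℂ) * τ₂ + X.2.1)‖ ^ 2 /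
        (τ.im * τ₂.im)))
  else 0

/-- Ramanujan sum -/
def ram (M : ℕ) (a : ℤ) : ℂ := ∑ e ∈ M.divisors, if (M : ℤ) ∣ e * a then (μ e : ℂ) / e else 0

/-- `(c τ₂ + d) z - (a τ₂ / M + b / N)` -/
def pp (M N : ℕ) (z : ℂ) (τ₂ : ℍ) (X : ℤ × ℤ × ℤ × ℤ) : ℂ :=
  (X.2.2.1 * (τ₂ : ℂ) + X.2.2.2) * z - (X.1 / M * (τ₂ : ℂ) + X.2.1 / N)

/-- the kernel, Schroedinger model, after the Fricke involution -/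
def kV (M N : ℕ) (ε : ℤ → ℂ) (τ₁ τ₂ τ : ℍ) : ℂ := ∑' X : ℤ × ℤ × ℤ × ℤ,
  ram M X.1 * ε (-X.2.2.1) * conj (pp M N τ₁ τ₂ X) *
    ee (N * (τ * (‖pp M N (conj τ₁) τ₂ X‖ ^ 2 : ℝ) - conj (τ : ℂ) * (‖pp M N τ₁ τ₂ X‖ ^ 2 : ℝ)) /
      (4 * τ₁.im * τ₂.im))

/-- Poisson summation in the first row -/
def KER : Prop := ∀ (M N : ℕ) (ε : ℤ → ℂ), 0 < M → 0 < N → Chr M ε → ∀ τ₁ τ₂ τ : ℍ,
  kM M N ε τ₁ τ₂ (ofComplex (-1 / (N * τ))) =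
    -(τ.im ^ 2 / (τ * τ₁.im ^ 2)) * kV M N ε τ₁ τ₂ τ

/-- unfolding -/
def LIFT : Prop := ∀ (M D : ℕ) (ε : ℤ → ℂ) (G : ℍ → ℂ) (A : ℕ → ℂ), 1 < M → Squarefree D →
  D.Coprime M → Chr M ε → MW M ε G → QE G A → (∀ n, ¬ n.Coprime M → A n = 0) →
  (∀ n, n.Coprime M → Hk ε G n (A n)) → ∀ τ₁ τ₂ : ℍ,
  Measurable (kM M (M * D) ε τ₁ τ₂) ∧
  (∀ γ ∈ Gamma0 (M * D), ∀ τ, G (γ • τ) * kM M (M * D) ε τ₁ τ₂ (γ • τ) =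
    G τ * kM M (M * D) ε τ₁ τ₂ τ) ∧
  Integrable (fun τ => G τ * kM M (M * D) ε τ₁ τ₂ τ) (fm (Gamma0 (M * D))) ∧
  ∫ τ, G τ * kM M (M * D) ε τ₁ τ₂ τ ∂fm (Gamma0 (M * D)) =
    4 * Complex.I * (τ₂.im / τ₁.im) * ∑ t ∈ D.divisors, t * ε t * up t G τ₁ * up t G τ₂

/-- the Fricke involution: integrals and forms -/
def FRI : Prop := ∀ N : ℕ, 0 < N →
  (∀ Φ : ℍ → ℂ, Measurable Φ → (∀ γ ∈ Gamma0 N, ∀ τ, Φ (γ • τ) = Φ τ) →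
    Integrable Φ (fm (Gamma0 N)) →
    Integrable (fun τ : ℍ => Φ (ofComplex (-1 / (N * τ)))) (fm (Gamma0 N)) ∧
    ∫ τ : ℍ, Φ (ofComplex (-1 / (N * τ))) ∂fm (Gamma0 N) = ∫ τ, Φ τ ∂fm (Gamma0 N)) ∧
  ∀ ε G, Chr N ε → MW N ε G → Chr N (fun a => conj (ε a)) ∧ MW N (fun a => conj (ε a)) (fr N G) ∧
    (∀ t, 0 < t → MW (N * t) ε (up t G)) ∧
    ∀ (p : ℕ) (x : ℂ), p.Prime → p.Coprime N → Hk ε G p x →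
      Hk (fun a => conj (ε a)) (fr N G) p (conj (ε p) * x)

/-! ### theta series of `K` -/

section

variable {K : Type} [Field K] [NumberField K]

/-- the class of an ideal -/
def cl (I : Ideal (𝓞 K)) : ClassGroup (𝓞 K) :=
  if h : I = ⊥ then 1 else ClassGroup.mk0 ⟨I, mem_nonZeroDivisors_of_ne_zero h⟩

/-- conjugate of a theta series of weight two -/
def TA (a : Ideal (𝓞 K) → ℂ) (C : ClassGroup (𝓞 K)) (τ : ℍ) : ℂ := ∑' I : Ideal (𝓞 K),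
  if cl I = C then a I * Ideal.absNorm I * conj (ee (Ideal.absNorm I * τ)) else 0

/-- theta series of weight one -/
def TE (C : ClassGroup (𝓞 K)) (τ : ℍ) : ℂ := 1 + 2 * ∑' I : Ideal (𝓞 K),
  if I ≠ ⊥ ∧ cl I = C then ee (Ideal.absNorm I * τ) else 0

/-- coefficients -/
def co (a : Ideal (𝓞 K) → ℂ) (n : ℕ) : ℂ := ∑ᶠ I ∈ {I : Ideal (𝓞 K) | Ideal.absNorm I = n}, a I

/-- the field `ℚ(√-D)` -/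
structure Kd (J : K →+* ℂ) (D : ℕ) (θ : 𝓞 K) : Prop where
  two : finrank ℚ K = 2
  upm : ∀ u : (𝓞 K)ˣ, u = 1 ∨ u = -1
  sqf : Squarefree D
  md : D % 8 = 7
  sq : θ ^ 2 = -(D : 𝓞 K)
  im : 0 < (J θ).im

/-- `n n' = (m)`, `O / n = ℤ / m` -/
structure Sp (m : ℕ) (n n' : Ideal (𝓞 K)) : Prop where
  pos : 0 < m
  cop : n ⊔ n' = ⊤
  mul : n * n' = Ideal.span {(m : 𝓞 K)}
  cn : ∀ x : 𝓞 K, ∃ k : ℤ, x - k ∈ n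
  cn' : ∀ x : 𝓞 K, ∃ k : ℤ, x - k ∈ n'
  nm : Ideal.absNorm n = m

/-- Hecke character of weight one with finite part `ε` at `n'` -/
structure Ha (J : K →+* ℂ) (n' : Ideal (𝓞 K)) (ε : ℤ → ℂ) (a : Ideal (𝓞 K) → ℂ) : Prop where
  hc : HC J 1 n' a
  fin : ∀ (x : 𝓞 K) (k : ℤ), x ≠ 0 → x - k ∈ n' → a (Ideal.span {x}) = (J x)⁻¹ * ε k

/-- `I⁻¹` as a set of complex numbers -/
def Iv (J : K →+* ℂ) (I : Ideal (𝓞 K)) : Set ℂ := {z | ∀ x ∈ I, ∃ y : 𝓞 K, J x * z = J y}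

end

/-- `Λ = ω (ℤ τ + ℤ)` -/
def Bs (Λ : Set ℂ) (ω : ℂ) (τ : ℍ) : Prop :=
  ω ≠ 0 ∧ ∀ z, z ∈ Λ ↔ ∃ u v : ℤ, z = ω * (u * τ + v)

/-- the value of a form of weight `k` and level `M` at the lattice `Λ` with the point `P` -/
def lf (k M : ℕ) (G : ℍ → ℂ) (Λ : Set ℂ) (P : ℂ) : ℂ :=
  if h : ∃ x : ℂ × ℍ, Bs Λ x.1 x.2 ∧ x.1 / M - P ∈ Λ then G h.choose.2 / h.choose.1 ^ k else 0

/-- representatives of the ideal classes, prime to `t` -/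
structure Rc {K : Type} [Field K] [NumberField K] (t : ℕ) (R : ClassGroup (𝓞 K) → Ideal (𝓞 K)) :
    Prop where
  ne : ∀ C, R C ≠ ⊥
  eq : ∀ C, cl (R C) = C
  cop : ∀ C, (Ideal.absNorm (R C)).Coprime t

/-- the period; `ν ∈ n'`, `ν ≡ 1` modulo `n` -/
def per {K : Type} [Field K] [NumberField K] (J : K →+* ℂ) (M : ℕ) (ε : ℤ → ℂ) (G : ℍ → ℂ)
    (a : Ideal (𝓞 K) → ℂ) (ν : 𝓞 K) (R : ClassGroup (𝓞 K) → Ideal (𝓞 K)) : ℂ :=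
  ∑ C, a (R C) / ε (Ideal.absNorm (R C)) * lf 1 M G (Iv J (R C)) (J ν / M)

/-- laws of the theta series of `K`, number of ideals of given norm -/
def THK : Prop := ∀ (K : Type) [Field K] [NumberField K] (J : K →+* ℂ) (D : ℕ) (θ : 𝓞 K),
  Kd J D θ → (∀ C : ClassGroup (𝓞 K), MW D (fun d => (J(d | D) : ℂ)) (TE C)) ∧
  (∀ n, 0 < n → (co (fun _ : Ideal (𝓞 K) => 1) n) = ∑ d ∈ n.divisors, (J(d | D) : ℂ)) ∧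
  ∀ (m : ℕ) (n n' : Ideal (𝓞 K)) (ε : ℤ → ℂ) (a : Ideal (𝓞 K) → ℂ), Sp m n n' → Chr m ε →
    Ha J n' ε a → (∀ I, a I = 0 ∨ ‖a I‖ ^ 2 * Ideal.absNorm I = 1) ∧ ∀ C, Continuous (TA a C) ∧
      (∀ γ ∈ Gamma0 (D * m ^ 2), ∀ τ,
        TA a C (γ • τ) = J(γ 1 1 | D) * ε (γ 1 1) * conj (jj γ τ) ^ 2 * TA a C τ) ∧
      ∀ γ : SL(2, ℤ), ∃ B c : ℝ, 0 < c ∧ ∀ τ : ℍ, 1 / 2 ≤ τ.im →
        ‖TA a C (γ • τ)‖ ≤ B * ‖jj γ τ‖ ^ 2 * Real.exp (-(c * τ.im))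

/-- splitting of the kernel at a pair of CM points; `n * d * I` is `ω⁻¹`-adapted -/
def CMS : Prop := ∀ (K : Type) [Field K] [NumberField K] (J : K →+* ℂ) (D : ℕ) (θ : 𝓞 K),
  Kd J D θ → ∀ (M : ℕ) (n n' : Ideal (𝓞 K)) (ε : ℤ → ℂ) (a : Ideal (𝓞 K) → ℂ), Sp M n n' →
  D.Coprime M → Chr M ε → Ha J n' ε a → ∀ (I₁ I₂ I₁' : Ideal (𝓞 K)) (ω₁ ω₂ : K) (τ₁ τ₂ : ℍ),
  (Ideal.absNorm I₁).Coprime (M * D) → (Ideal.absNorm I₂).Coprime (M * D) →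
  I₁ * I₁' = Ideal.span {(Ideal.absNorm I₁ : 𝓞 K)} →
  Bs (Iv J I₁) (J ω₁) τ₁ → Bs (Iv J I₂) (J ω₂) τ₂ →
  (∀ x ∈ I₁, ∃ y ∈ n' ^ 2 * Ideal.span {θ}, x * ω₁ = y ∧ y - x ∈ n) →
  (∀ x ∈ I₂, ∃ y ∈ n' ^ 2 * Ideal.span {θ}, x * ω₂ = y ∧ y - x ∈ n) → ∀ τ : ℍ,
  a n * (a I₁ / ε (Ideal.absNorm I₁)) * (a I₂ / ε (Ideal.absNorm I₂)) * (M * D : ℕ) *
      kV M (M * D) ε τ₁ τ₂ τ / (τ₁.im * τ₂.im * J ω₁ * J ω₂) =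
    8 / ε D * TA a (cl (n * I₁ * I₂)) τ * ∑ e ∈ M.divisors, (μ e : ℂ) / e *
      up (M / e) (TE (cl ((n' ⊔ Ideal.span {(e : 𝓞 K)}) * I₁' * I₂))) τ

/-- values at lattices, adapted bases, the ramified neighbours -/
def PER : Prop :=
  (∀ (k M : ℕ) (ε : ℤ → ℂ) (G : ℍ → ℂ), 0 < M → (∀ a : ℤ, (M : ℤ) ∣ a - 1 → ε a = 1) →
    (∀ γ ∈ Gamma0 M, ∀ τ, G (γ • τ) = ε (γ 1 1) * jj γ τ ^ k * G τ) →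
    ∀ (Λ : Set ℂ) (P ω : ℂ) (τ : ℍ) (d : ℤ), Bs Λ ω τ → IsCoprime d (M : ℤ) →
      (∀ a b, (M : ℤ) ∣ a - b → ε a = ε b) → d * ω / M - P ∈ Λ →
      lf k M G Λ P = ε d * G τ / ω ^ k) ∧
  ∀ (K : Type) [Field K] [NumberField K] (J : K →+* ℂ) (D : ℕ) (θ : 𝓞 K), Kd J D θ →
  ∀ (M : ℕ) (n n' : Ideal (𝓞 K)), Sp M n n' → D.Coprime M →
    (∀ (I : Ideal (𝓞 K)) (i : ℕ), (Ideal.absNorm I).Coprime (M * D) → ∃ (ω : K) (τ : ℍ),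
      Bs (Iv J I) (J ω) τ ∧ ∀ x ∈ I, ∃ y ∈ n' ^ i * Ideal.span {θ}, x * ω = y ∧ y - x ∈ n) ∧
    ∀ (ε : ℤ → ℂ) (a : Ideal (𝓞 K) → ℂ) (G : ℍ → ℂ) (ν : 𝓞 K) R (ω : ClassGroup (𝓞 K) → K)
      (τ : ClassGroup (𝓞 K) → ℍ), Chr M ε → Ha J n' ε a → MW M ε G → ν ∈ n' → ν - 1 ∈ n →
      Rc (M * D) R → (∀ C, Bs (Iv J (R C)) (J (ω C)) (τ C) ∧
        ∀ x ∈ R C, ∃ y ∈ n' * Ideal.span {θ}, x * ω C = y ∧ y - x ∈ n) →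
      (∀ R', Rc M R' → per J M ε G a ν R' = per J M ε G a ν R) ∧ ∀ t ∈ D.divisors, t * ε t *
        (∑ C, a (R C) / ε (Ideal.absNorm (R C)) * up t G (τ C) / J (ω C)) ^ 2 =
          per J M ε G a ν R ^ 2

/-- different genera are orthogonal to old forms -/
def GEN : Prop := ∀ (K : Type) [Field K] [NumberField K] (J : K →+* ℂ) (D : ℕ) (θ : 𝓞 K),
  Kd J D θ → ∀ (m : ℕ) (n n' : Ideal (𝓞 K)) (ε : ℤ → ℂ) (a : Ideal (𝓞 K) → ℂ) (H : ℍ → ℂ),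
  Sp m n n' → D.Coprime m → Chr m ε → Ha J n' ε a → MW (m ^ 2) (fun d => conj (ε d)) H →
  ∀ (r t : ℕ) (x y : ℂ) (I I' : Ideal (𝓞 K)), r.Prime → r ∣ D → t ∣ m ^ 2 → ‖x‖ = 1 → ‖y‖ = 1 →
    x * y = conj (ε r) → Hk (fun d => conj (ε d)) H r (x + y) →
    J((t * Ideal.absNorm I * Ideal.absNorm I' : ℕ) | r) = -1 →
    ∫ τ, up D H τ * TA a (cl I) τ * up t (TE (cl I')) τ * τ.im ^ 2 ∂fm (Gamma0 (m ^ 2 * D)) = 0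

/-- genus theory -/
def GNT : Prop := ∀ (K : Type) [Field K] [NumberField K] (J : K →+* ℂ) (D : ℕ) (θ : 𝓞 K),
  Kd J D θ → 2 * Nat.card {C : ClassGroup (𝓞 K) // C ^ 2 = 1} = D.divisors.card ∧
    ∀ I : Ideal (𝓞 K), (Ideal.absNorm I).Coprime D →
      (∀ r : ℕ, r.Prime → r ∣ D → J((Ideal.absNorm I : ℕ) | r) = 1) → IsSquare (cl I)

/-! ### Eisenstein series of weight one, Rankin-Selberg -/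

/-- the theta function of the lattice `ℤ N τ + ℤ` -/
def tt (N : ℕ) (χ : ℤ → ℂ) (τ : ℍ) (t : ℝ) : ℂ := ∑' v : ℤ × ℤ,
  χ v.2 * conj (v.1 * N * (τ : ℂ) + v.2) *
    Real.exp (-(π * t * ‖v.1 * N * (τ : ℂ) + v.2‖ ^ 2 / τ.im))

/-- Siegel-Weil -/
def SW : Prop := ∀ (K : Type) [Field K] [NumberField K] (J : K →+* ℂ) (D : ℕ) (θ : 𝓞 K),
  Kd J D θ → ∀ M : ℕ, 0 < M → (∀ p : ℕ, p.Prime → p ∣ M → J(p | D) = 1) → ∀ τ : ℍ,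
  ∫ t in Set.Ioi (0 : ℝ), tt (M * D) (fun d => if IsCoprime d (M : ℤ) then J(d | D) else 0) τ t =
    2 * τ.im / √D * ∑ e ∈ M.divisors, (μ e : ℂ) / e *
      up (M / e) (∑ C : ClassGroup (𝓞 K), TE C) τ

/-- Rankin-Selberg -/
def RS : Prop := ∀ (N : ℕ) (χ : ℤ → ℂ) (Φ : ℍ → ℂ) (d : ℕ → ℂ), 1 < N → Chr N χ → Continuous Φ →
  (∀ γ ∈ Gamma0 N, ∀ τ, jj γ τ * Φ (γ • τ) = χ (γ 1 1) * Φ τ) →
  (∀ γ : SL(2, ℤ), ∃ B c : ℝ, 0 < c ∧ ∀ τ : ℍ, 1 / 2 ≤ τ.im →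
    ‖jj γ τ * Φ (γ • τ)‖ ≤ B * Real.exp (-(c * τ.im))) →
  (Summable fun n => ‖d n‖ / n ^ 2) → d 0 = 0 →
  (∀ y : ℝ, 0 < y → HasSum (fun n : ℕ => y ^ 2 * d n * Real.exp (-(4 * π * n * y)))
    (∫ x in (0 : ℝ)..1, Φ (ofComplex (x + y * Complex.I)))) →
  ∃ L : ℂ → ℂ, DifferentiableOn ℂ L {s | -(1 / 2) < s.re} ∧
    (∀ s : ℂ, 1 < s.re →
      L s = (∑' u : ℕ, χ u * (u : ℂ) ^ (-1 - 2 * s)) * ∑' n : ℕ, d n * (n : ℂ) ^ (-1 - s)) ∧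
    ∫ τ, Φ τ / τ.im * (∫ t in Set.Ioi (0 : ℝ), tt N χ τ t) ∂fm (Gamma0 N) = L 0 / (2 * π ^ 2)

/-- **the period formula** -/
def WALD : Prop := ∀ (K : Type) [Field K] [NumberField K] (J : K →+* ℂ) (D : ℕ) (θ : 𝓞 K),
  Kd J D θ → ∀ (m : ℕ) (n n' : Ideal (𝓞 K)) (ε : ℤ → ℂ) (a : Ideal (𝓞 K) → ℂ) (G : ℍ → ℂ)
  (A B : ℕ → ℂ) (ν : 𝓞 K) R, 1 < m → Sp m n n' → D.Coprime m → Chr m ε → Ha J n' ε a →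
  MW (m ^ 2) ε G → QE G A → (∀ k, ¬ k.Coprime m → A k = 0) → (∀ k, k.Coprime m → Hk ε G k (A k)) →
  (∀ r : ℕ, r.Prime → r ∣ D → ∃ x y : ℂ, ‖x‖ = 1 ∧ ‖y‖ = 1 ∧ x * y = ε r ∧ x + y = A r) →
  QE (fr (m ^ 2) G) B → (∃ C : ℝ, ∀ k, ‖B k‖ ≤ C * (k : ℝ) ^ (1 / 8 : ℝ)) →
  ν ∈ n' ^ 2 → ν - 1 ∈ n ^ 2 → Rc m R →
  ∃ (L : ℂ → ℂ) (u : ℂ), u ^ 4 = 1 ∧ DifferentiableOn ℂ L {s | -(1 / 2) < s.re} ∧
    (∀ s : ℂ, 1 < s.re → L s =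
      (∑' v : ℕ, (if v.Coprime m then (J(v | D) : ℂ) else 0) * (v : ℂ) ^ (-1 - 2 * s)) *
        ∑' k : ℕ, B k * co a k * (k : ℂ) ^ (-s)) ∧
    a n ^ 2 * ε D * (2 * π * per J (m ^ 2) ε G a ν R) ^ 2 = u * √D * a (Ideal.span {θ}) * L 0

/-! ### theta series of the quadratic field `L` -/

section

variable {L : Type} [Field L] [NumberField L]

/-- the type at infinity -/
def Sg (sg : L → ℂ) : Prop :=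
  (IsEmpty (L →+* ℝ) ∧ ∀ x, sg x = 1) ∨ ∃ σ : L →+* ℝ, ∀ x, sg x = (SignType.sign (σ x) : ℝ)

/-- ray class character modulo `f` of type `sg` -/
structure RC (sg : L → ℂ) (f : Ideal (𝓞 L)) (ψ : Ideal (𝓞 L) → ℂ) : Prop where
  ne : f ≠ ⊥
  one : ψ 1 = 1
  mul : ∀ I I', ψ (I * I') = ψ I * ψ I'
  zero : ∀ I, ψ I = 0 ↔ I = ⊥ ∨ I ⊔ f ≠ ⊤
  prn : ∀ x : 𝓞 L, x ≠ 0 → x - 1 ∈ f → ψ (Ideal.span {x}) = sg x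

/-- primitive -/
def Pm (sg : L → ℂ) (f : Ideal (𝓞 L)) (ψ : Ideal (𝓞 L) → ℂ) : Prop :=
  ∀ P f' : Ideal (𝓞 L), P.IsMaximal → f = P * f' →
    ∃ x : 𝓞 L, x - 1 ∈ f' ∧ x ∉ P ∧ x ≠ 0 ∧ ψ (Ideal.span {x}) ≠ sg x

/-- the series -/
def tg (ψ : Ideal (𝓞 L) → ℂ) (τ : ℍ) : ℂ := ∑' I : Ideal (𝓞 L), ψ I * ee (Ideal.absNorm I * τ)

/-- depletion -/
def dp (m : ℕ) (ψ : Ideal (𝓞 L) → ℂ) (I : Ideal (𝓞 L)) : ℂ :=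
  if (Ideal.absNorm I).Coprime m then ψ I else 0

end

/-- the depleted theta series is an eigenform -/
def THG : Prop := ∀ (L : Type) [Field L] [NumberField L], finrank ℚ L = 2 →
  ∀ (sg : L → ℂ) (f : Ideal (𝓞 L)) (ψ : Ideal (𝓞 L) → ℂ), Sg sg → RC sg f ψ → f ≠ ⊤ →
  (∀ I, ψ I = 0 ∨ ∃ k, 0 < k ∧ ψ I ^ k = 1) ∧ (∀ m, QE (tg (dp m ψ)) (co (dp m ψ))) ∧
  (∃ C : ℝ, ∀ k, ‖co ψ k‖ ≤ C * (k : ℝ) ^ (1 / 8 : ℝ)) ∧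
  ∀ m₀ m : ℕ, 0 < m → (m₀ : 𝓞 L) ∈ f → 2 ∣ m₀ → (∀ p : ℕ, p.Prime → p ∣ m → p ∣ m₀) →
    (discr L).natAbs * m₀ ∣ m → ∃ ε, Chr m ε ∧ MW (m ^ 2) ε (tg (dp m ψ)) ∧
    (∀ k, k.Coprime m → Hk ε (tg (dp m ψ)) k (co ψ k)) ∧ ∀ p : ℕ, p.Prime → p.Coprime m →
      ε p = (if (Ideal.span {(p : 𝓞 L)}).IsPrime then -1 else 1) * ψ (Ideal.span {(p : 𝓞 L)}) ∧
      ∃ x y : ℂ, ‖x‖ = 1 ∧ ‖y‖ = 1 ∧ x * y = ε p ∧ x + y = co ψ p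

/-- the Fricke involution of the depleted series; `T` = the primes above `m` prime to `f` -/
def FRK : Prop := ∀ (L : Type) [Field L] [NumberField L], finrank ℚ L = 2 →
  ∀ (sg : L → ℂ) (f : Ideal (𝓞 L)) (ψ : Ideal (𝓞 L) → ℂ), Sg sg → RC sg f ψ → f ≠ ⊤ → Pm sg f ψ →
  ∃ κ : ℂ, (∀ V : AbsoluteValue ℂ ℝ, IsNonarchimedean V → V 2 < 1 →
      (f ⊔ Ideal.span {2} = ⊤ ∨ ((Ideal.span {(2 : 𝓞 L)}).IsPrime ∧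
        ∃ f' : Ideal (𝓞 L), f = Ideal.span {2} * f' ∧ f' ⊔ Ideal.span {2} = ⊤)) →
      V κ ^ 2 * V ((discr L).natAbs * Ideal.absNorm f : ℕ) = 1) ∧
    ∀ (m : ℕ) (T : Finset (Ideal (𝓞 L))), 0 < m → (m : 𝓞 L) ∈ f →
      (∀ P, P ∈ T ↔ P.IsMaximal ∧ (m : 𝓞 L) ∈ P ∧ P ⊔ f = ⊤) →
      (discr L).natAbs * Ideal.absNorm (f * ∏ P ∈ T, P) ∣ m ^ 2 → ∀ τ,
      fr (m ^ 2) (tg (dp m ψ)) τ = κ * ∑ E ∈ T.powerset, (-1) ^ E.card *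
        (ψ (∏ P ∈ E, P) / Ideal.absNorm (∏ P ∈ E, P)) *
        up (m ^ 2 / ((discr L).natAbs * Ideal.absNorm (f * ∏ P ∈ E, P))) (tg fun I => conj (ψ I)) τ

/-- the Rankin-Selberg series is a Hecke series of the biquadratic field -/
def RSE : Prop := ∀ (K : Type) [Field K] [NumberField K] (J : K →+* ℂ) (D : ℕ) (θ : 𝓞 K),
  Kd J D θ → ∀ (L : Type) [Field L] [NumberField L], finrank ℚ L = 2 →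
  ∀ (M : Type) [Field M] [NumberField M] [Algebra K M] [Algebra L M], finrank K M = 2 →
  (∀ x : L, ∀ y : K, algebraMap L M x = algebraMap K M y → ∃ q : ℚ, x = q) →
  ∀ (m : ℕ) (n n' : Ideal (𝓞 K)) (φ : Ideal (𝓞 L) → ℂ) (a : Ideal (𝓞 K) → ℂ), Sp m n n' →
  D.Coprime m → (discr L).natAbs ∣ m → φ 1 = 1 → φ ⊥ = 0 → (∀ I I', φ (I * I') = φ I * φ I') →
  (∀ I, ‖φ I‖ ≤ 1) → HC J 1 n' a → (∀ I, ‖a I‖ ≤ 1) → (∀ p : ℕ, p.Prime → p.Coprime m →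
    (if (Ideal.span {(p : 𝓞 L)}).IsPrime then -1 else 1) * φ (Ideal.span {(p : 𝓞 L)}) *
      a (Ideal.span {(p : 𝓞 K)}) * p = 1) →
  (∀ t k : ℕ, t ∣ m ^ 2 → co a (t * k) = a (n ^ 2 ⊔ Ideal.span {(t : 𝓞 K)}) * co a k) ∧
  (∀ P : Ideal (𝓞 L), P.IsMaximal → (m : 𝓞 L) ∈ P → ∃! Q : Ideal (𝓞 M), Q.IsMaximal ∧
    Ideal.map (algebraMap (𝓞 K) (𝓞 M)) n ≤ Q ∧ Ideal.relNorm (𝓞 L) Q = P ∧
    Ideal.relNorm (𝓞 K) Q = n ^ 2 ⊔ Ideal.span {(Ideal.absNorm P : 𝓞 K)}) ∧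
  ∀ s : ℂ, 1 < s.re → HasSum (fun I : Ideal (𝓞 M) => φ (Ideal.relNorm (𝓞 L) I) *
      a (Ideal.relNorm (𝓞 K) I) * (Ideal.absNorm I : ℂ) ^ (-s))
    ((∑' v : ℕ, (if v.Coprime m then (J(v | D) : ℂ) else 0) * (v : ℂ) ^ (-1 - 2 * s)) *
      ∑' k : ℕ, co φ k * co a k * (k : ℂ) ^ (-s))

end Vale.Agent.P004C.Wa
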