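import Vale.Agent.P004C.Wa.St

/-!
# P004 C, block WA: row THG split into an arithmetic and a modular half
-/

open NumberField Module UpperHalfPlane
open scoped Classical NumberTheorySymbols

noncomputable section

namespace Vale.Agent.P004C.Wa

/-- the character of the theta series -/
def eps {L : Type} [Field L] [NumberField L] (m : ℕ) (ψ : Ideal (𝓞 L) → ℂ) (d : ℤ) : ℂ :=
  if IsCoprime d (m : ℤ) then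
    ((d.sign * J(discr L | d.natAbs) : ℤ) : ℂ) * ψ (Ideal.span {(d : 𝓞 L)}) else 0

/-- coefficients, character, Hecke operators -/
def THA : Prop := ∀ (L : Type) [Field L] [NumberField L], finrank ℚ L = 2 →
  ∀ (sg : L → ℂ) (f : Ideal (𝓞 L)) (ψ : Ideal (𝓞 L) → ℂ), Sg sg → RC sg f ψ → f ≠ ⊤ →
  (∀ I, ψ I = 0 ∨ ∃ k, 0 < k ∧ ψ I ^ k = 1) ∧ (∀ m, QE (tg (dp m ψ)) (co (dp m ψ))) ∧
  (∃ C : ℝ, ∀ k, ‖co ψ k‖ ≤ C * (k : ℝ) ^ (1 / 8 : ℝ)) ∧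
  ∀ m₀ m : ℕ, 0 < m → (m₀ : 𝓞 L) ∈ f → 2 ∣ m₀ → (discr L).natAbs * m₀ ∣ m →
    Chr m (eps m ψ) ∧ (∀ k, k.Coprime m → Hk (eps m ψ) (tg (dp m ψ)) k (co ψ k)) ∧
    ∀ p : ℕ, p.Prime → p.Coprime m →
      eps m ψ p =
        (if (Ideal.span {(p : 𝓞 L)}).IsPrime then -1 else 1) * ψ (Ideal.span {(p : 𝓞 L)}) ∧
      ∃ x y : ℂ, ‖x‖ = 1 ∧ ‖y‖ = 1 ∧ x * y = eps m ψ p ∧ x + y = co ψ p

/-- modularity -/
def THM : Prop := ∀ (L : Type) [Field L] [NumberField L], finrank ℚ L = 2 →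
  ∀ (sg : L → ℂ) (f : Ideal (𝓞 L)) (ψ : Ideal (𝓞 L) → ℂ), Sg sg → RC sg f ψ → f ≠ ⊤ →
  ∀ m₀ m : ℕ, 0 < m → (m₀ : 𝓞 L) ∈ f → 2 ∣ m₀ → (∀ p : ℕ, p.Prime → p ∣ m → p ∣ m₀) →
    (discr L).natAbs * m₀ ∣ m → MW (m ^ 2) (eps m ψ) (tg (dp m ψ))

theorem thg (hA : THA) (hM : THM) : THG := fun L _ _ h2 sg f ψ h1 h3 h4 => by
  obtain ⟨a, b, c, d⟩ := hA L h2 sg f ψ h1 h3 h4
  refine ⟨a, b, c, fun m₀ m k1 k2 k3 k4 k5 => ?_⟩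
  obtain ⟨e1, e2, e3⟩ := d m₀ m k1 k2 k3 k5
  exact ⟨_, e1, hM L h2 sg f ψ h1 h3 h4 m₀ m k1 k2 k3 k4 k5, e2, e3⟩

end Vale.Agent.P004C.Wa
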