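import Vale.Agent.P004C.Wa.Wald
import Vale.Agent.P004C.Wa.Ker
import Vale.Agent.P004C.Wa.Lift
import Vale.Agent.P004C.Wa.Thk
import Vale.Agent.P004C.Wa.Cms
import Vale.Agent.P004C.Wa.Per
import Vale.Agent.P004C.Wa.Gen
import Vale.Agent.P004C.Wa.Gnt
import Vale.Agent.P004C.Wa.Sw
import Vale.Agent.P004C.Wa.Rs
import Vale.Agent.P004C.Wa.Rse
import Vale.Agent.P004C.Wa.Frk
import Vale.Agent.P004C.Wa.Tg
import Vale.Agent.P004C.Wa.Tha
import Vale.Agent.P004C.Wa.Thm

/-! The block WA without hypotheses. -/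

namespace Vale.Agent.P004C.Wa

theorem wald' : WALD := wald ker lift fri thk cms per_row (gen thk) gnt (sw thk) rs

theorem thg' : THG := thg tha thm

end Vale.Agent.P004C.Wa
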