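import Vale.Agent.P004C.Wa.Cj

/-!
# P004 C, block WA, row CMS: the lattice of matrices splits
-/

open NumberField Module
open scoped Classical ComplexConjugate UpperHalfPlane

noncomputable section

namespace Vale.Agent.P004C.Wa.Cms

open Cj

variable {K : Type} [Field K] [NumberField K] {J : K →+* ℂ} {D M : ℕ} {θ : 𝓞 K}
  {s : 𝓞 K ≃+* 𝓞 K} {n n' : Ideal (𝓞 K)}

theorem mem_of_cop (h : Sp M n n') {k : ℕ} (hk : k.Coprime M) {x : 𝓞 K} (hx : x * k ∈ n') :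
    x ∈ n' := by
  obtain ⟨a, b, e⟩ := Nat.isCoprime_iff_coprime.mpr hk
  have e2 : (a : 𝓞 K) * k + b * M = 1 := by exact_mod_cast congrArg (Int.cast : ℤ → 𝓞 K) e
  have : x = a * (x * k) + b * x * M := by linear_combination -x * e2
  rw [this]
  exact add_mem (Ideal.mul_mem_left _ _ hx) (Ideal.mul_mem_left _ _ (sp_m h).2)

theorem cop (h : Sp M n n') {I : Ideal (𝓞 K)} (hI : (Ideal.absNorm I).Coprime M) :
    IsCoprime n' I := by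
  obtain ⟨a, b, e⟩ := Nat.isCoprime_iff_coprime.mpr hI
  have e2 : (a : 𝓞 K) * Ideal.absNorm I + b * M = 1 := by
    exact_mod_cast congrArg (Int.cast : ℤ → 𝓞 K) e
  exact Ideal.isCoprime_iff_exists.mpr ⟨b * M, Ideal.mul_mem_left _ _ (sp_m h).2,
    a * Ideal.absNorm I, Ideal.mul_mem_left _ _ (Ideal.absNorm_mem I), by rw [add_comm, e2]⟩

theorem sup_mul (h : Sp M n n') {e f : ℕ} (hef : e * f = M) :
    (n' ⊔ Ideal.span {(e : 𝓞 K)}) * (n' ⊔ Ideal.span {(f : 𝓞 K)}) = n' := by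
  have e1 : Ideal.span {(e : 𝓞 K)} * Ideal.span {(f : 𝓞 K)} = n * n' := by
    rw [Ideal.span_singleton_mul_span_singleton, h.mul, ← hef, Nat.cast_mul]
  rw [Ideal.sup_mul, Ideal.mul_sup, Ideal.mul_sup, e1]
  refine le_antisymm (sup_le (sup_le Ideal.mul_le_left Ideal.mul_le_left)
    (sup_le Ideal.mul_le_right Ideal.mul_le_right)) ?_
  calc n' = (n ⊔ n') * n' := by rw [h.cop, Ideal.top_mul]
    _ = n * n' ⊔ n' * n' := Ideal.sup_mul _ _ _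
    _ ≤ _ := sup_le (le_sup_of_le_right le_sup_right) (le_sup_of_le_left le_sup_left)

theorem sup_nm (c : Cg J θ s) (h : Sp M n n') {e : ℕ} (he : e ∣ M) :
    Ideal.absNorm (n' ⊔ Ideal.span {(e : 𝓞 K)}) = e := by
  refine P017.H185.QF.span_natCast_inj (K := K) ?_
  rw [← c.nm, Ideal.map_sup, (c.sp h).2, Ideal.map_span, Set.image_singleton, map_natCast,
    Ideal.sup_mul, Ideal.mul_sup, Ideal.mul_sup]
  refine le_antisymm (sup_le (sup_le ?_ Ideal.mul_le_right)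
    (sup_le Ideal.mul_le_left Ideal.mul_le_left)) ?_
  · rw [mul_comm, h.mul, Ideal.span_singleton_le_span_singleton]
    exact Nat.cast_dvd_cast he
  · calc Ideal.span {(e : 𝓞 K)} = (n ⊔ n') * Ideal.span {(e : 𝓞 K)} := by
          rw [h.cop, Ideal.top_mul]
      _ = Ideal.span {(e : 𝓞 K)} * n ⊔ n' * Ideal.span {(e : 𝓞 K)} := by
          rw [Ideal.sup_mul, mul_comm n]
      _ ≤ _ := sup_le (le_sup_of_le_right le_sup_left) (le_sup_of_le_left le_sup_right)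

/-- adapted basis -/
structure Ad (θ : 𝓞 K) (s : 𝓞 K ≃+* 𝓞 K) (M : ℕ) (n' I : Ideal (𝓞 K)) (q r : 𝓞 K) : Prop where
  ne : I ≠ ⊥
  cp : (Ideal.absNorm I).Coprime M
  mem : ∀ z : 𝓞 K, z ∈ I.map s ↔ ∃ u v : ℤ, z = u * q + v * (θ * r)
  cov : q * s r + r * s q = -Ideal.absNorm I
  rm : r ∈ n' * n' * I.map s
  p1 : θ * s r + Ideal.absNorm I ∈ n'
  qt : q - θ ∈ n'

theorem ex_ad (c : Cg J θ s) (k : Kd J D θ) (h : Sp M n n') {I : Ideal (𝓞 K)} (hI : I ≠ ⊥)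
    (cp : (Ideal.absNorm I).Coprime M) {ω : K} {τ : ℍ} {p q : 𝓞 K} (b : Ba J θ s I (J ω) τ p q)
    (ha : ∀ x ∈ I, ∃ y ∈ n' ^ 2 * Ideal.span {θ}, x * ω = y ∧ y - x ∈ n) :
    ∃ r, p = θ * r ∧ Ad θ s M n' I q r := by
  have hp : (p : K) = Ideal.absNorm I * ω := J.injective (by rw [b.hp]; simp)
  have h1 : p ∈ n' * n' * I.map s * Ideal.span {θ} := by
    rw [← Ideal.span_singleton_le_iff_mem, ← Ideal.dvd_iff_le, ← mul_dvd_mul_iff_left hI,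
      show I * (n' * n' * I.map s * Ideal.span {θ}) =
        I * I.map s * (n' ^ 2 * Ideal.span {θ}) by ring, c.nm, Ideal.dvd_iff_le, Ideal.mul_le]
    intro x hx y hy
    obtain ⟨t, rfl⟩ := Ideal.mem_span_singleton'.mp hy
    obtain ⟨y, hy, e, -⟩ := ha x hx
    have : x * (t * p) = t * (Ideal.absNorm I * y) := by
      apply RingOfIntegers.ext
      simp only [map_mul, map_natCast]
      rw [show algebraMap (𝓞 K) K p = p from rfl, show algebraMap (𝓞 K) K y = y from rfl, hp, ← e]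
      ring
    rw [this]
    exact Ideal.mul_mem_left _ _ (Ideal.mul_mem_mul (Ideal.mem_span_singleton_self _) hy)
  obtain ⟨r, hr, e⟩ := Ideal.mem_mul_span_singleton.mp h1
  obtain rfl : p = θ * r := by rw [← e, mul_comm]
  have cov := b.cov
  rw [map_mul, c.st] at cov
  have p1 : θ * s r + Ideal.absNorm I ∈ n' := by
    obtain ⟨y, -, e, hy⟩ := ha _ (Ideal.absNorm_mem I)
    obtain rfl : y = θ * r := RingOfIntegers.ext (by rw [hp, ← e]; simp)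
    have := neg_mem ((c.sp_mem h).2.mpr hy)
    rw [map_sub, map_mul, c.st, map_natCast] at this
    convert this using 1
    ring
  have rn : r ∈ n' := Ideal.mul_le_left (Ideal.mul_le_left hr)
  refine ⟨r, rfl, hI, cp, b.mem, mul_left_cancel₀ (th_ne k) (by linear_combination -cov), hr, p1,
    mem_of_cop h cp ?_⟩
  have : (q - θ) * Ideal.absNorm I = q * (θ * s r + Ideal.absNorm I) + θ * s q * r := by
    linear_combination cov
  rw [this]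
  exact add_mem (Ideal.mul_mem_left _ _ p1) (Ideal.mul_mem_left _ _ rn)

section

variable {I : Ideal (𝓞 K)} {q r : 𝓞 K}

theorem Ad.nz (b : Ad θ s M n' I q r) : (Ideal.absNorm I : 𝓞 K) ≠ 0 := by
  simpa [Ideal.absNorm_eq_zero_iff] using b.ne

theorem Ad.qm (b : Ad θ s M n' I q r) : q ∈ I.map s := (b.mem q).mpr ⟨1, 0, by simp⟩

theorem Ad.ri (b : Ad θ s M n' I q r) : r ∈ I.map s := Ideal.mul_le_right b.rm

theorem Ad.rn (b : Ad θ s M n' I q r) : r ∈ n' := Ideal.mul_le_left (Ideal.mul_le_left b.rm)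

theorem Ad.ind (b : Ad θ s M n' I q r) (c : Cg J θ s) (k : Kd J D θ) {u v : ℤ}
    (e : u * q + v * (θ * r) = 0) : u = 0 ∧ v = 0 := by
  have e2 := congrArg s e
  simp only [map_add, map_mul, map_intCast, c.st, map_zero] at e2
  have h1 : (u : 𝓞 K) * Ideal.absNorm I = 0 := by
    linear_combination -s r * e - r * e2 + u * b.cov
  have h2 : (v : 𝓞 K) * (θ * Ideal.absNorm I) = 0 := by
    linear_combination -s q * e + q * e2 + v * θ * b.cov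
  exact ⟨by exact_mod_cast (mul_eq_zero.mp h1).resolve_right b.nz,
    by exact_mod_cast (mul_eq_zero.mp h2).resolve_right (mul_ne_zero (th_ne k) b.nz)⟩

theorem Ad.mem' (b : Ad θ s M n' I q r) (c : Cg J θ s) (k : Kd J D θ) {z : 𝓞 K}
    (hz : z ∈ I.map s) : ∃ u v : ℤ, z = -(u * (θ * q)) + v * r := by
  obtain ⟨u, v, e⟩ := (b.mem _).mp (Ideal.mul_mem_left _ θ hz)
  have e2 := congrArg s e
  simp only [map_add, map_mul, map_intCast, c.st] at e2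
  have h1 : s z * r ∈ Ideal.span {(Ideal.absNorm I : 𝓞 K)} :=
    c.nm I ▸ Ideal.mul_mem_mul (c.mem_map.mp hz) b.ri
  obtain ⟨w, hw⟩ := Ideal.mem_span_singleton'.mp h1
  have hw2 := congrArg s hw
  rw [map_mul, map_mul, map_natCast, c.ss] at hw2
  obtain ⟨j, hj⟩ := c.sub w
  have h2 : (u : 𝓞 K) = -(j * D) := by
    apply mul_right_cancel₀ b.nz
    linear_combination s r * e + r * e2 + u * b.cov + θ * hw2 - θ * hw +
      θ * Ideal.absNorm I * hj + j * Ideal.absNorm I * k.sq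
  refine ⟨-j, v, mul_left_cancel₀ (th_ne k) ?_⟩
  push_cast
  linear_combination e + q * h2 - j * q * k.sq

end

/-- second row -/
def uu (θ q r : 𝓞 K) (X : ℤ × ℤ × ℤ × ℤ) : 𝓞 K := X.2.2.1 * q + X.2.2.2 * (θ * r)

/-- first row -/
def vv (θ q r : 𝓞 K) (X : ℤ × ℤ × ℤ × ℤ) : 𝓞 K := -(X.1 * (θ * q)) + X.2.1 * r

/-- linear part -/
def al (θ : 𝓞 K) (s : 𝓞 K ≃+* 𝓞 K) (M : ℕ) (q₁ r₁ q₂ r₂ : 𝓞 K) (X : ℤ × ℤ × ℤ × ℤ) : 𝓞 K :=
  vv θ q₂ r₂ X * s r₁ - M * uu θ q₂ r₂ X * s q₁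

/-- antilinear part -/
def be (θ : 𝓞 K) (M : ℕ) (q₁ r₁ q₂ r₂ : 𝓞 K) (X : ℤ × ℤ × ℤ × ℤ) : 𝓞 K :=
  vv θ q₂ r₂ X * r₁ + M * uu θ q₂ r₂ X * q₁

variable {I₁ I₂ : Ideal (𝓞 K)} {q₁ r₁ q₂ r₂ : 𝓞 K}

theorem uu_mem (b₂ : Ad θ s M n' I₂ q₂ r₂) (X : ℤ × ℤ × ℤ × ℤ) : uu θ q₂ r₂ X ∈ I₂.map s :=
  (b₂.mem _).mpr ⟨_, _, rfl⟩

theorem vv_mem (b₂ : Ad θ s M n' I₂ q₂ r₂) (X : ℤ × ℤ × ℤ × ℤ) : vv θ q₂ r₂ X ∈ I₂.map s :=
  add_mem (neg_mem (Ideal.mul_mem_left _ _ (Ideal.mul_mem_left _ _ b₂.qm)))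
    (Ideal.mul_mem_left _ _ b₂.ri)

theorem sr_mem (c : Cg J θ s) (h : Sp M n n') (b₁ : Ad θ s M n' I₁ q₁ r₁) :
    s r₁ ∈ n * n * I₁ := by
  have := Ideal.mem_map_of_mem s b₁.rm
  rwa [Ideal.map_mul, Ideal.map_mul, (c.sp h).2, c.map_map] at this

theorem be_mem (h : Sp M n n') (b₁ : Ad θ s M n' I₁ q₁ r₁) (b₂ : Ad θ s M n' I₂ q₂ r₂)
    (X : ℤ × ℤ × ℤ × ℤ) : be θ M q₁ r₁ q₂ r₂ X ∈ n' * I₁.map s * I₂.map s := by
  refine add_mem ?_ ?_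
  · rw [mul_comm (vv θ q₂ r₂ X)]
    exact Ideal.mul_mem_mul (Ideal.mul_mono_left Ideal.mul_le_left b₁.rm) (vv_mem b₂ X)
  · rw [mul_right_comm (M : 𝓞 K)]
    exact Ideal.mul_mem_mul (Ideal.mul_mem_mul (sp_m h).2 b₁.qm) (uu_mem b₂ X)

theorem al_mem (c : Cg J θ s) (h : Sp M n n') (b₁ : Ad θ s M n' I₁ q₁ r₁)
    (b₂ : Ad θ s M n' I₂ q₂ r₂) (X : ℤ × ℤ × ℤ × ℤ) :
    al θ s M q₁ r₁ q₂ r₂ X ∈ n * I₁ * I₂.map s := by
  refine sub_mem ?_ ?_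
  · rw [mul_comm (vv θ q₂ r₂ X)]
    exact Ideal.mul_mem_mul (Ideal.mul_mono_left Ideal.mul_le_left (sr_mem c h b₁)) (vv_mem b₂ X)
  · rw [mul_right_comm (M : 𝓞 K)]
    exact Ideal.mul_mem_mul (Ideal.mul_mem_mul (sp_m h).1 (c.mem_map.mp b₁.qm)) (uu_mem b₂ X)

theorem al_iff (c : Cg J θ s) (k : Kd J D θ) (h : Sp M n n') (hD : D.Coprime M)
    (b₁ : Ad θ s M n' I₁ q₁ r₁) (b₂ : Ad θ s M n' I₂ q₂ r₂) {e f : ℕ} (hef : e * f = M)
    (X : ℤ × ℤ × ℤ × ℤ) :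
    al θ s M q₁ r₁ q₂ r₂ X ∈ (n' ⊔ Ideal.span {(f : 𝓞 K)}) * (n * I₁ * I₂.map s) ↔
      (M : ℤ) ∣ e * X.1 := by
  have hm := (sp_m h).2
  have h1 : al θ s M q₁ r₁ q₂ r₂ X + X.1 * (θ * q₂ * s r₁) ∈ n' := by
    have : al θ s M q₁ r₁ q₂ r₂ X + X.1 * (θ * q₂ * s r₁) =
        X.2.1 * s r₁ * r₂ - uu θ q₂ r₂ X * s q₁ * M := by
      simp only [al, vv]; ring
    rw [this]
    exact sub_mem (Ideal.mul_mem_left _ _ b₂.rn) (Ideal.mul_mem_left _ _ hm)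
  have hM : (M : 𝓞 K) = e * f := by rw [← hef, Nat.cast_mul]
  constructor
  · intro ha
    obtain ⟨x, hx, y, hy, e1⟩ := Submodule.mem_sup.mp (Ideal.mul_le_left ha)
    obtain ⟨t, rfl⟩ := Ideal.mem_span_singleton'.mp hy
    rw [← c.sp_int h]
    refine mem_of_cop h hD (mem_of_cop h b₁.cp ?_)
    have : ((e * X.1 : ℤ) : 𝓞 K) * D * Ideal.absNorm I₁ =
        θ * e * (al θ s M q₁ r₁ q₂ r₂ X + X.1 * (θ * q₂ * s r₁)) - θ * e * x - θ * t * M -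
          e * X.1 * θ * q₂ * (θ * s r₁ + Ideal.absNorm I₁) +
          e * X.1 * θ * Ideal.absNorm I₁ * (q₂ - θ) := by
      rw [← e1, hM]
      push_cast
      linear_combination (e : 𝓞 K) * X.1 * Ideal.absNorm I₁ * k.sq
    rw [this]
    exact add_mem (sub_mem (sub_mem (sub_mem (Ideal.mul_mem_left _ _ h1) (Ideal.mul_mem_left _ _ hx))
      (Ideal.mul_mem_left _ _ hm)) (Ideal.mul_mem_left _ _ b₁.p1)) (Ideal.mul_mem_left _ _ b₂.qt)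
  · intro hd
    have he : (e : ℤ) ≠ 0 := by
      have := h.pos
      rintro h0
      rw [← hef, Int.natCast_eq_zero.mp h0] at this
      simp at this
    rw [← hef, Nat.cast_mul, mul_dvd_mul_iff_left he] at hd
    obtain ⟨j, hj⟩ := hd
    have hc : IsCoprime n' (n * I₁ * I₂.map s) :=
      ((Ideal.isCoprime_iff_sup_eq.mpr h.cop).symm.mul_right (cop h b₁.cp)).mul_right
        (cop h (by rw [absNorm_map]; exact b₂.cp))
    rw [Ideal.mul_eq_inf_of_isCoprime (Ideal.isCoprime_iff_sup_eq.mpr (top_le_iff.mp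
      ((Ideal.isCoprime_iff_sup_eq.mp hc).ge.trans (sup_le_sup_right le_sup_left _))))]
    refine ⟨Submodule.mem_sup.mpr ⟨_, h1, -(j * (θ * q₂ * s r₁)) * f,
      Ideal.mem_span_singleton'.mpr ⟨_, rfl⟩, ?_⟩, al_mem c h b₁ b₂ X⟩
    rw [hj]
    push_cast
    ring

theorem ab_inj (c : Cg J θ s) (k : Kd J D θ) (h : Sp M n n') (b₁ : Ad θ s M n' I₁ q₁ r₁)
    (b₂ : Ad θ s M n' I₂ q₂ r₂) {X Y : ℤ × ℤ × ℤ × ℤ}
    (ea : al θ s M q₁ r₁ q₂ r₂ X = al θ s M q₁ r₁ q₂ r₂ Y)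
    (eb : be θ M q₁ r₁ q₂ r₂ X = be θ M q₁ r₁ q₂ r₂ Y) : X = Y := by
  have hM : (M : 𝓞 K) ≠ 0 := by exact_mod_cast h.pos.ne'
  have hD : (D : ℤ) ≠ 0 := by exact_mod_cast k.sqf.ne_zero
  simp only [al, be] at ea eb
  have ev : vv θ q₂ r₂ X = vv θ q₂ r₂ Y := by
    apply mul_right_cancel₀ b₁.nz
    linear_combination -q₁ * ea - s q₁ * eb + (vv θ q₂ r₂ X - vv θ q₂ r₂ Y) * b₁.cov
  have eu : uu θ q₂ r₂ X = uu θ q₂ r₂ Y := by
    apply mul_right_cancel₀ (mul_ne_zero hM b₁.nz)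
    linear_combination r₁ * ea - s r₁ * eb + M * (uu θ q₂ r₂ X - uu θ q₂ r₂ Y) * b₁.cov
  simp only [uu, vv] at eu ev
  obtain ⟨h1, h2⟩ := b₂.ind c k (u := X.2.2.1 - Y.2.2.1) (v := X.2.2.2 - Y.2.2.2)
    (by push_cast; linear_combination eu)
  obtain ⟨h3, h4⟩ := b₂.ind c k (u := (X.1 - Y.1) * D) (v := X.2.1 - Y.2.1)
    (by push_cast; linear_combination θ * ev + (X.1 - Y.1 : 𝓞 K) * q₂ * k.sq)
  have h5 := (mul_eq_zero.mp h3).resolve_right hD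
  exact Prod.ext (by omega) (Prod.ext (by omega) (Prod.ext (by omega) (by omega)))

theorem ab_surj (c : Cg J θ s) (k : Kd J D θ) (h : Sp M n n') (b₁ : Ad θ s M n' I₁ q₁ r₁)
    (b₂ : Ad θ s M n' I₂ q₂ r₂) {α β : 𝓞 K} (ha : α ∈ n * I₁ * I₂.map s)
    (hb : β ∈ n' * I₁.map s * I₂.map s) :
    ∃ X, al θ s M q₁ r₁ q₂ r₂ X = α ∧ be θ M q₁ r₁ q₂ r₂ X = β := by
  have m1 : α * q₁ + β * s q₁ ∈ I₂.map s * Ideal.span {(Ideal.absNorm I₁ : 𝓞 K)} := by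
    rw [← c.nm]
    refine add_mem (Ideal.le_of_dvd ⟨n, by ring⟩ (Ideal.mul_mem_mul ha b₁.qm))
      (Ideal.le_of_dvd ⟨n', by ring⟩ (Ideal.mul_mem_mul hb (c.mem_map.mp b₁.qm)))
  have m2 : β * s r₁ - α * r₁ ∈ I₂.map s * Ideal.span {(M * Ideal.absNorm I₁ : 𝓞 K)} := by
    rw [← Ideal.span_singleton_mul_span_singleton, ← c.nm, ← h.mul]
    refine sub_mem (Ideal.le_of_dvd ⟨n, by ring⟩ (Ideal.mul_mem_mul hb (sr_mem c h b₁)))
      (Ideal.le_of_dvd ⟨n', by ring⟩ (Ideal.mul_mem_mul ha b₁.rm))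
  obtain ⟨v, hv, ev⟩ := Ideal.mem_mul_span_singleton.mp m1
  obtain ⟨u, hu, eu⟩ := Ideal.mem_mul_span_singleton.mp m2
  obtain ⟨x₁, x₂, e1⟩ := b₂.mem' c k (neg_mem hv)
  obtain ⟨x₃, x₄, e2⟩ := (b₂.mem _).mp (neg_mem hu)
  refine ⟨(x₁, x₂, x₃, x₄), mul_right_cancel₀ b₁.nz ?_, mul_right_cancel₀ b₁.nz ?_⟩
  · simp only [al, uu, vv]
    rw [← e1, ← e2]
    linear_combination -s r₁ * ev + s q₁ * eu - α * b₁.cov
  · simp only [be, uu, vv]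
    rw [← e1, ← e2]
    linear_combination -r₁ * ev - q₁ * eu - β * b₁.cov

end Vale.Agent.P004C.Wa.Cms
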