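import Vale.Agent.P004C.Wa.St
import Vale.Agent.P004Z.Kf.Inv

/-! # P004 C, block WA: the plus space and the minus space are orthogonal -/

open UpperHalfPlane CongruenceSubgroup MeasureTheory ModularGroup
open scoped MatrixGroups ComplexConjugate NumberTheorySymbols ENNReal

noncomputable section

namespace Vale.Agent.P004C.Wa.Ge

open Vale.Agent.P004Z.W2 Vale.Agent.P004.H26.H86

theorem unf (Γ : Subgroup SL(2, ℤ)) {V : ℍ → ℝ≥0∞} (m : Measurable V) :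
    ∑' δ : Γ, ∫⁻ z, wt Γ z * V (δ.1 • z) = 2 * ∫⁻ z, V z := by
  have := sl_countable
  have w := wt_wt Γ
  rw [← (Equiv.inv Γ).tsum_eq, ← lintegral_const_mul _ m, tsum_congr fun δ : Γ =>
    ((mpS δ.1).lintegral_comp_emb (embS _) _).symm]
  simp only [Equiv.inv_apply, Subgroup.coe_inv, inv_smul_smul]
  rw [← lintegral_tsum (f := fun (δ : Γ) z => wt Γ (δ.1 • z) * V z) fun δ =>
    ((w.meas.comp (mpS _).measurable).mul m).aemeasurable]
  exact lintegral_congr_ae (w.two.mono fun z k => by simp only [ENNReal.tsum_mul_right, k])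

/-- change of the group -/
theorem map_fm {Γ₁ Γ₂ : Subgroup SL(2, ℤ)} {ι : Type} (g : GL (Fin 2) ℝ) (e : ι × Γ₂ ≃ Γ₁)
    (s : ι → SL(2, ℤ)) (he : ∀ i δ (z : ℍ), (e (i, δ)).1 • g • z = s i • g • δ.1 • z)
    {Φ : ℍ → ℂ} (m : Measurable Φ) (h : ∀ γ ∈ Γ₁, ∀ z, Φ (γ • z) = Φ z) :
    (fm Γ₂).map (fun z => Φ (g • z)) = (∑' _ : ι, (1 : ℝ≥0∞)) • (fm Γ₁).map Φ := by
  have := sl_countable
  have w1 := wt_wt Γ₁
  have w2 := wt_wt Γ₂
  have m' : Measurable fun z : ℍ => Φ (g • z) := m.comp (mp g).measurable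
  refine Measure.ext_of_lintegral _ fun φ p => ?_
  have mU : Measurable fun z => wt Γ₁ z * φ (Φ z) := w1.meas.mul (p.comp m)
  rw [lintegral_smul_measure, lintegral_map p m', lintegral_map p m, fm, fm,
    lintegral_withDensity_eq_lintegral_mul _ w2.meas (g := fun z => φ (Φ (g • z))) (p.comp m'),
    lintegral_withDensity_eq_lintegral_mul _ w1.meas (g := fun z => φ (Φ z)) (p.comp m)]
  refine (ENNReal.mul_right_inj two_ne_zero ENNReal.ofNat_ne_top).1 ?_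
  calc _ = ∫⁻ z, ∑' γ : Γ₁, wt Γ₂ z * (wt Γ₁ (γ.1 • g • z) * φ (Φ (γ.1 • g • z))) := by
        rw [← lintegral_const_mul' _ _ ENNReal.ofNat_ne_top]
        refine lintegral_congr_ae (((mp g).quasiMeasurePreserving.ae w1.two).mono fun z k => ?_)
        simp only [Pi.mul_apply, fun γ : Γ₁ => h _ γ.2, ENNReal.tsum_mul_left,
          ENNReal.tsum_mul_right, k, mul_left_comm]
    _ = ∑' _ : ι, 2 * ∫⁻ z, wt Γ₁ z * φ (Φ z) := by
        refine (lintegral_tsum fun γ : Γ₁ => (w2.meas.mul (mU.comp ((mpS γ.1).comp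
          (mp g)).measurable)).aemeasurable).trans ?_
        rw [← e.tsum_eq, ENNReal.tsum_prod']
        refine tsum_congr fun i => ?_
        simp only [Pi.mul_apply, Function.comp, he]
        exact (unf Γ₂ (mU.comp ((mpS (s i)).comp (mp g)).measurable)).trans
          (congrArg _ (((mpS (s i)).comp (mp g)).lintegral_comp mU))
    _ = _ := by
        rw [smul_eq_mul, ← ENNReal.tsum_mul_right, ← ENNReal.tsum_mul_left]
        simp only [one_mul, Pi.mul_apply]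

theorem int_nrm (Γ : Subgroup SL(2, ℤ)) [Γ.Normal] (γ : SL(2, ℤ)) {Φ : ℍ → ℂ} (m : Measurable Φ)
    (h : ∀ δ ∈ Γ, ∀ z, Φ (δ • z) = Φ z) : ∫ z, Φ (γ • z) ∂fm Γ = ∫ z, Φ z ∂fm Γ := by
  have := map_fm (ι := Unit) γ ((Equiv.punitProd Γ).trans (MulAut.conjNormal γ).toEquiv) 1
    (fun _ δ z => by simp [← sl_moeb, mul_smul]) m h
  rw [tsum_fintype, Finset.univ_unique, Finset.sum_singleton, one_smul] at this
  exact (integral_map (f := id) (m.comp (mpS γ).measurable).aemeasurable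
    aestronglyMeasurable_id).symm.trans (this ▸ integral_map m.aemeasurable aestronglyMeasurable_id)

theorem int_zero {Γ₁ Γ₂ : Subgroup SL(2, ℤ)} [Γ₂.FiniteIndex] (g : GL (Fin 2) ℝ) (φ : Γ₂ →* Γ₁)
    (hφ : Function.Injective φ) (he : ∀ δ (z : ℍ), (φ δ).1 • g • z = g • δ.1 • z)
    {Φ : ℍ → ℂ} (m : Measurable Φ) (h : ∀ γ ∈ Γ₁, ∀ z, Φ (γ • z) = Φ z)
    (k : ∫ z, Φ (g • z) ∂fm Γ₂ = 0) : ∫ z, Φ z ∂fm Γ₁ = 0 := by
  have m' : Measurable fun z : ℍ => Φ (g • z) := m.comp (mp g).measurable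
  have e := map_fm g (Equiv.ofBijective (fun x : (Γ₁ ⧸ φ.range) × Γ₂ => x.1.out * φ x.2)
    ⟨fun x y e => by
      have e1 : x.1 = y.1 := by simpa using congrArg (QuotientGroup.mk (s := φ.range)) e
      exact Prod.ext e1 (hφ (by simpa [e1] using e)), fun γ => by
      obtain ⟨⟨_, δ, rfl⟩, e⟩ := QuotientGroup.mk_out_eq_mul φ.range γ
      exact ⟨(γ, δ⁻¹), by simp [e]⟩⟩) (fun q => q.out.1) (fun i δ z => by
      rw [← he, ← mul_smul]; rfl) m h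
  have n0 : (∑' _ : Γ₁ ⧸ φ.range, (1 : ℝ≥0∞)) ≠ 0 := by simp
  generalize (∑' _ : Γ₁ ⧸ φ.range, (1 : ℝ≥0∞)) = n at *
  rw [← integral_map (f := fun x => x) m'.aemeasurable aestronglyMeasurable_id, e,
    integral_smul_measure] at k
  rw [← integral_map (f := fun x => x) m.aemeasurable aestronglyMeasurable_id]
  by_cases t : n = ⊤
  · have := measure_ne_top ((fm Γ₂).map fun z => Φ (g • z)) Set.univ
    rw [e, t, Measure.smul_apply, smul_eq_mul, ENNReal.top_mul'] at this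
    rw [Measure.measure_univ_eq_zero.1 (by_contra fun j => this (if_neg j)), integral_zero_measure]
  · exact (smul_eq_zero.1 k).resolve_left (ENNReal.toReal_ne_zero.2 ⟨n0, t⟩)

variable (r : ℕ) [NeZero r]

/-- `τ ↦ τ / r` -/
def dg : GL (Fin 2) ℝ := .mkOfDetNeZero !![1, 0; 0, r] (by simp [NeZero.ne r])

theorem coe_dg (z : ℍ) : ((dg r • z : ℍ) : ℂ) = z / r := by
  rw [coe_smul_of_det_pos (by simp [dg, NeZero.pos r])]
  simp [dg, num, denom]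

/-- the conjugate matrix -/
def cj (γ : SL(2, ℤ)) (h : (r : ℤ) ∣ γ 0 1) : SL(2, ℤ) :=
  ⟨!![γ 0 0, γ 0 1 / r; r * γ 1 0, γ 1 1], by
    have := γ.det_coe
    rw [Matrix.det_fin_two] at this
    rw [Matrix.det_fin_two_of]
    linear_combination this - γ 1 0 * Int.ediv_mul_cancel h⟩

theorem cj_mul (γ δ : SL(2, ℤ)) (h h' h'') : cj r (γ * δ) h'' = cj r γ h * cj r δ h' := by
  have ⟨a, ha⟩ := h
  have ⟨b, hb⟩ := h'
  have r0 : (r : ℤ) ≠ 0 := Int.natCast_ne_zero.2 (NeZero.ne r)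
  refine Subtype.ext ?_
  change (!![_, _; _, _] : Matrix _ _ ℤ) = !![_, _; _, _] * !![_, _; _, _]
  simp only [Matrix.mul_fin_two, Matrix.SpecialLinearGroup.coe_mul, Matrix.mul_apply,
    Fin.sum_univ_two, ha, hb, mul_left_comm _ (r : ℤ), mul_assoc, ← mul_add,
    Int.mul_ediv_cancel_left _ r0]

theorem jj_ne (γ : SL(2, ℤ)) (z : ℍ) : jj γ z ≠ 0 := denom_ne_zero γ z

theorem jj_cj (γ : SL(2, ℤ)) (h : (r : ℤ) ∣ γ 0 1) (z : ℍ) : jj (cj r γ h) (dg r • z) = jj γ z := by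
  have : (r : ℂ) ≠ 0 := Nat.cast_ne_zero.2 (NeZero.ne r)
  simp only [jj, coe_dg, cj]
  simp
  field_simp

theorem coe_sm (γ : SL(2, ℤ)) (z : ℍ) : ((γ • z : ℍ) : ℂ) = (γ 0 0 * z + γ 0 1) / jj γ z := by
  simpa [jj] using coe_specialLinearGroup_apply γ z

theorem cj_smul (γ : SL(2, ℤ)) (h : (r : ℤ) ∣ γ 0 1) (z : ℍ) :
    cj r γ h • dg r • z = dg r • γ • z := by
  have : (r : ℂ) ≠ 0 := Nat.cast_ne_zero.2 (NeZero.ne r)
  refine UpperHalfPlane.ext ?_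
  rw [coe_sm, jj_cj, coe_dg, coe_dg, coe_sm]
  simp [cj, Int.cast_div h this]
  field_simp

theorem im_law (γ : SL(2, ℤ)) (z : ℍ) :
    jj γ z ^ 2 * conj (jj γ z) ^ 2 * ((γ • z).im : ℂ) ^ 2 = z.im ^ 2 := by
  have := jj_ne γ z
  have : conj (jj γ z) ≠ 0 := (map_ne_zero _).2 this
  rw [ModularGroup.im_smul_eq_div_normSq, Complex.ofReal_div, ← Complex.mul_conj,
    show denom γ z = jj γ z from rfl]
  field_simp

variable {r}

theorem core {n : ℕ} [NeZero n] (hr : r.Prime) (h2 : r ≠ 2) (cop : n.Coprime r) {F θ : ℍ → ℂ}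
    {ψ ψ' : ℤ → ℂ} (mF : Measurable F) (mθ : Measurable θ)
    (lF : ∀ γ ∈ Gamma0 (r * n), ∀ τ, F (γ • τ) = ψ (γ 1 1) * jj γ τ ^ 2 * F τ)
    (lθ : ∀ γ ∈ Gamma0 (r * n), ∀ τ, θ (γ • τ) = ψ' (γ 1 1) * conj (jj γ τ) ^ 2 * θ τ)
    (h0 : ∀ γ ∈ Gamma0 (r * n), ψ (γ 1 1) * ψ' (γ 1 1) = 1)
    (h1 : ∀ d, (n : ℤ) ∣ d - 1 → ψ d = J(d | r))
    (bd : ∀ j : ℤ, ∃ C, ∀ τ σ : ℍ, (σ : ℂ) = τ + j / r → ‖F σ * θ τ * τ.im ^ 2‖ ≤ C)
    {n₁ n₂ : ℤ} (hJ : J(n₁ * n₂ | r) = -1)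
    (sF : ∀ (τ : ℂ) (σ : ℕ → ℍ), (∀ j, (σ j : ℂ) = τ + j / r) →
      ∑ j ∈ Finset.range r, ee (-n₁ * j / r) * F (σ j) = 0)
    (sθ : ∀ (τ : ℂ) (σ : ℕ → ℍ), (∀ j, (σ j : ℂ) = τ + j / r) →
      ∑ j ∈ Finset.range r, ee (n₂ * j / r) * θ (σ j) = 0) :
    ∫ τ, F τ * θ τ * τ.im ^ 2 ∂fm (Gamma0 (r * n)) = 0 := by
  have mi : Measurable fun τ : ℍ => (τ.im : ℂ) ^ 2 := by fun_prop
  have c0 : ∀ γ h, (n : ℤ) ∣ γ 1 0 → cj r γ h ∈ Gamma0 (r * n) := fun γ h k =>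
    Gamma0_mem.2 ((ZMod.intCast_zmod_eq_zero_iff_dvd _ _).2 (by
      simpa [cj] using mul_dvd_mul_left (r : ℤ) k))
  have gm : ∀ γ ∈ Gamma (r * n), (r : ℤ) ∣ γ 0 1 ∧ (r * n : ℤ) ∣ γ 0 0 - 1 ∧ (r * n : ℤ) ∣ γ 1 0 ∧
      (r * n : ℤ) ∣ γ 1 1 - 1 := fun γ hγ => by
    obtain ⟨a, b, c, d⟩ := Gamma_mem.1 hγ
    have z := fun x : ℤ => (ZMod.intCast_zmod_eq_zero_iff_dvd x (r * n)).1
    simp only [Nat.cast_mul] at z
    exact ⟨(dvd_mul_right _ _).trans (z _ b), z _ (by simp [a]), z _ c, z _ (by simp [d])⟩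
  let Ψ : ℤ → ℍ → ℂ := fun i τ => F (dg r • T ^ i • τ) * θ (dg r • τ) * (dg r • τ).im ^ 2
  have sh : ∀ (i : ℤ) (τ : ℍ), ((dg r • T ^ i • τ : ℍ) : ℂ) = (dg r • τ : ℍ) + i / r := fun i τ => by
    rw [coe_dg, coe_dg, coe_T_zpow_smul_eq, add_div]
  have mΨ : ∀ i, Measurable (Ψ i) := fun i =>
    ((mF.comp ((mp _).comp (mpS _)).measurable).mul (mθ.comp (mp _).measurable)).mul
      (mi.comp (mp _).measurable)
  have bΨ : ∀ i (γ : SL(2, ℤ)), Integrable (fun τ => Ψ i (γ • τ)) (fm (Gamma (r * n))) :=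
    fun i γ => (bd i).elim fun C k => .of_bound ((mΨ i).comp (mpS γ).measurable).aestronglyMeasurable
      C (.of_forall fun τ => k _ _ (sh i _))
  have key : ∀ (i j : ℤ) (γ : SL(2, ℤ)), (r : ℤ) ∣ γ 0 1 → (n : ℤ) ∣ γ 1 0 → (n : ℤ) ∣ γ 1 1 - 1 →
      J(γ 1 1 | r) = 1 → (r : ℤ) ∣ γ 0 1 + i * γ 1 1 - j * (γ 0 0 + i * γ 1 0) → ∀ τ,
      Ψ i (γ • τ) = J(γ 1 1 - j * γ 1 0 | r) * Ψ j τ := fun i j γ a b c d e τ => by
    obtain ⟨γ', e0, e1, e2, e3⟩ : ∃ γ' : SL(2, ℤ), T ^ i • γ • τ = γ' • T ^ j • τ ∧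
        γ' 0 1 = γ 0 1 + i * γ 1 1 - j * (γ 0 0 + i * γ 1 0) ∧ γ' 1 0 = γ 1 0 ∧
        γ' 1 1 = γ 1 1 - j * γ 1 0 := ⟨T ^ i * γ * T ^ (-j), by simp [mul_smul], by
      refine ⟨?_, ?_, ?_⟩ <;> simp [coe_T_zpow, Matrix.mul_apply, Matrix.vecMul, Matrix.vecHead,
        Matrix.vecTail, -zpow_neg] <;> ring⟩
    have k := h0 _ (c0 γ a b)
    have k1 := im_law (cj r γ a) (dg r • τ)
    simp only [Ψ]
    rw [e0, ← cj_smul r γ a, ← cj_smul r γ' (e1 ▸ e), lF _ (c0 _ _ (e2 ▸ b)), lθ _ (c0 _ _ b), jj_cj,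
      show jj γ' (T ^ j • τ) = jj γ τ by
        rw [jj, jj, e2, e3, coe_T_zpow_smul_eq]; push_cast; ring,
      show cj r γ' _ 1 1 = γ' 1 1 from rfl, e3, h1 _ (by
        rw [sub_right_comm]; exact dvd_sub c (b.mul_left _))]
    rw [show cj r γ a 1 1 = γ 1 1 from rfl, h1 _ c, d, Int.cast_one, one_mul] at k
    rw [jj_cj] at k1 ⊢
    rw [show cj r γ a 1 1 = γ 1 1 from rfl, k, ← k1]
    ring
  have inv : ∀ i, ∀ γ ∈ Gamma (r * n), ∀ τ, Ψ i (γ • τ) = Ψ i τ := fun i γ hγ τ => by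
    obtain ⟨a, ⟨b, hb⟩, ⟨c, hc⟩, ⟨d, hd⟩⟩ := gm γ hγ
    have j : ∀ x : ℤ, (r : ℤ) ∣ x - 1 → J(x | r) = 1 := fun x hx =>
      (jacobiSym.mod_left' (Int.modEq_iff_dvd.2 hx).symm).trans (jacobiSym.one_left r)
    rw [key i i γ a ⟨r * c, by rw [hc]; ring⟩ ⟨r * d, by rw [hd]; ring⟩ (j _ ⟨n * d, by rw [hd]; ring⟩)
      (by
        rw [add_sub_assoc]
        exact dvd_add a ⟨i * n * (d - b - i * c), by linear_combination i * hd - i * hb - i * i * hc⟩),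
      j _ ⟨n * (d - i * c), by linear_combination hd - i * hc⟩, Int.cast_one, one_mul]
  have := Gamma_normal (r * n)
  have nr := fun i γ => int_nrm _ γ (mΨ i) (inv i)
  obtain ⟨u, v, huv⟩ := Nat.isCoprime_iff_coprime.2 cop
  have rel : ∀ i : ℤ, ¬ (r : ℤ) ∣ i → ∫ τ, Ψ i τ ∂fm (Gamma (r * n)) =
      J(i | r) * ∫ τ, Ψ 1 τ ∂fm (Gamma (r * n)) := fun i hi => by
    obtain ⟨a, b, hab⟩ := ((Nat.prime_iff_prime_int.1 hr).irreducible.coprime_iff_not_dvd.2 hi)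
    rw [← nr i ⟨!![1, 0; (1 - b) * u * n, 1], by simp⟩, ← integral_const_mul]
    refine integral_congr_ae (.of_forall fun τ => (key i 1 _ (by simp) (by simp) (by simp) (by simp)
      ⟨i * (1 - b) * v - a, by simp; linear_combination -i * (1 - b) * huv + hab⟩ τ).trans ?_)
    have e : J(b | r) * J(i | r) = 1 := by
      rw [← jacobiSym.mul_left, ← jacobiSym.one_left r]
      exact jacobiSym.mod_left' (Int.modEq_iff_dvd.2 ⟨a, by linear_combination -hab⟩)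
    rw [← Int.eq_of_mul_eq_one e, jacobiSym.mod_left' (a₂ := b) (Int.modEq_iff_dvd.2
      ⟨-(1 - b) * v, by simp; linear_combination (1 - b) * huv⟩)]
  have fin : ∀ (k s : ℤ), s = 1 ∨ s = -1 → ∑ j ∈ Finset.range r, ee (k * j / r) *
      ∫ τ, Ψ (s * j) τ ∂fm (Gamma (r * n)) = ∫ τ, Ψ 0 τ ∂fm (Gamma (r * n)) +
      J(s * k | r) * P004Z.gs r * ∫ τ, Ψ 1 τ ∂fm (Gamma (r * n)) := fun k s hs => by
    rw [jacobiSym.mul_left, Int.cast_mul, mul_assoc _ _ (P004Z.gs r),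
      ← P004Z.Kf.twg r k (hr.odd_of_ne_two h2) hr.squarefree, Finset.mul_sum, Finset.sum_mul,
      ← Finset.sum_ite_eq_of_mem' _ 0 (fun _ => ∫ τ, Ψ 0 τ ∂fm (Gamma (r * n)))
        (Finset.mem_range.2 hr.pos), ← Finset.sum_add_distrib]
    refine Finset.sum_congr rfl fun j hj => ?_
    split_ifs with e
    · simp [e, ee, jacobiSym.zero_left hr.one_lt]
    · rw [rel _ fun k => e (Nat.eq_zero_of_dvd_of_lt (by
        rcases hs with rfl | rfl <;> simpa [Int.natCast_dvd_natCast] using k)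
        (Finset.mem_range.1 hj)), jacobiSym.mul_left, show ee _ = P004Z.ee _ from rfl]
      push_cast
      ring
  have i0 := fun i => (by simpa using bΨ i 1 : Integrable (Ψ i) _)
  have z1 := fin (-n₁) 1 (.inl rfl)
  have z2 := fin n₂ (-1) (.inr rfl)
  simp only [one_mul, ← integral_const_mul] at z1
  rw [← integral_finsetSum _ fun j _ => (i0 _).const_mul _, integral_congr_ae (g := 0)
    (.of_forall fun τ => by
      simp only [Ψ, ← mul_assoc, ← Finset.sum_mul, Int.cast_neg]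
      rw [sF _ _ fun j => by simpa using sh j τ, zero_mul, zero_mul, Pi.zero_apply])] at z1
  rw [Finset.sum_congr rfl fun (j : ℕ) _ => by rw [← nr _ (T ^ (j : ℤ)), ← integral_const_mul],
    ← integral_finsetSum _ fun j _ => (bΨ _ _).const_mul _, integral_congr_ae (g := 0)
    (.of_forall fun τ => by
      have : ∀ j : ℤ, (dg r • T ^ j • τ).im = (dg r • τ).im := fun j => by
        simpa using congrArg Complex.im (sh j τ)
      simp only [Ψ, neg_one_mul, zpow_neg, inv_smul_smul, this, mul_comm (F _), ← mul_assoc,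
        ← Finset.sum_mul]
      rw [sθ _ _ fun j => by simpa using sh j τ, zero_mul, zero_mul, Pi.zero_apply])] at z2
  refine int_zero (Γ₂ := Gamma (r * n)) (dg r) (MonoidHom.mk'
    (fun γ => ⟨cj r γ (gm _ γ.2).1, c0 _ _ ((dvd_mul_left _ _).trans (gm _ γ.2).2.2.1)⟩)
    fun γ δ => Subtype.ext (cj_mul r _ _ (gm _ γ.2).1 (gm _ δ.2).1 (gm _ (γ * δ).2).1))
    (fun γ δ e => ?_) (fun δ z => cj_smul r _ (gm _ δ.2).1 z) ((mF.mul mθ).mul mi)
    (fun γ hγ τ => ?_) ?_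
  · have e := fun i j => congrArg (fun γ : Gamma0 (r * n) => γ.1 i j) e
    ext i j
    fin_cases i <;> fin_cases j
    · exact e 0 0
    · exact (Int.ediv_left_inj (gm _ γ.2).1 (gm _ δ.2).1).1 (e 0 1)
    · exact mul_left_cancel₀ (Int.natCast_ne_zero.2 hr.ne_zero) (e 1 0)
    · exact e 1 1
  · rw [lF γ hγ, lθ γ hγ, ← im_law γ τ]
    linear_combination jj γ τ ^ 2 * conj (jj γ τ) ^ 2 * F τ * θ τ * (γ • τ).im ^ 2 * h0 γ hγ
  · have e : J(-n₁ | r) + J(-1 * n₂ | r) = 0 := by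
      rw [jacobiSym.mul_left] at hJ
      rw [← neg_one_mul, jacobiSym.mul_left, jacobiSym.mul_left, ← mul_add]
      rcases Int.eq_one_or_neg_one_of_mul_eq_neg_one' hJ with k | k <;> simp [k]
    have e' := congrArg (Int.cast (R := ℂ)) e
    simp only [integral_const_mul, integral_zero', Ψ, zpow_zero, one_smul, Int.cast_add,
      Int.cast_zero] at z1 z2 e'
    linear_combination -z1 / 2 - z2 / 2 - P004Z.gs r * (∫ τ, F (dg r • T ^ (1 : ℤ) • τ) *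
      θ (dg r • τ) * (dg r • τ).im ^ 2 ∂fm (Gamma (r * n))) / 2 * e'

end Vale.Agent.P004C.Wa.Ge
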