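import Vale.Agent.P004C.Wa.Gen0

/-! # P004 C, block WA: growth at the cusps -/

open UpperHalfPlane CongruenceSubgroup ModularGroup
open Complex hiding Gamma
open scoped MatrixGroups ComplexConjugate Modular ModularForm

noncomputable section

namespace Vale.Agent.P004C.Wa.Ge

/-- the height is at most `Y` -/
def Ht (Y : ℝ) (τ : ℍ) : Prop := ∀ p q : ℤ, p ≠ 0 ∨ q ≠ 0 → τ.im ≤ Y * normSq (p * τ + q : ℂ)

theorem ht_fd {z : ℍ} (h : z ∈ 𝒟) : Ht z.im z := fun p q k => by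
  refine le_mul_of_one_le_right z.im_pos.le ?_
  have h1 : 1 ≤ z.re * z.re + z.im * z.im := by simpa [normSq_apply] using h.1
  have h2 := abs_le.1 h.2
  have h3 : (1 : ℝ) ≤ p ^ 2 - |(p : ℝ) * q| + q ^ 2 := by
    have : 0 < p ^ 2 - |p * q| + q ^ 2 := by
      rw [abs_mul, ← sq_abs p, ← sq_abs q]
      rcases k with k | k <;> nlinarith [abs_pos.2 k, sq_nonneg (|p| - 2 * |q|),
        sq_nonneg (2 * |p| - |q|)]
    exact_mod_cast this
  simp only [normSq_apply, add_re, mul_re, intCast_re, intCast_im, coe_re, coe_im, add_im, mul_im]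
  cases abs_cases ((p : ℝ) * q) <;> nlinarith [sq_nonneg (p : ℝ)]

theorem Ht.smul {Y : ℝ} {z : ℍ} (h : Ht Y z) (γ : SL(2, ℤ)) : Ht Y (γ • z) := fun p q k => by
  have j := jj_ne γ z
  have d := γ.det_coe
  rw [Matrix.det_fin_two] at d
  have := h (p * γ 0 0 + q * γ 1 0) (p * γ 0 1 + q * γ 1 1) (by
    by_contra n
    push Not at n
    rcases k with k | k
    · exact k (by linear_combination -p * d + γ 1 1 * n.1 - γ 1 0 * n.2)
    · exact k (by linear_combination -q * d - γ 0 1 * n.1 + γ 0 0 * n.2))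
  rw [ModularGroup.im_smul_eq_div_normSq, show denom γ z = jj γ z from rfl,
    div_le_iff₀ (normSq_pos.2 j), mul_assoc, ← map_mul, coe_sm, add_mul, mul_assoc,
    div_mul_cancel₀ _ j]
  refine this.trans_eq (congrArg _ (congrArg _ ?_))
  rw [jj]
  push_cast
  ring

theorem Ht.up {Y : ℝ} {τ σ : ℍ} (h : Ht Y τ) {A D : ℕ} {B : ℤ} (hA : 0 < A) (hD : 0 < D)
    (e : (σ : ℂ) = (A * τ + B) / D) : Ht (A * D * Y) σ := fun p q k => by
  have D0 : (0 : ℝ) < D := Nat.cast_pos.2 hD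
  have D' : (D : ℂ) ≠ 0 := Nat.cast_ne_zero.2 hD.ne'
  have := h (p * A) (p * B + q * D) (by
    rcases eq_or_ne p 0 with rfl | n
    · exact .inr (by simpa [hD.ne'] using k)
    · exact .inl (by positivity))
  rw [← coe_im, e, show (p * ((A * τ + B) / D) + q : ℂ) =
    ((p * A : ℤ) * τ + (p * B + q * D : ℤ)) / D by push_cast; field_simp; ring, map_div₀,
    normSq_natCast]
  simp only [div_natCast_im, add_im, mul_im, natCast_re, natCast_im, coe_im, intCast_im]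
  generalize normSq _ = n at *
  rw [zero_mul, add_zero, add_zero, div_le_iff₀ D0,
    show A * D * Y * (n / (D * D)) * D = A * (Y * n) by field_simp]
  gcongr

theorem unif {Γ : Subgroup SL(2, ℤ)} [Γ.FiniteIndex] {W b : ℍ → ℝ} (hb : ∀ z, 0 ≤ b z)
    (i : ∀ δ ∈ Γ, ∀ z, W (δ • z) = W z) (h : ∀ γ : SL(2, ℤ), ∃ C, ∀ z ∈ 𝒟, W (γ • z) ≤ C * b z) :
    ∃ C, 0 ≤ C ∧ ∀ γ : SL(2, ℤ), ∀ z ∈ 𝒟, W (γ • z) ≤ C * b z := by
  choose C k using h
  obtain ⟨B, hB⟩ := (Set.finite_range fun q : SL(2, ℤ) ⧸ Γ => C q.out⁻¹).bddAbove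
  refine ⟨|B|, abs_nonneg _, fun γ z hz => ?_⟩
  obtain ⟨δ, e⟩ := QuotientGroup.mk_out_eq_mul Γ γ⁻¹
  have := k (γ⁻¹ * δ)⁻¹ z hz
  rw [mul_inv_rev, inv_inv, mul_smul, i _ (inv_mem δ.2), ← inv_inv γ, ← mul_inv_rev, ← e,
    inv_inv] at this
  exact this.trans (mul_le_mul_of_nonneg_right ((hB ⟨_, rfl⟩).trans (le_abs_self _)) (hb z))

theorem im_sm (γ : SL(2, ℤ)) (z : ℍ) : (γ • z).im = z.im / ‖jj γ z‖ ^ 2 := by
  rw [ModularGroup.im_smul_eq_div_normSq, normSq_eq_norm_sq]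
  rfl

theorem gm {N : ℕ} {γ : SL(2, ℤ)} (h : γ ∈ Gamma N) : γ ∈ Gamma0 N ∧ (N : ℤ) ∣ γ 1 1 - 1 :=
  ⟨(Gamma_mem.1 h).2.2.1, (ZMod.intCast_zmod_eq_zero_iff_dvd _ _).1 (by
    simp [(Gamma_mem.1 h).2.2.2])⟩

theorem mw_le {N : ℕ} [NeZero N] {ε : ℤ → ℂ} {G : ℍ → ℂ} (h : MW N ε G)
    (hε : ∀ d, (N : ℤ) ∣ d - 1 → ε d = 1) :
    ∃ C, 0 ≤ C ∧ ∀ Y σ, Ht Y σ → ‖G σ‖ ^ 2 * σ.im ≤ C * Y := by
  have n := fun γ z => norm_ne_zero_iff.2 (jj_ne γ z)
  obtain ⟨C, C0, k⟩ := unif (Γ := Gamma N) (W := fun z => ‖G z‖ ^ 2 * z.im) (b := fun z => z.im)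
    (fun z => z.im_pos.le) (fun δ hδ z => by
      have := n δ z
      simp only [h.law δ (gm hδ).1, hε _ (gm hδ).2, im_sm, norm_mul, one_mul]
      field_simp) fun γ => by
      obtain ⟨F, hF⟩ := exists_bound_fundamental_domain_of_isBigO (t := 0)
        (h.hol.slash 1 γ).continuous (by simpa only [Real.rpow_zero] using! h.bdd γ)
      refine ⟨F ^ 2, fun z hz => ?_⟩
      have := hF z hz
      rw [Real.rpow_zero, mul_one, ← ModularForm.SL_slash, ModularForm.SL_slash_apply, norm_mul,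
        zpow_neg, zpow_one, norm_inv, show denom γ z = jj γ z from rfl] at this
      rw [im_sm, ← mul_div_assoc, mul_div_right_comm, ← div_pow, div_eq_mul_inv]
      gcongr
  refine ⟨C, C0, fun Y σ hσ => ?_⟩
  obtain ⟨g, hg⟩ := exists_smul_mem_fd σ
  have := k g⁻¹ _ hg
  rw [inv_smul_smul] at this
  exact this.trans (mul_le_mul_of_nonneg_left (by simpa using hσ.smul g 0 1 (by simp)) C0)

theorem th_le {Γ : Subgroup SL(2, ℤ)} [Γ.FiniteIndex] {θ : ℍ → ℂ}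
    (i : ∀ δ ∈ Γ, ∀ z, θ (δ • z) = conj (jj δ z) ^ 2 * θ z)
    (h : ∀ γ : SL(2, ℤ), ∃ B c : ℝ, 0 < c ∧ ∀ τ : ℍ, 1 / 2 ≤ τ.im →
      ‖θ (γ • τ)‖ ≤ B * ‖jj γ τ‖ ^ 2 * Real.exp (-(c * τ.im))) :
    ∃ B, ∀ τ, ∃ Y, 0 < Y ∧ Ht Y τ ∧ ‖θ τ‖ * τ.im ≤ B * Y⁻¹ := by
  have n := fun γ z => norm_pos_iff.2 (jj_ne γ z)
  obtain ⟨C, -, k⟩ := unif (Γ := Γ) (W := fun z => ‖θ z‖ * z.im) (b := fun z => z.im⁻¹)
    (fun z => inv_nonneg.2 z.im_pos.le) (fun δ hδ z => by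
      have := n δ z
      simp only [i δ hδ, im_sm, norm_mul, norm_pow, norm_conj]
      field_simp) fun γ => by
      obtain ⟨B, c, c0, hB⟩ := h γ
      refine ⟨|B| * (2 / c ^ 2), fun z hz => ?_⟩
      have y := z.im_pos
      have := n γ z
      have e := Real.pow_div_factorial_le_exp _ (mul_pos c0 y).le 2
      calc _ ≤ |B| * ‖jj γ z‖ ^ 2 * Real.exp (-(c * z.im)) * (z.im / ‖jj γ z‖ ^ 2) := by
            rw [im_sm]
            gcongr ?_ * _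
            exact (hB z (by nlinarith [three_le_four_mul_im_sq_of_mem_fd hz])).trans
              (by gcongr; exact le_abs_self _)
        _ = |B| * ((Real.exp (c * z.im))⁻¹ * z.im) := by rw [Real.exp_neg]; field_simp
        _ ≤ |B| * (((c * z.im) ^ 2 / (2 : ℕ).factorial)⁻¹ * z.im) := by gcongr
        _ = _ := by simp; field_simp
  refine ⟨C, fun τ => ?_⟩
  obtain ⟨g, hg⟩ := exists_smul_mem_fd τ
  exact ⟨_, (g • τ).im_pos, by simpa using (ht_fd hg).smul g⁻¹, by simpa using k g⁻¹ _ hg⟩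

end Vale.Agent.P004C.Wa.Ge
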