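import Vale.Agent.P004C.Wa.Thm

/-!
# P004 C, block WA: Gauss sums of primitive ray class characters of quadratic fields
-/

set_option linter.all false
set_option autoImplicit false

open NumberField Module Ideal
open scoped Classical Real ComplexConjugate

noncomputable section

namespace Vale.Agent.P004C.Wa.Tb

open Vale.Agent.P022 Vale.Agent.P022.H724 Vale.Agent.P022.H477

theorem ee_add (x y : ℂ) : ee (x + y) = ee x * ee y := by rw [ee, mul_add, Complex.exp_add]; rfl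

theorem ee_one {k : ℤ} {M : ℕ} (hM : M ≠ 0) : ee (k / M) = 1 ↔ (M : ℤ) ∣ k := by
  have h0 : (M : ℂ) ≠ 0 := Nat.cast_ne_zero.2 hM
  rw [ee, Complex.exp_eq_one_iff]
  refine exists_congr fun n => ?_
  rw [mul_comm (n : ℂ), mul_right_inj' Complex.two_pi_I_ne_zero, div_eq_iff h0, mul_comm]
  norm_cast

theorem ee_pow (x : ℂ) (n : ℕ) : ee x ^ n = ee (n * x) := by
  rw [ee, ← Complex.exp_nat_mul, ee]
  congr 1
  ring

theorem sum_shift {M : ℕ} (hM : 0 < M) {P : ℤ × ℤ → ℂ} (hP : Per M P) (w : ℤ × ℤ) :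
    ∑ x : Fin M × Fin M, P (lft x + w) = ∑ x : Fin M × Fin M, P (lft x) := by
  have k : ∀ w x, red hM (lft (red hM (lft x + w)) + -w) = x := fun w x => by
    obtain ⟨z, hz⟩ := lft_red hM (lft x + w)
    rw [hz, add_right_comm, add_neg_cancel_right, red_add, red_lft]
  refine Fintype.sum_equiv ⟨fun x => red hM (lft x + w), fun x => red hM (lft x + -w), k w,
    fun x => by simpa using k (-w) x⟩ _ _ fun x => ?_
  obtain ⟨z, hz⟩ := lft_red hM (lft x + w)
  exact (hP _ z).symm.trans (congrArg P hz.symm)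

/-- small, together with the conjugate -/
def Bd (V : AbsoluteValue ℂ ℝ) (z : ℂ) : Prop := V z ≤ 1 ∧ V (conj z) ≤ 1

section

variable {V : AbsoluteValue ℂ ℝ}

theorem Bd.mul {x y : ℂ} (h : Bd V x) (k : Bd V y) : Bd V (x * y) := by
  rw [Bd, map_mul, map_mul, map_mul]
  exact ⟨mul_le_one₀ h.1 (V.nonneg _) k.1, mul_le_one₀ h.2 (V.nonneg _) k.2⟩

theorem bd_zero : Bd V 0 := by simp [Bd]

theorem bd_sum (hV : IsNonarchimedean V) {ι : Type} (s : Finset ι) {g : ι → ℂ}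
    (h : ∀ i, Bd V (g i)) : Bd V (∑ i ∈ s, g i) :=
  Finset.sum_induction _ _ (fun a b h k => ⟨(hV _ _).trans (max_le h.1 k.1), by
    rw [map_add]; exact (hV _ _).trans (max_le h.2 k.2)⟩) bd_zero fun i _ => h i

theorem V_root {z : ℂ} {n : ℕ} (hn : 0 < n) (h : z ^ n = 1) : V z = 1 :=
  (pow_eq_one_iff_of_nonneg (V.nonneg _) hn.ne').1 (by rw [← map_pow, h, map_one])

theorem bd_root {z : ℂ} {n : ℕ} (hn : 0 < n) (h : z ^ n = 1) : Bd V z :=
  ⟨(V_root hn h).le, (V_root hn (by rw [← map_pow, h, map_one])).le⟩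

theorem V_odd (hV : IsNonarchimedean V) (h2 : V 2 < 1) {n : ℕ} (hn : n.Coprime 2) : V n = 1 := by
  obtain ⟨k, rfl⟩ := Nat.coprime_two_right.1 hn
  rw [Nat.cast_add, Nat.cast_one, hV.add_eq_right_of_lt, map_one]
  rw [Nat.cast_mul, mul_comm, map_one]
  exact hV.nmul_le.trans_lt h2

end

variable {L : Type} [Field L] [NumberField L] {sg : L → ℂ} {f : Ideal (𝓞 L)}
  {ψ : Ideal (𝓞 L) → ℂ} [Fintype (𝓞 L ⧸ f)]

/-- sums over the residues -/
def Sf (f : Ideal (𝓞 L)) [Fintype (𝓞 L ⧸ f)] (H : 𝓞 L → ℂ) : ℂ := ∑ s : 𝓞 L ⧸ f, H s.out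

/-- periodic -/
def Pf (f : Ideal (𝓞 L)) (H : 𝓞 L → ℂ) : Prop := ∀ x y, x - y ∈ f → H x = H y

theorem Sf_aff {H : 𝓞 L → ℂ} (h : Pf f H) {u v : 𝓞 L} (e : u * v - 1 ∈ f) (t : 𝓞 L) :
    Sf f (fun x => H (u * x + t)) = Sf f H := by
  have e1 : Ideal.Quotient.mk f u * Ideal.Quotient.mk f v = 1 :=
    (Ideal.Quotient.eq (x := u * v) (y := 1)).2 e
  refine Fintype.sum_equiv ((Units.mkOfMulEqOne _ _ e1).mulLeft.trans
    (Equiv.addRight (Ideal.Quotient.mk f t))) _ _ fun s => h _ _ (Ideal.Quotient.eq.1 ?_)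
  simp [Ideal.Quotient.mk_out]

theorem card_eq : (Fintype.card (𝓞 L ⧸ f) : ℂ) = absNorm f := by
  rw [absNorm_apply, Submodule.cardQuot_apply, Nat.card_eq_fintype_card]

/-- averages over a lattice which surjects onto the residues -/
theorem Sf_lat (h0 : f ≠ ⊥) {H : 𝓞 L → ℂ} (h : Pf f H) {𝔟 : Ideal (𝓞 L)} (φ : ℤ × ℤ ≃+ 𝔟)
    {z : 𝓞 L} (hz : z ∈ 𝔟) (h1 : z - 1 ∈ f) :
    ∑ x : Fin (absNorm f) × Fin (absNorm f), H (φ (lft x)) = absNorm f * Sf f H := by
  have p : Per (absNorm f) fun v => H (φ v) := per_phi φ fun x y =>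
    h _ _ (by simpa using f.mul_mem_right y (absNorm_mem f))
  have m0 := Nat.pos_of_ne_zero (mt absNorm_eq_zero_iff.1 h0)
  have k : ∑ s : 𝓞 L ⧸ f, ∑ x : Fin (absNorm f) × Fin (absNorm f), H (1 * s.out + φ (lft x)) =
      ∑ s : 𝓞 L ⧸ f, ∑ x : Fin (absNorm f) × Fin (absNorm f), H (φ (lft x)) :=
    Finset.sum_congr rfl fun s _ => by
      rw [← sum_shift m0 p (φ.symm ⟨z * s.out, 𝔟.mul_mem_right _ hz⟩)]
      refine Finset.sum_congr rfl fun x _ => h _ _ ?_
      simp only [map_add, AddEquiv.apply_symm_apply, AddMemClass.coe_add]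
      convert f.neg_mem (f.mul_mem_right s.out h1) using 1
      ring
  have k2 : ∀ x : Fin (absNorm f) × Fin (absNorm f),
      ∑ s : 𝓞 L ⧸ f, H (1 * s.out + φ (lft x)) = Sf f H := fun x => Sf_aff h (v := 1) (by simp) _
  rw [Finset.sum_comm, Finset.sum_congr rfl fun x _ => k2 x] at k
  simp only [Finset.sum_const, Finset.card_univ, nsmul_eq_mul, card_eq, Fintype.card_prod,
    Fintype.card_fin, Nat.cast_mul, mul_assoc] at k
  exact (mul_left_cancel₀ (N0 h0) k).symm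

/-- a primitive additive character -/
structure Lam (f : Ideal (𝓞 L)) (l : 𝓞 L → ℂ) : Prop where
  add : ∀ x y, l (x + y) = l x * l y
  one : ∀ x ∈ f, l x = 1
  prim : ∀ t, (∀ y, l (y * t) = 1) → t ∈ f

variable {l : 𝓞 L → ℂ}

theorem Lam.pf (A : Lam f l) : Pf f l := fun x y k => by
  rw [← sub_add_cancel x y, A.add, A.one _ k, one_mul]

theorem Lam.pow (A : Lam f l) (n : ℕ) (x : 𝓞 L) : l x ^ n = l (n * x) := by
  induction n with
  | zero => simp [A.one]
  | succ n ih => rw [pow_succ, ih, ← A.add, Nat.cast_succ, add_one_mul]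

theorem Lam.root (A : Lam f l) (x : 𝓞 L) : l x ^ absNorm f = 1 := by
  rw [A.pow, A.one _ (f.mul_mem_right _ (absNorm_mem f))]

theorem Lam.orth (A : Lam f l) (t : 𝓞 L) :
    Sf f (fun x => l (x * t)) = if t ∈ f then (absNorm f : ℂ) else 0 := by
  split_ifs with k
  · simp [Sf, A.one _ (f.mul_mem_left _ k), card_eq]
  · obtain ⟨y, hy⟩ := not_forall.1 (mt (A.prim t) k)
    have := Sf_aff (f := f) (H := fun x => l (x * t)) (fun a b e => A.pf _ _
      (by rw [← sub_mul]; exact f.mul_mem_right _ e)) (u := 1) (v := 1) (by simp) y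
    simp only [one_mul, add_mul, A.add, Sf, ← Finset.sum_mul] at this
    exact (mul_right_eq_self₀.1 this).resolve_left hy

/-- the Gauss sum -/
def gs (sg : L → ℂ) (ψ : Ideal (𝓞 L) → ℂ) (f : Ideal (𝓞 L)) [Fintype (𝓞 L ⧸ f)] (l : 𝓞 L → ℂ)
    (r : 𝓞 L) : ℂ := Sf f fun x => chi sg ψ x * l (r * x)

variable (hS : Sg sg) (h : RC sg f ψ) (hf : f ≠ ⊤) (A : Lam f l)
include hS h hf A

theorem gs_pf (r : 𝓞 L) : Pf f fun x => chi sg ψ x * l (r * x) := fun x y k => by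
  beta_reduce
  rw [chi_per hS h hf k, A.pf _ (r * y) (by rw [← mul_sub]; exact f.mul_mem_left _ k)]

theorem gs_mul {u : 𝓞 L} (k : chi sg ψ u ≠ 0) (r : 𝓞 L) :
    chi sg ψ u * gs sg ψ f l (r * u) = gs sg ψ f l r := by
  obtain ⟨v, hv⟩ := (chi_ne hS h hf).1 k
  rw [gs, gs, ← Sf_aff (gs_pf hS h hf A r) hv 0]
  simp only [Sf, Finset.mul_sum, add_zero, chi_mul hS h, mul_assoc]

variable (hP : Pm sg f ψ)
include hP

theorem gs_zero {P f' : Ideal (𝓞 L)} (m : P.IsMaximal) (e : f = P * f') {r : 𝓞 L} (k : r ∈ P) :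
    gs sg ψ f l r = 0 := by
  obtain ⟨x, a, b, c, d⟩ := hP P f' m e
  obtain ⟨y, p, hp, q⟩ := m.exists_inv b
  have x1 := sg_sq hS (x := x) (by simpa using c)
  have n := gs_mul hS h hf A (u := x) ((chi_ne hS h hf).2 ⟨y + p, by
    convert e ▸ mul_mem_mul hp a using 1; linear_combination q⟩) r
  rw [show gs sg ψ f l (r * x) = gs sg ψ f l r from Finset.sum_congr rfl fun s _ => by
    beta_reduce
    rw [A.pf _ (r * s.out) (by
      convert f.mul_mem_right s.out (e ▸ mul_mem_mul k a) using 1; ring)]] at n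
  refine (mul_right_eq_self₀.1 ((mul_comm _ _).trans n)).resolve_left fun k => d ?_
  rw [← mul_one (ψ _), ← x1, ← mul_assoc, ← chi, k, one_mul]

theorem gs_eq (r : 𝓞 L) : gs sg ψ f l r = conj (chi sg ψ r) * gs sg ψ f l 1 := by
  by_cases k : chi sg ψ r = 0
  · obtain ⟨P, m, le⟩ := exists_le_maximal (span {r} ⊔ f) fun e => by
      obtain ⟨a, ha, b, hb, e⟩ := Submodule.mem_sup.1 ((eq_top_iff_one _).1 e)
      obtain ⟨y, rfl⟩ := mem_span_singleton.1 ha
      exact (chi_ne hS h hf).2 ⟨y, by rw [← e]; simpa using hb⟩ k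
    obtain ⟨f', e⟩ := dvd_iff_le.2 (le_sup_right.trans le)
    rw [k, gs_zero hS h hf A hP m e (le (mem_sup_left (mem_span_singleton_self r)))]
    simp
  · obtain ⟨n, n0, e⟩ := chi_fin hS h hf k
    rw [← gs_mul hS h hf A k 1, one_mul, ← mul_assoc, Complex.conj_mul',
      Complex.norm_eq_one_of_pow_eq_one e n0.ne']
    simp

theorem gs_norm : gs sg ψ f l 1 * conj (gs sg ψ f l 1) = absNorm f := by
  have m0 := Nat.pos_of_ne_zero (mt absNorm_eq_zero_iff.1 h.ne)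
  have c : ∀ x, conj (l x) = l (-x) := fun x => by
    have e := A.add (-x) x
    rw [neg_add_cancel, A.one 0 f.zero_mem] at e
    rw [← Complex.inv_eq_conj (Complex.norm_eq_one_of_pow_eq_one (A.root x) m0.ne'),
      eq_inv_of_mul_eq_one_left e.symm]
  have e : gs sg ψ f l 1 * conj (gs sg ψ f l 1) =
      ∑ s : 𝓞 L ⧸ f, chi sg ψ s.out * Sf f fun x => l (x * (s.out - 1)) := by
    have e0 : conj (gs sg ψ f l 1) = ∑ r : 𝓞 L ⧸ f, conj (chi sg ψ r.out) * l (-r.out) := by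
      simp only [gs, Sf, map_sum, map_mul, c, one_mul]
    simp only [e0, Sf, Finset.mul_sum]
    rw [Finset.sum_comm]
    refine Finset.sum_congr rfl fun r _ => ?_
    rw [← mul_assoc, mul_comm (gs _ _ _ _ _), ← gs_eq hS h hf A hP, gs, Sf, Finset.sum_mul]
    refine Finset.sum_congr rfl fun s _ => ?_
    rw [mul_assoc, ← A.add]
    congr 2
    ring
  have o : (1 : 𝓞 L ⧸ f).out - 1 ∈ f := Ideal.Quotient.eq.1 (Ideal.Quotient.mk_out _)
  rw [e, Finset.sum_eq_single 1, A.orth, if_pos o, chi_one hS h hf o, one_mul]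
  · intro s _ k
    rw [A.orth, if_neg, mul_zero]
    exact fun m => k ((Ideal.Quotient.mk_out _).symm.trans (Ideal.Quotient.eq.2 m))
  · simp

theorem gs_val (B : QB L) {V : AbsoluteValue ℂ ℝ} (hV : IsNonarchimedean V) (h2 : V 2 < 1)
    (c : f ⊔ span {2} = ⊤ ∨ ((span {(2 : 𝓞 L)}).IsPrime ∧
      ∃ f' : Ideal (𝓞 L), f = span {2} * f' ∧ f' ⊔ span {2} = ⊤)) :
    V (gs sg ψ f l 1) ^ 2 = V (absNorm f) := by
  have m0 := Nat.pos_of_ne_zero (mt absNorm_eq_zero_iff.1 h.ne)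
  have b : ∀ x y, Bd V (chi sg ψ x * l y) := fun x y => by
    refine Bd.mul ?_ (bd_root m0 (A.root y))
    by_cases k : chi sg ψ x = 0
    · exact k ▸ bd_zero
    · obtain ⟨n, n0, e⟩ := chi_fin hS h hf k
      exact bd_root n0 e
  have od : ∀ {I : Ideal (𝓞 L)}, I ⊔ span {2} = ⊤ → (absNorm I).Coprime 2 := fun k =>
    cop_norm B (isCoprime_iff_sup_eq.2 k)
  obtain ⟨t, n, z, t0, e1, e2, e3, e4⟩ : ∃ (t : ℂ) (n : ℕ) (z : ℂ), conj t = t ∧
      (absNorm f : ℂ) = t ^ 2 * n ∧ n.Coprime 2 ∧ gs sg ψ f l 1 = t * z ∧ Bd V z := by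
    rcases c with c | ⟨p, f', e, c⟩
    · exact ⟨1, _, _, by simp, by simp, od c, (one_mul _).symm, bd_sum hV _ fun s => b _ _⟩
    obtain ⟨k, hk⟩ := Nat.coprime_two_right.1 (od c)
    have z := gs_zero hS h hf A hP (p.isMaximal (by simp)) e (r := 1 - absNorm f')
      (mem_span_singleton.2 ⟨-k, by rw [hk]; push_cast; ring⟩)
    refine ⟨2, absNorm f', Sf f fun x => chi sg ψ x * l ((1 - absNorm f') * x) *
      ((l (absNorm f' * x) - 1) / 2), map_ofNat _ 2, ?_, od c, ?_,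
      bd_sum hV _ fun s => (b _ _).mul ?_⟩
    · have := B.norm_eq 2 0
      rw [e, map_mul, absNorm_span_singleton, show (2 : 𝓞 L) = (2 : ℤ) + (0 : ℤ) * B.ω by simp, this]
      simp
      norm_num
    · rw [← sub_zero (gs _ _ _ _ 1), ← z, gs, gs, Sf, Sf, Sf, ← Finset.sum_sub_distrib,
        Finset.mul_sum]
      refine Finset.sum_congr rfl fun s _ => ?_
      rw [show l (1 * s.out) = _ * _ from
        (congrArg l (by ring)).trans (A.add ((1 - absNorm f') * s.out) (absNorm f' * s.out))]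
      ring
    · have := A.pow 2 (absNorm f' * s.out)
      rw [A.one ((2 : ℕ) * _) (e.ge (mul_mem_mul (mem_span_singleton_self _)
        (f'.mul_mem_right _ (absNorm_mem f'))))] at this
      rcases sq_eq_one_iff.1 this with k | k <;> rw [k]
      · simpa using bd_zero
      · exact bd_root two_pos (by norm_num)
  have e := congrArg V (gs_norm hS h hf A hP)
  have t1 : V t ≠ 0 := fun k => N0 h.ne (by rw [e1, V.eq_zero.1 k]; simp)
  simp only [e1, e3, map_mul, map_pow, t0, V_odd hV h2 e2, mul_one] at e ⊢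
  have k : V z * V (conj z) = 1 := mul_left_cancel₀ (pow_ne_zero 2 t1) (by linear_combination e)
  rw [show V z = 1 by nlinarith [e4.1, e4.2, V.nonneg z], mul_one]

end Vale.Agent.P004C.Wa.Tb
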