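import Vale.Agent.P004Z.W2.Wt

/-! # P004 C, block WA: unfolding, the index of `Γ₀(L t)` in `Γ₀(L)` -/

set_option autoImplicit false
set_option linter.all false

open UpperHalfPlane MeasureTheory Set CongruenceSubgroup
open scoped MatrixGroups ENNReal

noncomputable section

namespace Vale.Agent.P004C.Wa.Lf

open Vale.Agent.P004Z.W2
open Vale.Agent.P004.H26.H86 (sl_countable)

theorem sum_map {w : ℍ → ℝ≥0∞} (hw : Measurable w) {ι : Type} [Countable ι] (g : ι → SL(2, ℤ))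
    {c : ℝ≥0∞} (h : ∀ᵐ σ : ℍ, ∑' i, w (g i • σ) = c) :
    Measure.sum (fun i => (volume.withDensity w).map fun τ => (g i)⁻¹ • τ) = c • volume := by
  refine Measure.ext_of_lintegral _ fun φ p => ?_
  have e : ∀ i, ∫⁻ a, φ a ∂(volume.withDensity w).map (fun τ => (g i)⁻¹ • τ) =
      ∫⁻ a, w (g i • a) * φ a := fun i => by
    rw [lintegral_map p (mpS _).measurable, lintegral_withDensity_eq_lintegral_mul _ hw
      (g := fun τ => φ ((g i)⁻¹ • τ)) (p.comp (mpS _).measurable),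
      ← (mpS (g i)).lintegral_comp_emb (embS _)]
    simp
  rw [lintegral_sum_measure, lintegral_smul_measure, smul_eq_mul, ← lintegral_const_mul _ p,
    tsum_congr e, ← lintegral_tsum (f := fun i a => w (g i • a) * φ a) fun i =>
      ((hw.comp (mpS _).measurable).mul p).aemeasurable]
  refine lintegral_congr_ae (h.mono fun σ k => ?_)
  simp only [ENNReal.tsum_mul_right, k]

/-- unfolding -/
theorem unf {w : ℍ → ℝ≥0∞} (hw : Measurable w) {R : Type} [Countable R] {ι : R → Type}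
    [∀ r, Countable (ι r)] (g : ∀ r, ι r → SL(2, ℤ)) (c : R → ℕ)
    (h : ∀ r, ∀ᵐ σ : ℍ, ∑' i, w (g r i • σ) = c r) {f : R → ℍ → ℂ} (m : ∀ r, Measurable (f r))
    (t : ∀ r, Integrable (f r)) (s : Summable fun r => c r * ∫ σ, ‖f r σ‖) :
    Integrable (fun τ => ∑' x : Σ r, ι r, f x.1 ((g x.1 x.2)⁻¹ • τ)) (volume.withDensity w) ∧
      HasSum (fun r => c r * ∫ σ, f r σ)
        (∫ τ, ∑' x : Σ r, ι r, f x.1 ((g x.1 x.2)⁻¹ • τ) ∂volume.withDensity w) := by
  have mm : ∀ x : Σ r, ι r, Measurable fun τ => f x.1 ((g x.1 x.2)⁻¹ • τ) := fun x =>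
    (m _).comp (mpS _).measurable
  have fin : ∑' x : Σ r, ι r, ∫⁻ τ, ‖f x.1 ((g x.1 x.2)⁻¹ • τ)‖ₑ ∂volume.withDensity w ≠ ⊤ := by
    have e : ∀ r, ∑' i, ∫⁻ τ, ‖f r ((g r i)⁻¹ • τ)‖ₑ ∂volume.withDensity w =
        ENNReal.ofReal (c r * ∫ σ, ‖f r σ‖) := fun r => by
      rw [ENNReal.ofReal_mul (Nat.cast_nonneg _), ofReal_integral_norm_eq_lintegral_enorm (t r),
        ENNReal.ofReal_natCast, ← smul_eq_mul, ← lintegral_smul_measure, ← sum_map hw _ (h r),
        lintegral_sum_measure]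
      exact tsum_congr fun i => (lintegral_map (m r).enorm (mpS _).measurable).symm
    rw [ENNReal.tsum_sigma', tsum_congr e, ← ENNReal.ofReal_tsum_of_nonneg (fun r => mul_nonneg
      (Nat.cast_nonneg _) (integral_nonneg fun _ => norm_nonneg _)) s]
    exact ENNReal.ofReal_ne_top
  refine ⟨⟨(Measurable.tsum mm).aestronglyMeasurable, ?_⟩, ?_⟩
  · refine lt_of_le_of_lt (lintegral_mono fun τ => enorm_tsum_le_tsum_enorm) ?_
    rw [lintegral_tsum fun x => (mm x).enorm.aemeasurable]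
    exact fin.lt_top
  · rw [integral_tsum (fun x => (mm x).aestronglyMeasurable) fin]
    refine (Summable.of_enorm (ne_top_of_le_ne_top fin (ENNReal.tsum_le_tsum fun x =>
      enorm_integral_le_lintegral_enorm _))).hasSum.sigma fun r => ?_
    have := hasSum_integral_measure (f := f r) (μ := fun i => (volume.withDensity w).map
      fun τ => (g r i)⁻¹ • τ) (by
        rw [sum_map hw _ (h r)]; exact (t r).smul_measure (ENNReal.natCast_ne_top _))
    rw [sum_map hw _ (h r), integral_smul_measure] at this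
    simp only [integral_map (mpS _).measurable.aemeasurable (m r).aestronglyMeasurable] at this
    simpa using this

theorem cnt {Γ H : Subgroup SL(2, ℤ)} (le : Γ ≤ H) {w : ℍ → ℝ≥0∞} (hw : Wt Γ w)
    (fin : Γ.relIndex H ≠ 0) : ∀ᵐ σ : ℍ, ∑' h : H, w (h.1 • σ) = (2 * Γ.relIndex H : ℕ) := by
  have : Finite (H ⧸ Γ.subgroupOf H) := Nat.finite_of_card_ne_zero fin
  have := Fintype.ofFinite (H ⧸ Γ.subgroupOf H)
  filter_upwards [ae_all_iff.2 fun q : H ⧸ Γ.subgroupOf H =>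
    (mpS (q.out.1)⁻¹).quasiMeasurePreserving.ae hw.two] with σ k
  suffices b : Function.Bijective fun x : (H ⧸ Γ.subgroupOf H) × Γ =>
      (⟨x.2.1, le x.2.2⟩ : H) * x.1.out⁻¹ by
    rw [← (Equiv.ofBijective _ b).tsum_eq, ENNReal.tsum_prod']
    simp only [Equiv.ofBijective_apply, Subgroup.coe_mul, Subgroup.coe_inv, mul_smul, k]
    rw [tsum_fintype, Finset.sum_const, Finset.card_univ, ← Nat.card_eq_fintype_card]
    simp [Subgroup.relIndex, Subgroup.index, mul_comm]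
  refine ⟨fun x y e => ?_, fun g => ?_⟩
  · have e1 : x.1 = y.1 := by
      rw [← x.1.out_eq', ← y.1.out_eq', QuotientGroup.eq, Subgroup.mem_subgroupOf]
      have : x.1.out⁻¹ * y.1.out = (⟨x.2.1, le x.2.2⟩ : H)⁻¹ * ⟨y.2.1, le y.2.2⟩ := by
        simp only at e
        rw [← eq_mul_inv_iff_mul_eq, mul_assoc, ← e, inv_mul_cancel_left]
      rw [this]
      exact Γ.mul_mem (Γ.inv_mem x.2.2) y.2.2
    refine Prod.ext e1 (Subtype.ext ?_)
    simpa [e1] using e
  · obtain ⟨h, e⟩ := QuotientGroup.mk_out_eq_mul (Γ.subgroupOf H) g⁻¹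
    exact ⟨((g⁻¹ : H), ⟨h.1.1, h.2⟩), by simp [e]⟩

theorem mem0 {N : ℕ} {γ : SL(2, ℤ)} : γ ∈ Gamma0 N ↔ (N : ℤ) ∣ γ 1 0 := by
  rw [Gamma0_mem, ZMod.intCast_zmod_eq_zero_iff_dvd]

theorem le0 (L t : ℕ) : Gamma0 (L * t) ≤ Gamma0 L := fun γ h =>
  mem0.2 ((Dvd.intro _ (Nat.cast_mul L t).symm).trans (mem0.1 h))

theorem idx_p {L p : ℕ} (hp : p.Prime) (h : p.Coprime L) :
    (Gamma0 (L * p)).relIndex (Gamma0 L) = p + 1 := by
  have := Fact.mk hp
  set φ : Gamma0 L → Option (ZMod p) := fun γ => if ((γ.1 1 0 : ℤ) : ZMod p) = 0 then none else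
    some ((γ.1 0 0 : ℤ) / (γ.1 1 0 : ℤ)) with hφ
  have nz : ∀ γ : SL(2, ℤ), ((γ 1 0 : ℤ) : ZMod p) = 0 → ((γ 0 0 : ℤ) : ZMod p) ≠ 0 :=
    fun γ k k' => by
    have := congrArg (Int.cast : ℤ → ZMod p) γ.det_coe
    rw [Matrix.det_fin_two] at this
    simp [k, k'] at this
  have key : ∀ x y : Gamma0 L, x⁻¹ * y ∈ (Gamma0 (L * p)).subgroupOf (Gamma0 L) ↔ φ x = φ y :=
    fun x y => by
    have e : ((x⁻¹ * y : Gamma0 L) : SL(2, ℤ)) 1 0 = x.1 0 0 * y.1 1 0 - x.1 1 0 * y.1 0 0 := by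
      rw [Subgroup.coe_mul, Subgroup.coe_inv, Matrix.SpecialLinearGroup.coe_mul,
        Matrix.SpecialLinearGroup.coe_inv, Matrix.adjugate_fin_two, Matrix.mul_apply]
      simp [Fin.sum_univ_two]
      ring
    have d := mem0.1 (x⁻¹ * y).2
    rw [Subgroup.mem_subgroupOf, mem0, Nat.cast_mul, show ∀ z : ℤ, (L : ℤ) ∣ z →
      ((L : ℤ) * p ∣ z ↔ (z : ZMod p) = 0) from fun z k => by
        rw [ZMod.intCast_zmod_eq_zero_iff_dvd]
        exact ⟨fun k => (Dvd.intro_left _ rfl).trans k,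
          (Nat.isCoprime_iff_coprime.2 h.symm).mul_dvd k⟩, e]
    · push_cast
      by_cases a : ((x.1 1 0 : ℤ) : ZMod p) = 0 <;> by_cases b : ((y.1 1 0 : ℤ) : ZMod p) = 0
      · simp [hφ, a, b]
      · simp [hφ, a, b, nz _ a]
      · simp [hφ, a, b, nz _ b]
      · simp only [hφ, a, b, if_false, Option.some.injEq, div_eq_div_iff a b, sub_eq_zero,
          mul_comm]
    · exact d
  have hL : (L : ZMod p) ≠ 0 := by
    rw [Ne, ZMod.natCast_eq_zero_iff]
    exact hp.coprime_iff_not_dvd.1 h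
  refine (Nat.card_eq_of_bijective (Quotient.lift φ fun x y k =>
    (key x y).1 (QuotientGroup.leftRel_apply.1 k)) ⟨?_, ?_⟩).trans (by simp)
  · rintro ⟨x⟩ ⟨y⟩ k
    exact QuotientGroup.eq.2 ((key x y).2 k)
  · rintro (_ | x)
    · exact ⟨QuotientGroup.mk 1, by simp [hφ]⟩
    · obtain ⟨k, hk⟩ := ZMod.intCast_surjective (x - (L : ZMod p)⁻¹)
      refine ⟨QuotientGroup.mk ⟨⟨!![1 + k * L, k; L, 1], by simp [Matrix.det_fin_two]⟩,
        mem0.2 (by simp)⟩, ?_⟩
      simp [hφ, hL, hk]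
      field_simp
      ring

theorem idx (L : ℕ) {t : ℕ} (ht : Squarefree t) (h : t.Coprime L) :
    (Gamma0 (L * t)).relIndex (Gamma0 L) = ∑ s ∈ t.divisors, s := by
  induction t using induction_on_primes with
  | zero => exact absurd ht not_squarefree_zero
  | one => simp
  | prime_mul p t hp ih =>
    obtain ⟨c, -, ht'⟩ := Nat.squarefree_mul_iff.1 ht
    rw [c.sum_divisors_mul, hp.sum_divisors, ← ih ht' h.coprime_mul_left,
      ← idx_p hp (c.mul_right h.coprime_mul_right |> fun k => mul_comm t L ▸ k),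
      Subgroup.relIndex_mul_relIndex _ _ _ (le0 _ _) (le0 _ _), mul_assoc, mul_comm t p]

end Vale.Agent.P004C.Wa.Lf
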