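import Mathlib

/-! # P004 C, block WA: the hyperbolic mean value property -/

set_option autoImplicit false
set_option linter.all false

open Complex MeasureTheory Set Metric
open UpperHalfPlane hiding I
open scoped Real Manifold ComplexConjugate

noncomputable section

namespace Vale.Agent.P004C.Wa.Mv

/-- polar coordinates, iterated -/
theorem polar {f : ℂ → ℂ} (hf : Integrable f) :
    ∫ w, f w = ∫ r in Ioi (0 : ℝ), ∫ θ in Ioo (-π) π, r • f (circleMap 0 r θ) := by
  have e : ∀ p : ℝ × ℝ, Complex.polarCoord.symm p = circleMap 0 p.1 p.2 := fun p => by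
    simp [circleMap, exp_mul_I]
  have h1 : IntegrableOn (fun p => f (measurableEquivRealProd.symm p))
      (polarCoord.symm '' polarCoord.target) :=
    ((volume_preserving_equiv_real_prod.symm.integrable_comp_emb
      measurableEquivRealProd.symm.measurableEmbedding).2 hf).integrableOn
  rw [integrableOn_image_iff_integrableOn_abs_det_fderiv_smul volume
    polarCoord.open_target.measurableSet
    (fun p _ => (hasFDerivAt_polarCoord_symm p).hasFDerivWithinAt) polarCoord.symm.injOn] at h1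
  simp_rw [det_fderivPolarCoordSymm, measurableEquivRealProd_symm_polarCoord_symm_apply, e] at h1
  have h2 : IntegrableOn (fun p : ℝ × ℝ => p.1 • f (circleMap 0 p.1 p.2))
      (Ioi 0 ×ˢ Ioo (-π) π) (volume.prod volume) :=
    h1.congr_fun (fun p hp => by simp only [abs_of_pos (show 0 < p.1 from hp.1)]) polarCoord.open_target.measurableSet
  rw [← Complex.integral_comp_polarCoord_symm]
  simp_rw [e]
  exact setIntegral_prod _ h2

/-- the Cayley transform -/
def cay (z w : ℂ) : ℂ := (z - conj z * w) / (1 - w)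

theorem one_ne {w : ℂ} (h : ‖w‖ < 1) : 1 - w ≠ 0 := fun e => by
  rw [← sub_eq_zero.1 e] at h; simp at h

theorem cay_im (z : ℂ) {w : ℂ} (h : ‖w‖ < 1) :
    (cay z w).im = z.im * (1 - ‖w‖ ^ 2) / ‖1 - w‖ ^ 2 := by
  rw [cay, div_im, ← normSq_eq_norm_sq, ← normSq_eq_norm_sq, ← sub_div, normSq_apply w]
  congr 1
  simp
  ring

theorem cay_sub (z : ℂ) {w : ℂ} (h : ‖w‖ < 1) : cay z w - z = 2 * z.im * I * w / (1 - w) := by
  have := one_ne h
  have e := sub_conj z
  push_cast at e
  rw [cay, ← e]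
  field_simp
  ring

theorem cay_pos {z w : ℂ} (hz : 0 < z.im) (h : ‖w‖ < 1) : 0 < (cay z w).im := by
  have := norm_pos_iff.2 (one_ne h)
  have : 0 < 1 - ‖w‖ ^ 2 := by nlinarith [norm_nonneg w]
  rw [cay_im z h]
  positivity

theorem cay_der (z : ℂ) {w : ℂ} (h : ‖w‖ < 1) :
    HasDerivAt (cay z) (2 * z.im * I / (1 - w) ^ 2) w := by
  have := one_ne h
  have e := sub_conj z
  push_cast at e
  refine ((((hasDerivAt_id w).const_mul (conj z)).const_sub z).div
    ((hasDerivAt_id w).const_sub 1) this).congr_deriv ?_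
  rw [← e]
  simp only [id]
  field_simp
  ring

theorem cay_img (z : ℍ) : cay z '' ball 0 1 = range UpperHalfPlane.coe := by
  ext y
  constructor
  · rintro ⟨w, hw, rfl⟩
    exact ⟨⟨_, cay_pos z.im_pos (mem_ball_zero_iff.1 hw)⟩, rfl⟩
  · rintro ⟨σ, rfl⟩
    have h0 : (σ : ℂ) - conj (z : ℂ) ≠ 0 := fun e => by
      have := congrArg Complex.im e
      simp at this
      linarith [σ.im_pos, z.im_pos]
    have h1 : (z : ℂ) - conj (z : ℂ) ≠ 0 := fun e => by
      have := congrArg Complex.im e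
      simp at this
      linarith [z.im_pos]
    refine ⟨(σ - z) / (σ - conj (z : ℂ)), ?_, ?_⟩
    · rw [mem_ball_zero_iff, norm_div, div_lt_one (norm_pos_iff.2 h0),
        ← sq_lt_sq₀ (norm_nonneg _) (norm_nonneg _), ← normSq_eq_norm_sq, ← normSq_eq_norm_sq,
        normSq_apply, normSq_apply]
      simp
      nlinarith [mul_pos σ.im_pos z.im_pos]
    · have : 1 - (σ - z) / (σ - conj (z : ℂ)) = (z - conj (z : ℂ)) / (σ - conj (z : ℂ)) := by
        field_simp
        ring
      rw [cay, this]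
      field_simp
      ring

theorem cay_inj (z : ℍ) : InjOn (cay z) (ball 0 1) := fun w hw w' hw' e => by
  have h := one_ne (mem_ball_zero_iff.1 hw)
  have h' := one_ne (mem_ball_zero_iff.1 hw')
  have e' : cay z w - z = cay z w' - z := by rw [e]
  rw [cay_sub _ (mem_ball_zero_iff.1 hw), cay_sub _ (mem_ball_zero_iff.1 hw'),
    div_eq_div_iff h h'] at e'
  have h2 : (2 * (z : ℂ).im * I : ℂ) ≠ 0 := by
    simp [z.im_ne_zero]
  refine mul_left_cancel₀ h2 ?_
  linear_combination e'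

/-- the disc model -/
theorem disc (z : ℍ) (F : ℍ → ℂ) :
    (Integrable F ↔ IntegrableOn (fun w : ℂ => (4 / (1 - ‖w‖ ^ 2) ^ 2 : ℝ) •
      F (ofComplex (cay z w))) (ball 0 1)) ∧
    ∫ σ, F σ = ∫ w in ball (0 : ℂ) 1, (4 / (1 - ‖w‖ ^ 2) ^ 2 : ℝ) • F (ofComplex (cay z w)) := by
  have m : Measurable fun z : ℍ => ((1 / NNReal.mk z.im z.im_pos.le : NNReal) ^ 2) := by
    refine .pow_const (.const_div ?_ _) _
    exact (UpperHalfPlane.continuous_im.subtype_mk _).measurable
  set g : ℂ → ℂ := fun y => (1 / y.im ^ 2 : ℝ) • F (ofComplex y) with hg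
  have e : (fun z : ℍ => ((1 / NNReal.mk z.im z.im_pos.le : NNReal) ^ 2) • F z) =
      fun z : ℍ => g z := funext fun z => by
    simp [hg, NNReal.smul_def]
  have hd : ∀ w ∈ ball (0 : ℂ) 1, HasFDerivWithinAt (cay z)
      ((ContinuousLinearMap.toSpanSingleton ℂ (2 * (z : ℂ).im * I / (1 - w) ^ 2)).restrictScalars ℝ)
      (ball 0 1) w := fun w hw =>
    ((cay_der z (mem_ball_zero_iff.1 hw)).hasFDerivAt.restrictScalars ℝ).hasFDerivWithinAt
  have k : ∀ w ∈ ball (0 : ℂ) 1, |((ContinuousLinearMap.toSpanSingleton ℂ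
      (2 * (z : ℂ).im * I / (1 - w) ^ 2)).restrictScalars ℝ).det| • g (cay z w) =
      (4 / (1 - ‖w‖ ^ 2) ^ 2 : ℝ) • F (ofComplex (cay z w)) := fun w hw => by
    have h := mem_ball_zero_iff.1 hw
    have := norm_pos_iff.2 (one_ne h)
    have : 0 < 1 - ‖w‖ ^ 2 := by nlinarith [norm_nonneg w]
    have := z.im_pos
    rw [hg, smul_smul, cay_im _ h]
    congr 1
    simp [ContinuousLinearMap.det, LinearMap.det_restrictScalars,
      Algebra.norm_complex_eq, Complex.normSq_eq_norm_sq, abs_div]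
    field_simp
    rw [sq_abs]
    ring
  constructor
  · rw [UpperHalfPlane.volume_def, integrable_withDensity_iff_integrable_smul m, e]
    refine (measurableEmbedding_coe.integrable_map_iff (g := g)).symm.trans ?_
    rw [measurableEmbedding_coe.map_comap, ← cay_img z]
    exact (integrableOn_image_iff_integrableOn_abs_det_fderiv_smul volume measurableSet_ball hd
      (cay_inj z) g).trans (integrableOn_congr_fun k measurableSet_ball)
  · rw [UpperHalfPlane.volume_def, integral_withDensity_eq_integral_smul m, e,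
      ← measurableEmbedding_coe.integral_map, measurableEmbedding_coe.map_comap, ← cay_img z,
      integral_image_eq_integral_abs_det_fderiv_smul volume measurableSet_ball hd (cay_inj z)]
    exact setIntegral_congr_fun measurableSet_ball k

/-- the point pair invariant -/
def qq (z σ : ℍ) : ℝ := ‖(σ : ℂ) - z‖ ^ 2 / (σ.im * z.im)

/-- the kernel -/
def kk (l : ℝ) (z σ : ℍ) : ℝ := Real.exp (-(l * qq z σ))

theorem qq_nn (z σ : ℍ) : 0 ≤ qq z σ := by
  have := z.im_pos
  have := σ.im_pos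
  unfold qq
  positivity

theorem cont_qq (z : ℍ) : Continuous (qq z) :=
  ((UpperHalfPlane.continuous_coe.sub continuous_const).norm.pow 2).div
    (UpperHalfPlane.continuous_im.mul continuous_const)
    fun σ => (mul_pos σ.im_pos z.im_pos).ne'

theorem cont_kk (l : ℝ) (z : ℍ) : Continuous (kk l z) :=
  (continuous_const.mul (cont_qq z)).neg.rexp

theorem qq_cay (z : ℍ) {w : ℂ} (h : ‖w‖ < 1) :
    qq z (ofComplex (cay z w)) = 4 * (‖w‖ ^ 2 / (1 - ‖w‖ ^ 2)) := by
  have := norm_pos_iff.2 (one_ne h)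
  have : 0 < 1 - ‖w‖ ^ 2 := by nlinarith [norm_nonneg w]
  have := z.im_pos
  rw [ofComplex_apply_of_im_pos (cay_pos z.im_pos h), qq]
  show ‖cay z w - z‖ ^ 2 / ((cay z w).im * z.im) = _
  rw [cay_sub _ h, cay_im _ h]
  simp [abs_of_pos this]
  field_simp
  ring

theorem pb {l t : ℝ} (hl : 0 < l) (ht : 0 ≤ t) : 1 + t ≤ (1 + 1 / l) * Real.exp (l * t) := by
  refine le_trans ?_ (mul_le_mul_of_nonneg_left (Real.add_one_le_exp _) (by positivity))
  have : (1 + 1 / l) * (l * t + 1) = 1 + t + (l * t + 1 / l) := by field_simp; ring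
  rw [this]
  exact le_add_of_nonneg_right (by positivity)

theorem kk_int {l : ℝ} (hl : 0 < l) (z : ℍ) : Integrable (kk l z) := by
  refine (Complex.reCLM.integrable_comp (φ := fun σ => (kk l z σ : ℂ)) ((disc z _).1.2 ?_) :)
  refine IntegrableOn.congr_fun (f := fun w : ℂ => (((4 / (1 - ‖w‖ ^ 2) ^ 2 *
      Real.exp (-(l * (4 * (‖w‖ ^ 2 / (1 - ‖w‖ ^ 2))))) : ℝ)) : ℂ)) ?_
    (fun w hw => by simp only [kk, qq_cay z (mem_ball_zero_iff.1 hw), real_smul, ofReal_mul])
    measurableSet_ball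
  refine Measure.integrableOn_of_bounded (M := 4 * (1 + 1 / (2 * l)) ^ 2) measure_ball_lt_top.ne
    (Measurable.aestronglyMeasurable (by fun_prop))
    ((ae_restrict_iff' measurableSet_ball).2 (.of_forall fun w hw => ?_))
  have h := mem_ball_zero_iff.1 hw
  have h1 : 0 < 1 - ‖w‖ ^ 2 := by nlinarith [norm_nonneg w]
  set t := ‖w‖ ^ 2 / (1 - ‖w‖ ^ 2) with ht
  have e : 4 / (1 - ‖w‖ ^ 2) ^ 2 = 4 * (1 + t) ^ 2 := by rw [ht]; field_simp; ring
  have t0 : 0 ≤ t := by positivity
  have := pow_le_pow_left₀ (by positivity) (pb (l := 2 * l) (by positivity) t0) 2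
  rw [norm_real, Real.norm_of_nonneg (by positivity), e, mul_assoc, Real.exp_neg,
    mul_le_mul_iff_right₀ (by norm_num), mul_inv_le_iff₀ (Real.exp_pos _)]
  rw [mul_pow, ← Real.exp_nat_mul] at this
  convert this using 3
  push_cast
  ring

theorem radial {l : ℝ} (hl : 0 < l) : ∫ r in Ioo (0 : ℝ) 1,
    r * (4 / (1 - r ^ 2) ^ 2) * Real.exp (-(l * (4 * (r ^ 2 / (1 - r ^ 2))))) = 1 / (2 * l) := by
  set g : ℝ → ℝ := fun r => -(1 / (2 * l)) * (Real.exp (4 * l) *
    expNegInvGlue ((1 - r ^ 2) / (4 * l))) with hg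
  have c : Continuous g := by
    have := (expNegInvGlue.contDiff (n := 0)).continuous
    fun_prop
  have e : ∀ r : ℝ, 0 < 1 - r ^ 2 →
      g r = -(1 / (2 * l)) * Real.exp (-(l * (4 * (r ^ 2 / (1 - r ^ 2))))) := fun r h => by
    have : 0 < (1 - r ^ 2) / (4 * l) := by positivity
    simp only [hg, expNegInvGlue, if_neg this.not_ge, ← Real.exp_add]
    congr 2
    field_simp
    ring
  have d : ∀ r ∈ Ioo (0 : ℝ) 1, HasDerivAt g
      (r * (4 / (1 - r ^ 2) ^ 2) * Real.exp (-(l * (4 * (r ^ 2 / (1 - r ^ 2)))))) r := fun r h => by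
    have h1 : 0 < 1 - r ^ 2 := by nlinarith [h.1, h.2]
    have := ((((((hasDerivAt_pow 2 r).div ((hasDerivAt_pow 2 r).const_sub 1) h1.ne').const_mul
      4).const_mul l).neg).exp).const_mul (-(1 / (2 * l)))
    refine (this.congr_of_eventuallyEq ?_).congr_deriv ?_
    · filter_upwards [(by fun_prop : Continuous fun r : ℝ => 1 - r ^ 2).continuousAt.eventually
        (lt_mem_nhds h1)] with s hs using e s hs
    · simp only [Pi.neg_apply, Pi.div_apply]
      field_simp
      norm_num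
  rw [← integral_Ioc_eq_integral_Ioo, ← intervalIntegral.integral_of_le zero_le_one,
    intervalIntegral.integral_eq_sub_of_hasDerivAt_of_le zero_le_one c.continuousOn d
      (intervalIntegral.intervalIntegrable_deriv_of_nonneg c.continuousOn (by simpa using d)
        fun x hx => by
          have : 0 < x := by simpa using hx.1
          positivity), e 0 (by norm_num)]
  simp [hg]

/-- **mean value property** -/
theorem mv {F : ℍ → ℂ} (hF : MDifferentiable 𝓘(ℂ) 𝓘(ℂ) F) {l : ℝ} (hl : 0 < l) (z : ℍ)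
    (hi : Integrable fun σ => F σ * kk l z σ) : ∫ σ, F σ * kk l z σ = F z * (π / l) := by
  have hH : DifferentiableOn ℂ (fun w => F (ofComplex (cay z w))) (ball 0 1) := fun w hw =>
    ((((UpperHalfPlane.mdifferentiable_iff.1 hF) _ (cay_pos z.im_pos
      (mem_ball_zero_iff.1 hw))).differentiableAt (isOpen_upperHalfPlaneSet.mem_nhds
        (cay_pos z.im_pos (mem_ball_zero_iff.1 hw)))).comp w
      (cay_der z (mem_ball_zero_iff.1 hw)).differentiableAt).differentiableWithinAt
  have hm : ∀ r : ℝ, 0 < r → r < 1 →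
      ∫ θ in Ioo (-π) π, F (ofComplex (cay z (circleMap 0 r θ))) = (2 * π : ℝ) • F z :=
    fun r h0 h1 => by
    have s : closedBall (0 : ℂ) |r| ⊆ ball 0 1 := closedBall_subset_ball (by rwa [abs_of_pos h0])
    have := circleAverage_of_differentiable_on_off_countable (f := fun w => F (ofComplex (cay z w)))
      (c := 0) (R := r) countable_empty (hH.continuousOn.mono s) fun w hw =>
        hH.differentiableAt (isOpen_ball.mem_nhds (s (ball_subset_closedBall hw.1)))
    rw [Real.circleAverage_eq_integral_add (-π), intervalIntegral.integral_comp_add_right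
      (fun θ => F (ofComplex (cay z (circleMap 0 r θ)))), intervalIntegral.integral_of_le
        (by linarith [Real.pi_pos]), integral_Ioc_eq_integral_Ioo, inv_smul_eq_iff₀
        (by positivity)] at this
    simpa [cay, two_mul] using this
  rw [(disc z _).2, ← integral_indicator measurableSet_ball,
    polar ((integrable_indicator_iff measurableSet_ball).2 ((disc z _).1.1 hi)),
    setIntegral_congr_fun measurableSet_Ioi (g := (Iio (1 : ℝ)).indicator fun r =>
      (r * (4 / (1 - r ^ 2) ^ 2) * Real.exp (-(l * (4 * (r ^ 2 / (1 - r ^ 2)))))) •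
        (2 * π : ℝ) • F z) fun r hr => ?_, setIntegral_indicator measurableSet_Iio, Ioi_inter_Iio,
    integral_smul_const, radial hl]
  · have : (l : ℂ) ≠ 0 := ofReal_ne_zero.2 hl.ne'
    simp only [real_smul]
    push_cast
    field_simp
  · have n : ∀ θ, ‖circleMap 0 r θ‖ = r := fun θ => by
      rw [norm_circleMap_zero, abs_of_pos hr]
    by_cases h : r < 1
    · have b : ∀ θ, circleMap 0 r θ ∈ ball (0 : ℂ) 1 := fun θ => by rwa [mem_ball_zero_iff, n]
      simp only [indicator_of_mem (b _), indicator_of_mem (mem_Iio.2 h), ← hm r hr h,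
        ← integral_smul, kk, qq_cay z (mem_ball_zero_iff.1 (b _)), n]
      refine setIntegral_congr_fun measurableSet_Ioo fun θ _ => ?_
      simp only [real_smul]
      push_cast
      ring
    · have b : ∀ θ, circleMap 0 r θ ∉ ball (0 : ℂ) 1 := fun θ => by rwa [mem_ball_zero_iff, n]
      simp [indicator_of_notMem (b _), h]

theorem kk_val {l : ℝ} (hl : 0 < l) (z : ℍ) : ∫ σ, kk l z σ = π / l := by
  have := mv (F := fun _ => 1) mdifferentiable_const hl z (by simp only [one_mul]; exact (kk_int hl z).ofReal)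
  simp only [one_mul, integral_complex_ofReal] at this
  exact_mod_cast this

theorem nrm_conj (z σ : ℍ) : ‖(σ : ℂ) - conj (z : ℂ)‖ ^ 2 = ‖(σ : ℂ) - z‖ ^ 2 + 4 * (σ.im * z.im) := by
  rw [← normSq_eq_norm_sq, ← normSq_eq_norm_sq, normSq_apply, normSq_apply]
  simp
  ring

theorem key {G : ℍ → ℂ} {C : ℝ} (hC : 0 ≤ C)
    (hG : ∀ σ, ‖G σ‖ ^ 2 * σ.im ≤ C ^ 2 * (σ.im + 1 / σ.im)) (z σ : ℍ) {ζ : ℂ}
    (hζ : ζ = z ∨ ζ = conj (z : ℂ)) : ‖G σ * (σ - ζ)‖ ≤ C * (1 + z.im) * (4 + qq z σ) := by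
  have hy := z.im_pos
  have hv := σ.im_pos
  have hq := qq_nn z σ
  have e : ‖(σ : ℂ) - z‖ ^ 2 = qq z σ * (σ.im * z.im) := by rw [qq]; field_simp
  have h1 : ‖(σ : ℂ) - ζ‖ ^ 2 ≤ σ.im * (z.im * (4 + qq z σ)) := by
    rcases hζ with rfl | rfl
    · rw [e]; nlinarith [mul_pos hv hy]
    · rw [nrm_conj, e]; nlinarith
  have h2 : (σ.im - z.im) ^ 2 ≤ qq z σ * (σ.im * z.im) := by
    rw [← e, ← normSq_eq_norm_sq, normSq_apply]
    simp
    nlinarith [mul_self_nonneg (σ.re - z.re)]
  have h3 : (σ.im + 1 / σ.im) * z.im ≤ (1 + z.im) ^ 2 * (4 + qq z σ) := by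
    have a : σ.im ≤ z.im * (2 + qq z σ) := le_of_mul_le_mul_left (by nlinarith) hv
    have b : 1 / σ.im * z.im ≤ 2 + qq z σ := by
      rw [one_div, inv_mul_le_iff₀ hv]
      exact le_of_mul_le_mul_left (by nlinarith) hy
    nlinarith [mul_le_mul_of_nonneg_right a hy.le, mul_nonneg hy.le hq]
  rw [← sq_le_sq₀ (norm_nonneg _) (by positivity), norm_mul, mul_pow]
  calc _ ≤ ‖G σ‖ ^ 2 * (σ.im * (z.im * (4 + qq z σ))) := by gcongr
    _ = ‖G σ‖ ^ 2 * σ.im * (z.im * (4 + qq z σ)) := by ring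
    _ ≤ C ^ 2 * (σ.im + 1 / σ.im) * (z.im * (4 + qq z σ)) :=
      mul_le_mul_of_nonneg_right (hG σ) (by positivity)
    _ = C ^ 2 * ((σ.im + 1 / σ.im) * z.im) * (4 + qq z σ) := by ring
    _ ≤ C ^ 2 * ((1 + z.im) ^ 2 * (4 + qq z σ)) * (4 + qq z σ) := by gcongr
    _ = _ := by ring

/-- the orbital integral -/
theorem orb {G : ℍ → ℂ} (hG : MDifferentiable 𝓘(ℂ) 𝓘(ℂ) G) {C : ℝ} (hC : 0 ≤ C)
    (hb : ∀ σ, ‖G σ‖ ^ 2 * σ.im ≤ C ^ 2 * (σ.im + 1 / σ.im)) {l₀ l : ℝ} (h0 : 0 < l₀) (hl : l₀ ≤ l)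
    (z : ℍ) {ζ : ℂ} (hζ : ζ = z ∨ ζ = conj (z : ℂ)) :
    Integrable (fun σ => G σ * (σ - ζ) * kk l z σ) ∧
      ∫ σ, ‖G σ * (σ - ζ) * kk l z σ‖ ≤ C * (1 + z.im) * (4 * (1 + 2 / l₀) * (2 * π / l₀)) ∧
      ∫ σ, G σ * (σ - ζ) * kk l z σ = G z * (z - ζ) * (π / l) := by
  have hy := z.im_pos
  have hF : MDifferentiable 𝓘(ℂ) 𝓘(ℂ) fun σ : ℍ => G σ * (σ - ζ) :=
    hG.mul (UpperHalfPlane.mdifferentiable_coe.sub mdifferentiable_const)
  have hi := (kk_int (half_pos h0) z).const_mul (C * (1 + z.im) * (4 * (1 + 2 / l₀)))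
  have bd : ∀ σ, ‖G σ * (σ - ζ) * kk l z σ‖ ≤
      C * (1 + z.im) * (4 * (1 + 2 / l₀)) * kk (l₀ / 2) z σ := fun σ => by
    have hq := qq_nn z σ
    have h1 := pb (half_pos h0) hq
    have h2 : Real.exp (l₀ / 2 * qq z σ) * kk l z σ ≤ kk (l₀ / 2) z σ := by
      rw [kk, kk, ← Real.exp_add, Real.exp_le_exp]
      nlinarith
    have h3 : 0 < kk l z σ := Real.exp_pos _
    rw [norm_mul, norm_real, Real.norm_of_nonneg h3.le]
    calc _ ≤ C * (1 + z.im) * (4 + qq z σ) * kk l z σ := by gcongr; exact key hC hb z σ hζ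
      _ ≤ C * (1 + z.im) * (4 * ((1 + 1 / (l₀ / 2)) * Real.exp (l₀ / 2 * qq z σ))) * kk l z σ := by
        gcongr; linarith
      _ = C * (1 + z.im) * (4 * (1 + 2 / l₀)) * (Real.exp (l₀ / 2 * qq z σ) * kk l z σ) := by
        field_simp
      _ ≤ _ := by gcongr
  have t : Integrable (fun σ => G σ * (σ - ζ) * kk l z σ) := hi.mono'
    (hF.continuous.mul (continuous_ofReal.comp (cont_kk l z))).aestronglyMeasurable (.of_forall bd)
  refine ⟨t, (integral_mono t.norm hi bd).trans_eq ?_, mv hF (h0.trans_le hl) z t⟩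
  rw [integral_const_mul, kk_val (half_pos h0)]
  field_simp

end Vale.Agent.P004C.Wa.Mv
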