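import Vale.Agent.P004C.Wa.Fri
import Vale.Agent.P004C.Wa.Mv
import Vale.Agent.P004C.Wa.Lift0

/-! # P004 C, block WA: the terms of the Shimizu kernel -/

set_option autoImplicit false
set_option linter.all false

open Complex MeasureTheory Set CongruenceSubgroup
open UpperHalfPlane hiding I
open scoped MatrixGroups Real ComplexConjugate Classical

noncomputable section

namespace Vale.Agent.P004C.Wa.Lf

abbrev P4 : Type := ℤ × ℤ × ℤ × ℤ

/-- left multiplication -/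
def act (γ : SL(2, ℤ)) (X : P4) : P4 :=
  (γ 0 0 * X.1 + γ 0 1 * X.2.2.1, γ 0 0 * X.2.1 + γ 0 1 * X.2.2.2,
    γ 1 0 * X.1 + γ 1 1 * X.2.2.1, γ 1 0 * X.2.1 + γ 1 1 * X.2.2.2)

theorem det1 (γ : SL(2, ℤ)) : γ 0 0 * γ 1 1 - γ 0 1 * γ 1 0 = 1 := by
  rw [← Matrix.det_fin_two, γ.det_coe]

theorem act_mul (γ δ : SL(2, ℤ)) (X : P4) : act (γ * δ) X = act γ (act δ X) := by
  simp only [act, Matrix.SpecialLinearGroup.coe_mul, Matrix.mul_apply, Fin.sum_univ_two,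
    Prod.mk.injEq]
  refine ⟨?_, ?_, ?_, ?_⟩ <;> ring

theorem act_one (X : P4) : act 1 X = X := by simp [act]

/-- the action as a permutation -/
def actE (γ : SL(2, ℤ)) : P4 ≃ P4 :=
  ⟨act γ, act γ⁻¹, fun X => by rw [← act_mul, inv_mul_cancel, act_one],
    fun X => by rw [← act_mul, mul_inv_cancel, act_one]⟩

theorem cop11 {γ : SL(2, ℤ)} {N : ℤ} (h : N ∣ γ 1 0) : IsCoprime (γ 1 1) N := by
  obtain ⟨k, hk⟩ := h
  exact ⟨γ 0 0, -(γ 0 1 * k), by linear_combination det1 γ + γ 0 1 * hk⟩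

theorem dv {γ : SL(2, ℤ)} {N : ℤ} (h : N ∣ γ 1 0) (X : P4) :
    N ∣ (act γ X).2.2.1 ↔ N ∣ X.2.2.1 :=
  (dvd_add_right (h.mul_right _)).trans
    ⟨(cop11 h).symm.dvd_of_dvd_mul_left, fun k => k.mul_left _⟩

theorem cp {γ : SL(2, ℤ)} {N : ℤ} (h : N ∣ γ 1 0) (X : P4) :
    IsCoprime (act γ X).2.2.2 N ↔ IsCoprime X.2.2.2 N := by
  obtain ⟨k, hk⟩ := h.mul_right X.2.1
  show IsCoprime (γ 1 0 * X.2.1 + γ 1 1 * X.2.2.2) N ↔ _
  rw [hk, add_comm, IsCoprime.add_mul_left_left_iff, IsCoprime.mul_left_iff, and_iff_right (cop11 h)]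

theorem coe_sm (γ : SL(2, ℤ)) (τ : ℍ) :
    ((γ • τ : ℍ) : ℂ) = ((γ 0 0 : ℂ) * τ + (γ 0 1 : ℂ)) / jj γ τ := by
  rw [coe_specialLinearGroup_apply]
  simp [jj]

theorem im_sm (γ : SL(2, ℤ)) (τ : ℍ) : (γ • τ).im = τ.im / ‖jj γ τ‖ ^ 2 := by
  rw [ModularGroup.im_smul_eq_div_normSq, normSq_eq_norm_sq]
  simp [jj, denom]

variable (τ₁ τ₂ : ℍ)

/-- the analytic factor -/
def k0 (X : P4) (τ : ℍ) : ℂ :=
  ((τ : ℂ) * conj ((X.2.2.1 : ℂ) * τ₂ + X.2.2.2) - conj ((X.1 : ℂ) * τ₂ + X.2.1)) *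
    ee (((X.1 * X.2.2.2 - X.2.1 * X.2.2.1 : ℤ) : ℂ) * (τ₁ : ℂ)) *
    Real.exp (-(π * τ₁.im *
      ‖(τ : ℂ) * ((X.2.2.1 : ℂ) * τ₂ + X.2.2.2) - ((X.1 : ℂ) * τ₂ + X.2.1)‖ ^ 2 / (τ.im * τ₂.im)))

theorem cont_k0 (X : P4) : Continuous (k0 τ₁ τ₂ X) := by
  have := UpperHalfPlane.continuous_coe
  exact (((this.mul continuous_const).sub continuous_const).mul continuous_const).mul
    (continuous_ofReal.comp (Continuous.div (continuous_const.mul
      (((this.mul continuous_const).sub continuous_const).norm.pow 2))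
      (UpperHalfPlane.continuous_im.mul continuous_const)
      fun σ => (mul_pos σ.im_pos τ₂.im_pos).ne').neg.rexp)

theorem k0_act (γ : SL(2, ℤ)) (X : P4) (τ : ℍ) :
    jj γ τ * k0 τ₁ τ₂ (act γ X) (γ • τ) = k0 τ₁ τ₂ X τ := by
  have j := Fi.jj_ne γ τ
  have d : (γ 0 0 : ℂ) * (γ 1 1 : ℂ) - (γ 0 1 : ℂ) * (γ 1 0 : ℂ) = 1 := by exact_mod_cast det1 γ
  have e : ∀ z : ℂ, ((γ • τ : ℍ) : ℂ) * (((act γ X).2.2.1 : ℂ) * z + (act γ X).2.2.2) -
      (((act γ X).1 : ℂ) * z + (act γ X).2.1) =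
      ((τ : ℂ) * ((X.2.2.1 : ℂ) * z + X.2.2.2) - ((X.1 : ℂ) * z + X.2.1)) / jj γ τ := fun z => by
    rw [coe_sm, eq_div_iff j]
    field_simp
    simp only [act, jj]
    push_cast
    linear_combination ((τ : ℂ) * ((X.2.2.1 : ℂ) * z + X.2.2.2) - ((X.1 : ℂ) * z + X.2.1)) * d
  have n : (act γ X).1 * (act γ X).2.2.2 - (act γ X).2.1 * (act γ X).2.2.1 =
      X.1 * X.2.2.2 - X.2.1 * X.2.2.1 := by
    simp only [act]
    linear_combination (X.1 * X.2.2.2 - X.2.1 * X.2.2.1) * det1 γ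
  have := norm_pos_iff.2 j
  have := τ.im_pos
  have := τ₂.im_pos
  simp only [k0, map_add, map_mul, map_intCast, e, n, im_sm, norm_div]
  rw [← mul_assoc, ← mul_assoc, mul_div_cancel₀ _ j]
  congr 4
  field_simp

variable {M : ℕ} {ε : ℤ → ℂ} {G : ℍ → ℂ}

theorem bound (hM : 0 < M) (hε : Chr M ε) (hG : MW M ε G) :
    ∃ C : ℝ, 0 ≤ C ∧ ∀ σ, ‖G σ‖ ^ 2 * σ.im ≤ C ^ 2 * (σ.im + 1 / σ.im) := by
  have := NeZero.of_pos hM
  have e : ∀ (g : SL(2, ℤ)) τ, ‖G (g • τ)‖ ^ 2 * (g • τ).im = ‖G (g • τ) / jj g τ‖ ^ 2 * τ.im :=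
    fun g τ => by rw [im_sm, norm_div]; ring
  obtain ⟨C, hC⟩ := ModularGroup.exists_bound_of_subgroup_invariant_of_isBigO
    (f := fun σ : ℍ => ‖G σ‖ ^ 2 * σ.im) ((hG.hol.continuous.norm.pow 2).mul
      UpperHalfPlane.continuous_im) zero_le_one (Γ := Gamma0 M) (fun g => by
        have := ((hG.bdd g).norm_left.pow 2).mul (Asymptotics.isBigO_refl UpperHalfPlane.im _)
        simp only [← Fi.s1_SL, Fi.s1_jj] at this
        simpa only [e, Real.rpow_one, Pi.one_apply, one_pow, one_mul] using this)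
    fun g hg τ => by
      have k := congrArg norm (Fi.chr_norm hε hM (cop11 (mem0.1 hg)))
      rw [norm_mul, RCLike.norm_conj, ← sq, norm_one] at k
      rw [e, hG.law g hg, mul_right_comm, mul_div_cancel_right₀ _ (Fi.jj_ne g τ), norm_mul, mul_pow,
        k, one_mul]
  refine ⟨√C, Real.sqrt_nonneg _, fun σ => ?_⟩
  have := σ.im_pos
  have h := hC σ
  rw [Real.rpow_one] at h
  refine (le_abs_self _).trans (h.trans (mul_le_mul (by rw [Real.sq_sqrt']; exact le_max_left _ _) (max_le ?_ ?_)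
    (by positivity) (sq_nonneg _)))
  · exact le_add_of_nonneg_right (by positivity)
  · exact le_add_of_nonneg_left this.le

variable (M ε G)

/-- a term of the integrand -/
def tm (X : P4) (τ : ℍ) : ℂ :=
  if (M : ℤ) ∣ X.2.2.1 ∧ IsCoprime X.2.2.2 (M : ℤ) then ε X.1 * (G τ * k0 τ₁ τ₂ X τ) else 0

variable {M ε G}

theorem tm_act (hε : Chr M ε) (hG : MW M ε G) {γ : SL(2, ℤ)} (h : γ ∈ Gamma0 M) (X : P4) (τ : ℍ) :
    tm τ₁ τ₂ M ε G (act γ X) (γ • τ) = tm τ₁ τ₂ M ε G X τ := by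
  have h' := mem0.1 h
  simp only [tm, dv h', cp h']
  split_ifs with k
  · have e1 : ε (act γ X).1 = ε (γ 0 0) * ε X.1 := by
      rw [← hε.mul]
      exact hε.per _ _ (by simpa [act] using k.1.mul_left _)
    have e2 : ε (γ 0 0) * ε (γ 1 1) = 1 := Fi.chr_inv hε (by
      rw [show γ 0 0 * γ 1 1 - 1 = γ 0 1 * γ 1 0 by linear_combination det1 γ]
      exact h'.mul_left _)
    rw [e1, hG.law γ h, ← k0_act τ₁ τ₂ γ X τ]
    linear_combination (ε X.1 * jj γ τ * G τ * k0 τ₁ τ₂ (act γ X) (γ • τ)) * e2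
  · rfl

theorem mul_kM {D : ℕ} (hD : D.Coprime M) (τ : ℍ) : G τ * kM M (M * D) ε τ₁ τ₂ τ =
    ∑' X : P4, if (D : ℤ) ∣ X.2.2.1 then tm τ₁ τ₂ M ε G X τ else 0 := by
  rw [kM, ← tsum_mul_left]
  refine tsum_congr fun X => ?_
  have : ((M * D : ℕ) : ℤ) ∣ X.2.2.1 ↔ (D : ℤ) ∣ X.2.2.1 ∧ (M : ℤ) ∣ X.2.2.1 := by
    push_cast
    exact ⟨fun k => ⟨(Dvd.intro_left _ rfl).trans k, (Dvd.intro _ rfl).trans k⟩,
      fun k => (Nat.isCoprime_iff_coprime.2 hD.symm).mul_dvd k.2 k.1⟩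
  simp only [tm, k0, this, and_assoc, ite_and (P := (D : ℤ) ∣ X.2.2.1)]
  split_ifs
  · ring
  · simp
  · simp

/-- Hermite representatives -/
abbrev Rp : Type := {r : ℤ × ℕ × ℕ // r.1 ≠ 0 ∧ r.2.1 < r.2.2}

/-- the matrix -/
def rp (r : Rp) : P4 := (r.1.1, r.1.2.1, 0, r.1.2.2)

theorem rp_inj {γ δ : SL(2, ℤ)} {r s : Rp} (h : act γ (rp r) = act δ (rp s)) : γ = δ ∧ r = s := by
  have e : act (δ⁻¹ * γ) (rp r) = rp s := by rw [act_mul, h, ← act_mul, inv_mul_cancel, act_one]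
  generalize hη : δ⁻¹ * γ = η at e
  obtain ⟨⟨a, b, d⟩, ha, hb⟩ := r
  obtain ⟨⟨a', b', d'⟩, ha', hb'⟩ := s
  simp only [act, rp, Prod.mk.injEq, mul_zero, add_zero] at e ha hb ha' hb'
  obtain ⟨e1, e2, e3, e4⟩ := e
  have h10 : η 1 0 = 0 := (mul_eq_zero.1 e3).resolve_right ha
  have dt := det1 η
  rw [h10, mul_zero, sub_zero] at dt
  rw [h10, zero_mul, zero_add] at e4
  have h11 : η 1 1 = 1 := Int.eq_one_of_mul_eq_one_left (by nlinarith) dt
  have h00 : η 0 0 = 1 := by simpa [h11] using dt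
  rw [h11] at e4
  rw [h00] at e1 e2
  have h01 : η 0 1 = 0 := by
    rcases lt_trichotomy (η 0 1) 0 with k | k | k
    · nlinarith
    · exact k
    · nlinarith
  rw [h01] at e2
  refine ⟨(inv_mul_eq_one.1 (hη.trans ?_)).symm, Subtype.ext ?_⟩
  · ext i j
    fin_cases i <;> fin_cases j <;> simp [h00, h01, h10, h11]
  · simp only [Prod.mk.injEq]
    omega

theorem rp_surj {X : P4} (h : X.1 * X.2.2.2 - X.2.1 * X.2.2.1 ≠ 0) : ∃ γ r, act γ (rp r) = X := by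
  obtain ⟨a, b, c, d⟩ := X
  simp only at h
  have g0 : 0 < Int.gcd a c := Int.gcd_pos_iff.2 (by
    by_contra k
    push Not at k
    simp [k.1, k.2] at h)
  obtain ⟨g, x, y, u, v, hg, rfl, rfl, e, p⟩ : ∃ g x y u v : ℤ, g ≠ 0 ∧ a = x * g ∧ c = y * g ∧
      u * x + v * y = 1 ∧ 0 < x * d - y * b := by
    obtain ⟨x, y, k, ha, hc⟩ := Int.exists_gcd_one g0
    obtain ⟨u, v, e⟩ := Int.isCoprime_iff_gcd_eq_one.2 k
    have : x * d - y * b ≠ 0 := fun k => h (by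
      linear_combination (Int.gcd a c : ℤ) * k + d * ha - b * hc)
    rcases this.lt_or_gt with p | p
    · exact ⟨-Int.gcd a c, -x, -y, -u, -v, by omega, by linarith, by linarith, by linarith,
        by linarith⟩
    · exact ⟨Int.gcd a c, x, y, u, v, by omega, ha, hc, e, p⟩
  set n := x * d - y * b with hn
  have m0 := Int.emod_nonneg (u * b + v * d) p.ne'
  have m1 := Int.emod_lt_of_pos (u * b + v * d) p
  have m2 := Int.emod_add_mul_ediv (u * b + v * d) n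
  set k := (u * b + v * d) / n
  set s := (u * b + v * d) % n
  refine ⟨⟨!![x, x * k - v; y, y * k + u], by rw [Matrix.det_fin_two_of]; linear_combination e⟩,
    ⟨(g, s.toNat, n.toNat), hg, by simp only; omega⟩, ?_⟩
  simp only [act, rp, Int.toNat_of_nonneg m0, Int.toNat_of_nonneg p.le, Prod.mk.injEq]
  simp
  constructor
  · linear_combination x * m2 + b * e - v * hn
  · linear_combination y * m2 + d * e + u * hn

end Vale.Agent.P004C.Wa.Lf
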