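import Vale.Agent.P004C.Wa.Lift1

/-! # P004 C, block WA: the orbital integrals of the Shimizu kernel -/

set_option autoImplicit false
set_option linter.all false

open Complex MeasureTheory Set CongruenceSubgroup
open UpperHalfPlane hiding I
open scoped MatrixGroups Real ComplexConjugate Classical

noncomputable section

namespace Vale.Agent.P004C.Wa.Lf

open Mv

variable (τ₁ τ₂ : ℍ)

theorem nee (n : ℝ) (τ : ℍ) : ‖ee (n * (τ : ℂ))‖ = Real.exp (-(2 * π * τ.im * n)) := by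
  rw [ee, norm_exp]
  congr 1
  simp
  ring

theorem k0_rp (G : ℍ → ℂ) (r : Rp) : ∃ (z : ℍ) (ζ κ : ℂ), (ζ = z ∨ ζ = conj (z : ℂ)) ∧
    z.im = r.1.1.natAbs * τ₂.im / r.1.2.2 ∧
    ‖κ‖ = r.1.2.2 * Real.exp (-(2 * π * τ₁.im * (r.1.1.natAbs * r.1.2.2))) ∧
    (∀ σ, k0 τ₁ τ₂ (rp r) σ = κ * ((σ - ζ) * kk (π * τ₁.im * (r.1.1.natAbs * r.1.2.2)) z σ)) ∧
    κ * (G z * (z - ζ) * (π / (π * τ₁.im * (r.1.1.natAbs * r.1.2.2) : ℝ))) =
      if 0 < r.1.1 then 2 * I * (τ₂.im / τ₁.im) * (ee ((r.1.1 * r.1.2.2 : ℤ) * (τ₁ : ℂ)) *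
        (G (ofComplex ((r.1.1 * (τ₂ : ℂ) + r.1.2.1) / r.1.2.2)) / r.1.2.2)) else 0 := by
  obtain ⟨⟨a, b, d⟩, ha, hb⟩ := r
  simp only at ha hb ⊢
  have d0 : (0 : ℝ) < d := by exact_mod_cast (Nat.zero_le b).trans_lt hb
  have d1 : (d : ℂ) ≠ 0 := by exact_mod_cast d0.ne'
  have y1 := τ₁.im_pos
  have y2 := τ₂.im_pos
  set z₀ : ℂ := (a * (τ₂ : ℂ) + b) / d with hz
  have im0 : z₀.im = a * τ₂.im / d := by rw [hz, div_natCast_im]; simp
  have e : ∀ σ : ℍ, k0 τ₁ τ₂ (a, b, 0, d) σ = d * ee ((a * d : ℤ) * (τ₁ : ℂ)) * ((σ - conj z₀) *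
      Real.exp (-(π * τ₁.im * (d ^ 2 * ‖(σ : ℂ) - z₀‖ ^ 2) / (σ.im * τ₂.im)))) := fun σ => by
    have h1 : (σ : ℂ) * d - (a * (τ₂ : ℂ) + b) = d * (σ - z₀) := by rw [hz]; field_simp
    have h2 : (σ : ℂ) * d - conj (a * (τ₂ : ℂ) + b) = d * (σ - conj z₀) := by
      rw [hz, map_div₀, map_natCast]; field_simp
    simp only [k0, Int.cast_zero, zero_mul, zero_add, mul_zero, sub_zero, Int.cast_natCast,
      map_natCast, h1, h2, norm_mul, norm_natCast, mul_pow]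
    ring
  have n : ‖ee ((a * d : ℤ) * (τ₁ : ℂ))‖ = Real.exp (-(2 * π * τ₁.im * (a * d))) := by
    simpa using nee (a * d) τ₁
  rcases ha.lt_or_gt with h | h
  · have ab : (a.natAbs : ℝ) = -a := by rw [Nat.cast_natAbs, abs_of_neg h, Int.cast_neg]
    have a0 : (a : ℝ) < 0 := by exact_mod_cast h
    have p : 0 < (conj z₀).im := by
      rw [conj_im, im0, ← neg_div, ← neg_mul]
      exact div_pos (mul_pos (neg_pos.2 a0) y2) d0
    have q : (⟨conj z₀, p⟩ : ℍ).im = -a * τ₂.im / d := by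
      show (conj z₀).im = _
      rw [conj_im, im0]; ring
    refine ⟨⟨conj z₀, p⟩, conj z₀, d * ee ((a * d : ℤ) * (τ₁ : ℂ)) *
      Real.exp (4 * (π * τ₁.im * (a * d))), .inl rfl, by rw [q, ab], ?_, fun σ => ?_,
      by simp [h.not_gt]⟩
    · rw [norm_mul, norm_mul, n, norm_natCast, norm_real, Real.norm_of_nonneg (Real.exp_pos _).le,
        mul_assoc, ← Real.exp_add, ab]
      congr 2
      ring
    · have := σ.im_pos
      have k := nrm_conj ⟨conj z₀, p⟩ σ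
      simp only [conj_conj] at k
      have : Real.exp (-(π * τ₁.im * (d ^ 2 * ‖(σ : ℂ) - z₀‖ ^ 2) / (σ.im * τ₂.im))) =
          Real.exp (4 * (π * τ₁.im * (a * d))) *
            kk (π * τ₁.im * (a.natAbs * d)) ⟨conj z₀, p⟩ σ := by
        rw [kk, qq, ← Real.exp_add, k, q, ab]
        congr 1
        have := a0.ne
        field_simp
        ring
      rw [rp, e, this]
      push_cast
      ring
  · have ab : (a.natAbs : ℝ) = a := by rw [Nat.cast_natAbs, abs_of_pos h]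
    have a0 : (0 : ℝ) < a := by exact_mod_cast h
    have p : 0 < z₀.im := by rw [im0]; positivity
    have q : (⟨z₀, p⟩ : ℍ).im = a * τ₂.im / d := im0
    refine ⟨⟨z₀, p⟩, conj z₀, d * ee ((a * d : ℤ) * (τ₁ : ℂ)), .inr rfl, by rw [q, ab],
      by rw [norm_mul, n, norm_natCast, ab], fun σ => ?_, ?_⟩
    · have := σ.im_pos
      rw [rp, e, kk, qq, q, ab]
      congr 5
      field_simp
    · have a1 : (a : ℂ) ≠ 0 := by exact_mod_cast ha
      have : (τ₁.im : ℂ) ≠ 0 := by exact_mod_cast y1.ne'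
      have : (π : ℂ) ≠ 0 := by exact_mod_cast Real.pi_ne_zero
      rw [if_pos h, ofComplex_apply_of_im_pos p, ab]
      simp only [sub_conj, im0]
      push_cast
      field_simp

variable {M : ℕ} {ε : ℤ → ℂ} {G : ℍ → ℂ}

theorem cont_tm (hG : MW M ε G) (X : P4) : Continuous (tm τ₁ τ₂ M ε G X) := by
  unfold tm
  split_ifs
  · exact continuous_const.mul (hG.hol.continuous.mul (cont_k0 _ _ _))
  · exact continuous_const

theorem orb_rp (hM : 0 < M) (hε : Chr M ε) (hG : MW M ε G) : ∃ K ρ : ℝ, 0 ≤ ρ ∧ ρ < 1 ∧ ∀ r : Rp,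
    Integrable (tm τ₁ τ₂ M ε G (rp r)) ∧
    ∫ σ, ‖tm τ₁ τ₂ M ε G (rp r) σ‖ ≤ K * (ρ ^ r.1.1.natAbs * (ρ ^ r.1.2.1 * ρ ^ r.1.2.2)) ∧
    ∫ σ, tm τ₁ τ₂ M ε G (rp r) σ = 2 * I * (τ₂.im / τ₁.im) *
      if 0 < r.1.1 ∧ r.1.2.2.Coprime M then ε r.1.1 * ee ((r.1.1 * r.1.2.2 : ℤ) * (τ₁ : ℂ)) *
        (G (ofComplex ((r.1.1 * (τ₂ : ℂ) + r.1.2.1) / r.1.2.2)) / r.1.2.2) else 0 := by
  obtain ⟨C, C0, hC⟩ := bound hM hε hG
  have y1 := τ₁.im_pos
  have y2 := τ₂.im_pos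
  have l0 : 0 < π * τ₁.im := by positivity
  set l := π * τ₁.im with hl
  set B := 4 * (1 + 2 / l) * (2 * π / l) with hB
  have B0 : 0 ≤ B := by positivity
  refine ⟨C * B * ((1 + τ₂.im) * (1 + 1 / l)), Real.exp (-(l / 3)), (Real.exp_pos _).le,
    Real.exp_lt_one_iff.2 (by linarith), fun r => ?_⟩
  by_cases c : r.1.2.2.Coprime M
  swap
  · have : tm τ₁ τ₂ M ε G (rp r) = fun _ => 0 := funext fun σ =>
      if_neg fun k => c (Nat.isCoprime_iff_coprime.1 k.2)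
    simp only [this, c, and_false, if_false, integral_zero, norm_zero, mul_zero, and_true]
    exact ⟨integrable_zero _ _ _, by positivity⟩
  obtain ⟨z, ζ, κ, h1, h2, h3, h4, h5⟩ := k0_rp τ₁ τ₂ G r
  have a1 : 1 ≤ r.1.1.natAbs := Int.natAbs_pos.2 r.2.1
  have a2 := r.2.2
  set a := r.1.1.natAbs
  set d := r.1.2.2
  have n1 : a ≤ a * d := Nat.le_mul_of_pos_right _ (by omega)
  have n2 : d ≤ a * d := Nat.le_mul_of_pos_left _ a1
  have n1' : (a : ℝ) ≤ a * d := by exact_mod_cast n1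
  have n2' : (d : ℝ) ≤ a * d := by exact_mod_cast n2
  have n3' : (r.1.2.1 : ℝ) ≤ a * d := by exact_mod_cast a2.le.trans n2
  have n4' : (1 : ℝ) ≤ a * d := by exact_mod_cast a1.trans n1
  have d0 : (0 : ℝ) < d := by exact_mod_cast (Nat.zero_le _).trans_lt a2
  obtain ⟨o1, o2, o3⟩ := orb hG.hol C0 hC l0 (le_mul_of_one_le_right l0.le n4') z h1
  have e : tm τ₁ τ₂ M ε G (rp r) = fun σ => ε r.1.1 * κ *
      (G σ * (σ - ζ) * kk (l * (a * d)) z σ) := funext fun σ => by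
    rw [tm, if_pos ⟨dvd_zero _, Nat.isCoprime_iff_coprime.2 c⟩, h4]
    simp only [rp]
    ring
  have ne : ‖ε r.1.1‖ ≤ 1 := by
    by_cases k : IsCoprime r.1.1 (M : ℤ)
    · have k := congrArg norm (Fi.chr_norm hε hM k)
      rw [norm_mul, RCLike.norm_conj, norm_one] at k
      nlinarith [norm_nonneg (ε r.1.1)]
    · simp [(hε.zero _).2 k]
  rw [e]
  refine ⟨o1.const_mul _, ?_, ?_⟩
  · simp only [norm_mul (ε r.1.1 * κ)]
    rw [integral_const_mul, norm_mul, h3]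
    have b1 : d * (1 + z.im) ≤ (1 + τ₂.im) * (1 + a * d) := by
      rw [h2, mul_add, mul_div_cancel₀ _ d0.ne']
      nlinarith
    have b2 : Real.exp (l * (a * d)) * Real.exp (-(2 * π * τ₁.im * (a * d))) ≤
        Real.exp (-(l / 3)) ^ a * (Real.exp (-(l / 3)) ^ r.1.2.1 * Real.exp (-(l / 3)) ^ d) := by
      simp only [← Real.exp_nat_mul, ← Real.exp_add, Real.exp_le_exp]
      rw [mul_assoc 2, ← hl]
      nlinarith
    have := z.im_pos
    calc _ ≤ 1 * (d * Real.exp (-(2 * π * τ₁.im * (a * d)))) * (C * (1 + z.im) * B) := by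
          gcongr
      _ = C * B * (d * (1 + z.im)) * Real.exp (-(2 * π * τ₁.im * (a * d))) := by ring
      _ ≤ C * B * ((1 + τ₂.im) * ((1 + 1 / l) * Real.exp (l * (a * d)))) *
          Real.exp (-(2 * π * τ₁.im * (a * d))) :=
        mul_le_mul_of_nonneg_right (mul_le_mul_of_nonneg_left (b1.trans (mul_le_mul_of_nonneg_left
          (pb l0 (by positivity)) (by positivity))) (by positivity)) (by positivity)
      _ = C * B * ((1 + τ₂.im) * (1 + 1 / l)) * (Real.exp (l * (a * d)) *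
          Real.exp (-(2 * π * τ₁.im * (a * d)))) := by ring
      _ ≤ _ := by gcongr
  · rw [integral_const_mul, o3, mul_assoc, h5]
    by_cases k : 0 < r.1.1
    · rw [if_pos k, if_pos ⟨k, c⟩]; ring
    · rw [if_neg k, if_neg fun h => k h.1]; ring

end Vale.Agent.P004C.Wa.Lf
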