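import Vale.Agent.P004C.Wa.St
import Vale.Agent.P004Z.Lf.Ms
import Vale.Agent.P022.H420.PoiB

/-!
# P004 C, block WA, row RS: bounds for the theta function of a lattice
-/

open UpperHalfPlane hiding I
open Complex CongruenceSubgroup Matrix
open scoped MatrixGroups Real Modular ComplexConjugate Nat

noncomputable section

namespace Vale.Agent.P004C.Wa.Rs

/-- a lattice vector -/
def uu (τ : ℍ) (x : Fin 2 → ℤ) : ℂ := x 0 * τ + x 1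

/-- the size of a term -/
def TT (τ : ℍ) (t : ℝ) (x : Fin 2 → ℤ) : ℝ :=
  ‖uu τ x‖ * Real.exp (-(π * t * ‖uu τ x‖ ^ 2 / τ.im))

/-- the majorant -/
def AA (τ : ℍ) (t : ℝ) : ℝ := ∑' x, TT τ t x

theorem TT_nn (τ : ℍ) (t : ℝ) (x : Fin 2 → ℤ) : 0 ≤ TT τ t x := by unfold TT; positivity

theorem AA_nn (τ : ℍ) (t : ℝ) : 0 ≤ AA τ t := tsum_nonneg (TT_nn τ t)

theorem TT_le (k : ℕ) {t : ℝ} (ht : 0 < t) (τ : ℍ) (x : Fin 2 → ℤ) :
    TT τ t x ≤ (k + 2)! * (τ.im / t) ^ (k + 2) * ‖uu τ x‖ ^ (-(2 * k + 3 : ℝ)) := by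
  have y := τ.im_pos
  rcases (norm_nonneg (uu τ x)).eq_or_lt with h | h
  · rw [TT, ← h, zero_mul]
    positivity
  have a := Real.pow_div_factorial_le_exp (t * ‖uu τ x‖ ^ 2 / τ.im) (by positivity) (k + 2)
  have b : Real.exp (-(π * t * ‖uu τ x‖ ^ 2 / τ.im)) ≤
      (Real.exp (t * ‖uu τ x‖ ^ 2 / τ.im))⁻¹ := by
    rw [← Real.exp_neg]
    gcongr
    nlinarith [Real.pi_gt_three]
  rw [TT, Real.rpow_neg h.le, show (2 * k + 3 : ℝ) = (2 * k + 3 : ℕ) by push_cast; rfl,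
    Real.rpow_natCast]
  refine (mul_le_mul_of_nonneg_left (b.trans (inv_anti₀ (by positivity) a)) h.le).trans_eq ?_
  rw [div_pow, mul_pow, div_pow]
  field_simp
  ring

theorem sum_uu (τ : ℍ) {k : ℝ} (hk : 2 < k) : Summable fun x => ‖uu τ x‖ ^ (-k) :=
  ((EisensteinSeries.summable_one_div_norm_rpow hk).mul_left _).of_nonneg_of_le
    (fun _ => by positivity) (EisensteinSeries.summand_bound τ (by linarith))

theorem TT_sum {t : ℝ} (ht : 0 < t) (τ : ℍ) : Summable (TT τ t) :=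
  ((sum_uu τ (by norm_num)).mul_left _).of_nonneg_of_le (TT_nn τ t) (TT_le 0 ht τ)

theorem AA_le (k : ℕ) : ∃ C : ℝ, 0 ≤ C ∧ ∀ z ∈ 𝒟, 1 / 2 ≤ z.im → ∀ t, 0 < t →
    AA z t ≤ C * (z.im / t) ^ (k + 2) := by
  have hk : (2 : ℝ) < 2 * k + 3 := by have := k.cast_nonneg (α := ℝ); linarith
  have s := EisensteinSeries.summable_one_div_norm_rpow hk
  have r0 := EisensteinSeries.r_pos ⟨⟨1 / 2, 1 / 2⟩, one_half_pos⟩
  refine ⟨(k + 2)! * (EisensteinSeries.r ⟨⟨1 / 2, 1 / 2⟩, one_half_pos⟩ ^ (-(2 * k + 3 : ℝ)) *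
    ∑' x : Fin 2 → ℤ, ‖x‖ ^ (-(2 * k + 3 : ℝ))), by positivity, fun z hz y t ht => ?_⟩
  rw [mul_right_comm, ← tsum_mul_left, ← tsum_mul_left]
  refine (TT_sum ht z).tsum_le_tsum (fun x => (TT_le k ht z x).trans ?_)
    ((s.mul_left _).mul_left _)
  exact mul_le_mul_of_nonneg_left (EisensteinSeries.summand_bound_of_mem_verticalStrip
    (by linarith) x one_half_pos ⟨hz.2, y⟩) (by positivity)

/-- the action on row vectors -/
def vv (σ : SL(2, ℤ)) : (Fin 2 → ℤ) ≃ (Fin 2 → ℤ) where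
  toFun x := x ᵥ* σ.1
  invFun x := x ᵥ* σ⁻¹.1
  left_inv x := by simp [mul_adjugate]
  right_inv x := by simp [adjugate_mul]

theorem jj_eq (σ : SL(2, ℤ)) (z : ℍ) : jj σ z = denom σ z := by
  simp [jj, denom]

theorem jj_ne (σ : SL(2, ℤ)) (z : ℍ) : jj σ z ≠ 0 := jj_eq σ z ▸ denom_ne_zero _ z

theorem im_jj (σ : SL(2, ℤ)) (z : ℍ) : (σ • z).im = z.im / ‖jj σ z‖ ^ 2 := by
  rw [ModularGroup.im_smul_eq_div_normSq, jj_eq, normSq_eq_norm_sq]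

theorem uu_smul (σ : SL(2, ℤ)) (z : ℍ) (x : Fin 2 → ℤ) :
    uu (σ • z) x = uu z (vv σ x) / jj σ z := by
  simpa [EisensteinSeries.eisSummand, ← jj_eq, div_eq_inv_mul] using!
    EisensteinSeries.eisSummand_SL2_apply (-1) x σ z

theorem jj_mul (γ σ : SL(2, ℤ)) (z : ℍ) : jj (γ * σ) z = jj γ (σ • z) * jj σ z :=
  (div_eq_iff (jj_ne σ z)).1 (uu_smul σ z (γ 1)).symm

theorem AA_smul (σ : SL(2, ℤ)) (z : ℍ) (t : ℝ) : AA (σ • z) t = AA z t / ‖jj σ z‖ := by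
  have := norm_ne_zero_iff.2 (jj_ne σ z)
  rw [AA, AA, ← (vv σ).tsum_eq (TT z t), ← tsum_div_const]
  refine tsum_congr fun x => ?_
  rw [TT, TT, uu_smul, im_jj, norm_div, div_mul_eq_mul_div]
  congr 3
  field_simp

variable {N : ℕ} {χ : ℤ → ℂ}

theorem chr_le (hN : 0 < N) (h : Chr N χ) (a : ℤ) : ‖χ a‖ ≤ 1 := by
  obtain ⟨B, hB⟩ : ∃ B, ∀ a, ‖χ a‖ ≤ B := ⟨∑ r ∈ Finset.Ico (0 : ℤ) N, ‖χ r‖, fun a => by
    rw [h.per a (a % N) (Int.dvd_self_sub_emod)]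
    exact Finset.single_le_sum (f := fun r => ‖χ r‖) (fun _ _ => norm_nonneg _) (Finset.mem_Ico.2
      ⟨Int.emod_nonneg _ (by omega), Int.emod_lt_of_pos _ (by omega)⟩)⟩
  have p : ∀ n : ℕ, χ (a ^ n) = χ a ^ n := fun n => by
    induction n with
    | zero => simpa using h.one
    | succ n i => rw [pow_succ, h.mul, i, pow_succ]
  by_contra q
  obtain ⟨n, e⟩ := pow_unbounded_of_one_lt B (not_le.1 q)
  exact e.not_ge (by simpa [p] using hB (a ^ n))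

/-- the sublattice -/
def ei (N : ℕ) (v : ℤ × ℤ) : Fin 2 → ℤ := ![v.1 * N, v.2]

theorem ei_inj (hN : 0 < N) : Function.Injective (ei N) := fun v w e =>
  Prod.ext (mul_right_cancel₀ (b := (N : ℤ)) (by omega) (congrFun e 0)) (congrFun e 1)

theorem uu_ei (τ : ℍ) (v : ℤ × ℤ) : uu τ (ei N v) = v.1 * N * (τ : ℂ) + v.2 := by simp [uu, ei]

/-- a term -/
def tm (N : ℕ) (χ : ℤ → ℂ) (τ : ℍ) (t : ℝ) (v : ℤ × ℤ) : ℂ :=
  χ v.2 * conj (v.1 * N * (τ : ℂ) + v.2) *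
    Real.exp (-(π * t * ‖v.1 * N * (τ : ℂ) + v.2‖ ^ 2 / τ.im))

theorem tm_le (h : ∀ a, ‖χ a‖ ≤ 1) (τ : ℍ) (t : ℝ) (v : ℤ × ℤ) :
    ‖tm N χ τ t v‖ ≤ TT τ t (ei N v) := by
  rw [tm, TT, uu_ei, norm_mul, norm_mul, norm_conj, norm_real, Real.norm_of_nonneg (Real.exp_pos _).le,
    mul_assoc]
  exact mul_le_of_le_one_left (by positivity) (h _)

theorem tm_sum (hN : 0 < N) (h : ∀ a, ‖χ a‖ ≤ 1) (τ : ℍ) {t : ℝ} (ht : 0 < t) :
    Summable (tm N χ τ t) :=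
  ((TT_sum ht τ).comp_injective (ei_inj hN)).of_norm_bounded (tm_le h τ t)

theorem tt_le (hN : 0 < N) (h : ∀ a, ‖χ a‖ ≤ 1) (τ : ℍ) {t : ℝ} (ht : 0 < t) :
    ‖tt N χ τ t‖ ≤ AA τ t :=
  (tsum_of_norm_bounded ((TT_sum ht τ).comp_injective (ei_inj hN)).hasSum (tm_le h τ t)).trans
    (tsum_comp_le_tsum_of_inj (TT_sum ht τ) (TT_nn τ t) (ei_inj hN))

open Vale.Agent.P267.H775 Vale.Agent.P022.H420

/-- the basis of the lattice -/
def mm (N : ℕ) (τ : ℍ) : Matrix (Fin 2) (Fin 2) ℝ := !![N * τ.re, N; -(N * τ.im), 0]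

theorem poi (hN : 0 < N) (τ : ℍ) {t : ℝ} (ht : 0 < t) (x : Fin 2 → ℝ) :
    ‖∑' n : Fin 2 → ℤ, pg (mm N τ) 1 (I * (t / τ.im : ℝ)) (x + toR n)‖ ≤
      AA τ (1 / (N ^ 2 * t)) / (N ^ 3 * t ^ 2) := by
  have y := τ.im_pos
  have n : (0 : ℝ) < N := Nat.cast_pos.2 hN
  have d : (mm N τ).det = N ^ 2 * τ.im := by
    simp [mm, det_fin_two]
    ring
  have s := (vv ModularGroup.S).hasSum_iff.2 (TT_sum (t := 1 / (N ^ 2 * t)) (by positivity) τ).hasSum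
  refine (poi_pg _ (by rw [d]; positivity) 1 (by simp; positivity) x).norm_le_of_bounded
    (s.div_const _) fun k => le_of_eq ?_
  have i : (mm N τ)⁻¹ = !![0, -(1 / (N * τ.im)); 1 / N, τ.re / (N * τ.im)] := by
    refine inv_eq_right_inv ?_
    ext i j
    fin_cases i <;> fin_cases j <;> simp [mm, mul_apply] <;> field_simp
    ring
  have e : zc ((mm N τ)⁻¹ᵀ *ᵥ toR k) = I * conj (uu τ (vv ModularGroup.S k)) / (N * τ.im : ℝ) := by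
    have v : (mm N τ)⁻¹ᵀ *ᵥ toR k = ![(k 1 : ℝ) / N, (τ.re * k 1 - k 0) / (N * τ.im)] := by
      ext j
      fin_cases j <;> simp [i, mulVec, dotProduct] <;> ring
    rw [eq_div_iff (ofReal_ne_zero.2 (by positivity)), v, zc]
    apply Complex.ext <;> simp [-ofReal_div, uu, vv, ModularGroup.S, vecHead, vecTail] <;> field_simp
    ring
  have e1 : ‖zc ((mm N τ)⁻¹ᵀ *ᵥ toR k)‖ = ‖uu τ (vv ModularGroup.S k)‖ / (N * τ.im) := by
    rw [e, norm_div, norm_mul, norm_I, norm_conj, one_mul, norm_real, Real.norm_of_nonneg (by positivity)]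
  have e2 : (π * I * (-1 / (I * (t / τ.im : ℝ))) * (qf (mm N τ)⁻¹ᵀ (toR k) : ℝ) : ℂ) =
      (-(π * (1 / (N ^ 2 * t)) * ‖uu τ (vv ModularGroup.S k)‖ ^ 2 / τ.im) : ℝ) := by
    have := ofReal_ne_zero.2 y.ne'
    have := ofReal_ne_zero.2 ht.ne'
    have : (N : ℂ) ≠ 0 := Nat.cast_ne_zero.2 hN.ne'
    rw [qf_eq_norm, e1]
    push_cast
    field_simp
  rw [e2, d, ← ofReal_exp]
  simp only [norm_mul, norm_chr, pow_one, e1, norm_div, norm_I, norm_real, norm_one, Function.comp,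
    TT, Real.norm_eq_abs, abs_inv, Real.abs_exp, abs_of_pos y, abs_of_pos ht,
    abs_of_pos (show 0 < N ^ 2 * τ.im by positivity)]
  field_simp

theorem tm_eq (hN : 0 < N) (h : Chr N χ) (τ : ℍ) (t : ℝ) (r : ℤ) (x : Fin 2 → ℤ) :
    tm N χ τ t (x 0, x 1 * N + r) =
      χ r * pg (mm N τ) 1 (I * (t / τ.im : ℝ)) (![0, (r : ℝ) / N] + toR x) := by
  have n : (0 : ℝ) < N := Nat.cast_pos.2 hN
  have b : zc (mm N τ *ᵥ (![0, (r : ℝ) / N] + toR x)) =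
      conj (x 0 * N * (τ : ℂ) + (x 1 * N + r : ℤ)) := by
    apply Complex.ext <;> simp [zc, mm, vecHead, vecTail] <;> field_simp
    ring
  rw [tm, pg_apply, gau_apply, qf_eq_norm, b,
    norm_conj, pow_one, h.per (x 1 * N + r) r (by simp), mul_assoc, ofReal_exp]
  congr 3
  generalize ‖x 0 * N * (τ : ℂ) + (x 1 * N + r : ℤ)‖ = w
  push_cast
  linear_combination (-π * t * w ^ 2 / τ.im) * I_sq

theorem tt_le' (hN : 0 < N) (h : Chr N χ) (τ : ℍ) {t : ℝ} (ht : 0 < t) :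
    ‖tt N χ τ t‖ ≤ AA τ (1 / (N ^ 2 * t)) / (N ^ 2 * t ^ 2) := by
  have : NeZero N := ⟨hN.ne'⟩
  have n : (0 : ℝ) < N := Nat.cast_pos.2 hN
  obtain ⟨e, a⟩ : ∃ e : Fin N × (Fin 2 → ℤ) ≃ ℤ × ℤ, ∀ p, e p = (p.2 0, p.2 1 * N + p.1) :=
    ⟨(Equiv.prodComm _ _).trans <| ((finTwoArrowEquiv ℤ).prodCongr (.refl _)).trans <|
      (Equiv.prodAssoc _ _ _).trans ((Equiv.refl _).prodCongr (Int.divModEquiv N).symm),
      fun _ => rfl⟩
  have s : Summable fun p => tm N χ τ t (e p) := e.summable_iff.2 (tm_sum hN (chr_le hN h) τ ht)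
  rw [show tt N χ τ t = ∑' v, tm N χ τ t v from rfl, ← e.tsum_eq, s.tsum_prod, tsum_fintype]
  refine (norm_sum_le_of_le _ (n := fun _ => AA τ (1 / (N ^ 2 * t)) / (N ^ 3 * t ^ 2))
    fun r _ => ?_).trans_eq ?_
  · simp only [a, tm_eq hN h, tsum_mul_left, norm_mul]
    exact (mul_le_of_le_one_left (norm_nonneg _) (chr_le hN h _)).trans (poi hN τ ht _)
  · simp
    field_simp

/-- the hypotheses on the integrand -/
structure Hy (N : ℕ) (χ : ℤ → ℂ) (Φ : ℍ → ℂ) : Prop where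
  pos : 0 < N
  chr : Chr N χ
  cont : Continuous Φ
  law : ∀ γ ∈ Gamma0 N, ∀ τ, jj γ τ * Φ (γ • τ) = χ (γ 1 1) * Φ τ
  dec : ∀ γ : SL(2, ℤ), ∃ B c : ℝ, 0 < c ∧ ∀ τ : ℍ, 1 / 2 ≤ τ.im →
    ‖jj γ τ * Φ (γ • τ)‖ ≤ B * Real.exp (-(c * τ.im))

variable {Φ : ℍ → ℂ} (H : Hy N χ Φ)
include H

theorem Hy.unif (k : ℕ) : ∃ C : ℝ, 0 ≤ C ∧ ∀ (σ : SL(2, ℤ)) (z : ℍ), 1 / 2 ≤ z.im →
    ‖jj σ z * Φ (σ • z)‖ * z.im ^ k ≤ C := by
  have : NeZero N := ⟨H.pos.ne'⟩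
  have := Subgroup.fintypeQuotientOfFiniteIndex (H := Gamma0 N)
  choose B c hc hB using H.dec
  refine ⟨∑ q : SL(2, ℤ) ⧸ Gamma0 N, |B q.out⁻¹| * (k ! / c q.out⁻¹ ^ k),
    Finset.sum_nonneg fun q _ => by have := hc q.out⁻¹; positivity, fun σ z y => le_trans ?_
    (Finset.single_le_sum (fun q _ => by have := hc q.out⁻¹; positivity)
      (Finset.mem_univ ((σ⁻¹ : SL(2, ℤ)) : SL(2, ℤ) ⧸ Gamma0 N)))⟩
  obtain ⟨g, e⟩ := QuotientGroup.mk_out_eq_mul (Gamma0 N) σ⁻¹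
  generalize hρ : (((σ⁻¹ : SL(2, ℤ)) : SL(2, ℤ) ⧸ Gamma0 N).out)⁻¹ = ρ
  obtain rfl : σ = g.1 * ρ := by rw [← hρ, e]; simp
  have := hc ρ
  have a := Real.pow_div_factorial_le_exp (c ρ * z.im) (by positivity) k
  rw [jj_mul, mul_smul, mul_right_comm, H.law _ g.2, mul_assoc, norm_mul, mul_comm (Φ _)]
  calc _ ≤ 1 * (|B ρ| * Real.exp (-(c ρ * z.im))) * z.im ^ k := by
        gcongr
        · exact chr_le H.pos H.chr _
        · exact (hB ρ z y).trans (by gcongr; exact le_abs_self _)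
    _ ≤ _ := by
        rw [one_mul, mul_assoc, Real.exp_neg, inv_mul_eq_div]
        gcongr _ * ?_
        rw [div_le_div_iff₀ (Real.exp_pos _) (by positivity), mul_comm, ← mul_pow]
        rwa [div_le_iff₀' (by positivity)] at a

theorem Hy.key (k : ℕ) : ∃ C : ℝ, ∀ (τ : ℍ) (t : ℝ), 0 < t →
    ‖Φ τ‖ / τ.im * AA τ t ≤ C / t ^ (k + 2) := by
  obtain ⟨C, c0, hC⟩ := H.unif (k + 1)
  obtain ⟨D, d0, hD⟩ := AA_le k
  refine ⟨C * D, fun τ t ht => ?_⟩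
  obtain ⟨g, hg⟩ := ModularGroup.exists_smul_mem_fd τ
  have y := (P004Z.Lf.fd_im hg).le
  obtain ⟨z, rfl⟩ : ∃ z, τ = g⁻¹ • z := ⟨g • τ, by simp⟩
  rw [smul_inv_smul] at hg y
  have j := norm_pos_iff.2 (jj_ne g⁻¹ z)
  have := z.im_pos
  rw [AA_smul, im_jj]
  calc _ = ‖jj g⁻¹ z * Φ (g⁻¹ • z)‖ / z.im * AA z t := by
        rw [norm_mul]
        field_simp
    _ ≤ ‖jj g⁻¹ z * Φ (g⁻¹ • z)‖ / z.im * (D * (z.im / t) ^ (k + 2)) := by
        gcongr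
        exact hD z hg y t ht
    _ = ‖jj g⁻¹ z * Φ (g⁻¹ • z)‖ * z.im ^ (k + 1) * D / t ^ (k + 2) := by
        rw [div_pow]
        field_simp
        ring
    _ ≤ _ := by
        gcongr
        exact hC _ z y

theorem Hy.bd : ∃ C c : ℝ, 0 < c ∧ ∀ τ : ℍ, ‖Φ τ‖ ≤ C * Real.exp (-(c * τ.im)) := by
  obtain ⟨C, c0, hC⟩ := H.unif 0
  obtain ⟨B, c, hc, hB⟩ := H.dec 1
  refine ⟨|B| + 2 * C * Real.exp c, c, hc, fun τ => ?_⟩
  rcases le_total (1 / 2) τ.im with y | y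
  · refine le_trans (by simp [jj]) ((hB τ y).trans ?_)
    gcongr
    exact (le_abs_self _).trans (le_add_of_nonneg_right (by positivity))
  obtain ⟨g, hg⟩ := ModularGroup.exists_smul_mem_fd τ
  have y' := (P004Z.Lf.fd_im hg).le
  have a := hC g⁻¹ _ y'
  have j : 1 / 2 ≤ ‖jj g⁻¹ (g • τ)‖ := by
    have e := im_jj g⁻¹ (g • τ)
    rw [inv_smul_smul, eq_div_iff (pow_pos (norm_pos_iff.2 (jj_ne _ _)) 2).ne'] at e
    refine le_of_sq_le_sq ?_ (norm_nonneg _)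
    nlinarith [sq_nonneg ‖jj g⁻¹ (g • τ)‖]
  rw [inv_smul_smul, norm_mul, pow_zero, mul_one] at a
  calc _ ≤ 2 * C * 1 := by nlinarith [norm_nonneg (Φ τ)]
    _ ≤ 2 * C * (Real.exp c * Real.exp (-(c * τ.im))) := by
        gcongr
        rw [← Real.exp_add]
        exact Real.one_le_exp (by nlinarith)
    _ ≤ _ := by
        rw [← mul_assoc]
        gcongr
        exact le_add_of_nonneg_left (abs_nonneg _)

theorem Hy.top (k : ℕ) : ∃ C : ℝ, ∀ (τ : ℍ) (t : ℝ), 0 < t →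
    ‖Φ τ / τ.im * tt N χ τ t‖ ≤ C / t ^ (k + 2) := by
  obtain ⟨C, hC⟩ := H.key k
  refine ⟨C, fun τ t ht => le_trans ?_ (hC τ t ht)⟩
  rw [norm_mul, norm_div, norm_real, Real.norm_of_nonneg τ.im_pos.le]
  have := τ.im_pos
  gcongr
  exact tt_le H.pos (chr_le H.pos H.chr) τ ht

theorem Hy.bot : ∃ C : ℝ, ∀ (τ : ℍ) (t : ℝ), 0 < t → ‖Φ τ / τ.im * tt N χ τ t‖ ≤ C := by
  obtain ⟨C, hC⟩ := H.key 0
  have n : (0 : ℝ) < N := Nat.cast_pos.2 H.pos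
  refine ⟨C * N ^ 2, fun τ t ht => ?_⟩
  have := τ.im_pos
  rw [norm_mul, norm_div, norm_real, Real.norm_of_nonneg τ.im_pos.le]
  calc _ ≤ ‖Φ τ‖ / τ.im * (AA τ (1 / (N ^ 2 * t)) / (N ^ 2 * t ^ 2)) := by
        gcongr
        exact tt_le' H.pos H.chr τ ht
    _ ≤ C / (1 / (N ^ 2 * t)) ^ (0 + 2) / (N ^ 2 * t ^ 2) := by
        rw [← mul_div_assoc]
        gcongr
        exact hC τ _ (by positivity)
    _ = _ := by
        rw [zero_add]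
        field_simp

end Vale.Agent.P004C.Wa.Rs
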