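import Vale.Agent.P004C.Wa.Co

/-!
# P004 C, block WA: Euler factors of a biquadratic field
-/

open NumberField Module Ideal PowerSeries
open scoped Classical NumberTheorySymbols

noncomputable section

namespace Vale.Agent.P004C.Wa.Re0

open Vale.Agent.P004C.Al (Cm)
open Co

variable {K L M : Type} [Field K] [NumberField K] [Field L] [NumberField L] [Field M]
  [NumberField M] [Algebra K M] [Algebra L M]

variable (K L M) in
/-- a biquadratic field -/
structure Bq : Prop where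
  k : finrank ℚ K = 2
  l : finrank ℚ L = 2
  km : finrank K M = 2
  lm : finrank L M = 2
  int : ∀ (x : L) (y : K), algebraMap L M x = algebraMap K M y → ∃ q : ℚ, x = q ∧ y = q

omit [NumberField M] in
theorem Bq.symm (B : Bq K L M) : Bq L K M :=
  ⟨B.l, B.k, B.lm, B.km, fun x y e => (B.int y x e.symm).imp fun _ h => h.symm⟩

theorem Bq.pair (B : Bq K L M) : ∃ σ : 𝓞 M →+* 𝓞 M, Function.Surjective σ ∧
    (∀ y : 𝓞 L, σ (algebraMap _ _ y) = algebraMap _ _ y) ∧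
    (∀ x : 𝓞 K, algebraMap _ _ x * σ (algebraMap _ _ x) = (Algebra.norm ℤ x : ℤ)) ∧
    ∀ x : 𝓞 K, σ (algebraMap _ _ x) = algebraMap _ _ x → ∃ q : ℚ, (x : K) = q := by
  obtain ⟨σ, a, -, -⟩ := aut2 L M B.lm
  obtain ⟨s, -, b, n⟩ := aut2 ℚ K B.k
  have : Algebra.IsQuadraticExtension ℚ K := ⟨B.k⟩
  have fx : ∀ x : K, σ (algebraMap K M x) = algebraMap K M x → ∃ q : ℚ, x = q := fun x e => by
    obtain ⟨y, hy⟩ := a _ e
    exact (B.int y x hy).imp fun _ h => h.2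
  have c := (σ.restrictScalars ℚ).restrictNormal_commutes K
  have e : (σ.restrictScalars ℚ).restrictNormal K = s := (b _).resolve_left fun e => by
    have := Algebra.finrank_eq_one_iff_bijective_algebraMap.2
      ⟨(algebraMap ℚ K).injective, fun x => (fx x (by simpa [e] using (c x).symm)).imp
        fun _ h => h.symm⟩
    have := B.k
    omega
  refine ⟨RingOfIntegers.mapRingEquiv σ.toRingEquiv, RingEquiv.surjective _,
    fun y => RingOfIntegers.ext (σ.commutes y), fun x => RingOfIntegers.ext ?_,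
    fun x h => fx x (congrArg (fun z : 𝓞 M => (z : M)) h)⟩
  have := congrArg (algebraMap K M) (n x)
  rw [map_mul, ← e, c, ← Algebra.coe_norm_int] at this
  refine this.symm.trans ?_
  simp

section

variable {F : Type} [Field F] [NumberField F] [Algebra F M]

theorem one_lt {P : Ideal (𝓞 F)} (m : P.IsMaximal) : 1 < absNorm P := by
  have a := absNorm_eq_one_iff.not.2 m.ne_top
  have b := absNorm_eq_zero_iff.not.2 (Al.Eu.prime_iff.2 m).ne_zero
  omega

theorem rel_pow {Q : Ideal (𝓞 M)} (q : Q.IsMaximal) {P : Ideal (𝓞 F)} (u : Q.under (𝓞 F) = P)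
    {f : ℕ} (h : absNorm Q = absNorm P ^ f) : relNorm (𝓞 F) Q = P ^ f := by
  have m : P.IsMaximal := u ▸ inferInstance
  have e := Al.Eu.norm_max (M := F) Q
  rw [u] at e
  have := absNorm_relNorm (𝓞 F) (𝓞 M) Q
  rw [e, map_pow, h] at this
  rw [e, Nat.pow_right_injective (one_lt m) this]

theorem rk (h : finrank F M = 2) : finrank (𝓞 F) (𝓞 M) = 2 := by
  rw [← IsFractionRing.finrank_eq (𝓞 F) F (𝓞 M) M, h]

omit [NumberField M] [NumberField F] in
theorem und {Q : Ideal (𝓞 M)} (q : Q.IsMaximal) {P : Ideal (𝓞 F)} (m : P.IsMaximal)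
    (l : P.map (algebraMap _ _) ≤ Q) : Q.under (𝓞 F) = P :=
  (m.eq_of_le (IsMaximal.under (𝓞 F) Q).ne_top (map_le_iff_le_comap.1 l)).symm

theorem tri_rel (h : finrank F M = 2) {P : Ideal (𝓞 F)} (m : P.IsMaximal) :
    (P.map (algebraMap _ (𝓞 M))).IsMaximal ∨ ∃ Q Q' : Ideal (𝓞 M), Q.IsMaximal ∧ Q'.IsMaximal ∧
      P.map (algebraMap _ _) = Q * Q' ∧ absNorm Q = absNorm P ∧ absNorm Q' = absNorm P :=
  tri (one_lt m) (by rw [absNorm_algebraMap, rk h]) fun Q q l => by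
    rw [← absNorm_relNorm (𝓞 F) (𝓞 M) Q]
    exact absNorm_dvd_absNorm_of_le ((relNorm_le_comap _ _).trans (und q m l).le)

theorem two_spl (h : finrank F M = 2) {P : Ideal (𝓞 F)} (m : P.IsMaximal) {Q Q' : Ideal (𝓞 M)}
    (q : Q.IsMaximal) (q' : Q'.IsMaximal) (n : Q ≠ Q') (u : Q.under (𝓞 F) = P)
    (u' : Q'.under (𝓞 F) = P) :
    P.map (algebraMap _ _) = Q * Q' ∧ absNorm Q = absNorm P ∧ absNorm Q' = absNorm P := by
  have l := map_le_iff_le_comap.2 u.ge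
  have l' := map_le_iff_le_comap.2 u'.ge
  rcases tri_rel h m with k | ⟨A, A', a, a', e, x, x'⟩
  · exact absurd ((k.eq_of_le q.ne_top l).symm.trans (k.eq_of_le q'.ne_top l')) n
  rcases le_two a a' q (e ▸ l) with rfl | rfl <;> rcases le_two a a' q' (e ▸ l') with rfl | rfl
  · exact absurd rfl n
  · exact ⟨e, x, x'⟩
  · exact ⟨e.trans (mul_comm _ _), x', x⟩
  · exact absurd rfl n

omit [NumberField F] [NumberField M] in
theorem mem_und {Q : Ideal (𝓞 M)} {p : ℕ} (h : (p : 𝓞 M) ∈ Q) : (p : 𝓞 F) ∈ Q.under (𝓞 F) :=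
  mem_comap.2 (by rwa [map_natCast])

omit [NumberField F] [NumberField M] in
theorem of_und {Q : Ideal (𝓞 M)} {p : ℕ} (h : (p : 𝓞 F) ∈ Q.under (𝓞 F)) : (p : 𝓞 M) ∈ Q := by
  rwa [mem_comap, map_natCast] at h

theorem eq_nm {A Q : Ideal (𝓞 F)} (l : A ≤ Q) (e : absNorm A = absNorm Q) (n : absNorm Q ≠ 0) :
    A = Q := by
  obtain ⟨c, rfl⟩ := dvd_iff_le.2 l
  rw [map_mul, mul_eq_left₀ n, absNorm_eq_one_iff] at e
  rw [e, mul_top]

theorem gen2 {c : Ideal (𝓞 F) → ℂ} (h : Cm c) {p f : ℕ} (hp : p.Prime) {Q Q' : Ideal (𝓞 F)}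
    (q : Q.IsMaximal) (q' : Q'.IsMaximal) (n : Q ≠ Q') (e : absNorm Q = p ^ f)
    (e' : absNorm Q' = p ^ f) (a : ∀ R, R.IsMaximal → (p : 𝓞 F) ∈ R → R = Q ∨ R = Q') :
    ser p c * ((1 - C (c Q) * X ^ f) * (1 - C (c Q') * X ^ f)) = 1 := by
  refine Eq.trans ?_ (gen hp (fun _ => f) {Q, Q'} c h (fun R r m _ => by simpa using a R r m)
    fun R hR => ?_)
  · rw [Finset.prod_pair n]
  · rcases Finset.mem_insert.1 hR with rfl | hR
    · exact ⟨q, e⟩
    · rw [Finset.mem_singleton.1 hR]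
      exact ⟨q', e'⟩

end

/-- the primes above `P` when `p` splits in `K` -/
structure Ab (P : Ideal (𝓞 L)) (A A' : Ideal (𝓞 K)) (Q Q' : Ideal (𝓞 M)) : Prop where
  m : Q.IsMaximal
  m' : Q'.IsMaximal
  mul : P.map (algebraMap _ _) = Q * Q'
  n : absNorm Q = absNorm P
  n' : absNorm Q' = absNorm P
  l : Q.under (𝓞 L) = P
  l' : Q'.under (𝓞 L) = P
  k : Q.under (𝓞 K) = A
  k' : Q'.under (𝓞 K) = A'

theorem Bq.ab (B : Bq K L M) {p : ℕ} {A A' : Ideal (𝓞 K)} (S : Spl p A A') {P : Ideal (𝓞 L)}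
    (m : P.IsMaximal) (hP : (p : 𝓞 L) ∈ P) : ∃ Q Q' : Ideal (𝓞 M), Ab P A A' Q Q' := by
  obtain ⟨σ, s1, s2, s3, -⟩ := B.pair
  obtain ⟨Q, q, ⟨u⟩⟩ := exists_maximal_ideal_liesOver_of_isIntegral (S := 𝓞 M) P
  have q' := comap_isMaximal_of_surjective σ s1 (K := Q)
  have u' : (Q.comap σ).under (𝓞 L) = P := by
    ext y
    rw [u, mem_comap, mem_comap, mem_comap, s2]
  have pQ : (p : 𝓞 M) ∈ Q := of_und (u ▸ hP)
  have key : ∀ A A' : Ideal (𝓞 K), Spl p A A' → Q.under (𝓞 K) = A →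
      (Q.comap σ).under (𝓞 K) = A' := fun A A' S e => by
    refine (S.two inferInstance (mem_und (mem_comap.2 (by rwa [map_natCast])))).resolve_left
      fun e' => S.ne (S.m'.eq_of_le S.m.ne_top fun x hx => ?_).symm
    obtain ⟨r, hr⟩ := absNorm_dvd_norm_of_mem hx
    have : algebraMap _ _ x * σ (algebraMap _ _ x) ∈ Q := by
      rw [s3, hr, S.n']
      push_cast
      exact mul_mem_right _ _ pQ
    exact (q.isPrime.mem_or_mem this).elim (fun h => e ▸ h) fun h => e' ▸ h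
  rcases S.two (IsMaximal.under (𝓞 K) Q) (mem_und pQ) with e | e
  · have e' := key _ _ S e
    obtain ⟨a, b, c⟩ := two_spl B.lm m q q' (fun h => S.ne (by rw [← e, ← e', ← h])) u.symm u'
    exact ⟨_, _, q, q', a, b, c, u.symm, u', e, e'⟩
  · have e' := key _ _ S.symm e
    obtain ⟨a, b, c⟩ := two_spl B.lm m q' q (fun h => S.ne (by rw [← e, ← e', h])) u' u.symm
    exact ⟨_, _, q', q, a, b, c, u', u.symm, e', e⟩

variable (M) in
/-- the character of `M` -/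
def cM (φ : Ideal (𝓞 L) → ℂ) (a : Ideal (𝓞 K) → ℂ) (I : Ideal (𝓞 M)) : ℂ :=
  φ (relNorm (𝓞 L) I) * a (relNorm (𝓞 K) I)

variable {φ : Ideal (𝓞 L) → ℂ} {a : Ideal (𝓞 K) → ℂ}

theorem cM_comm : cM M φ a = cM M a φ := funext fun _ => mul_comm _ _

theorem cM_cm (hφ : Cm φ) (ha : Cm a) : Cm (cM M φ a) :=
  ⟨by rw [cM, map_one, map_one, hφ.one, ha.one, mul_one], fun I J => by
    rw [cM, cM, cM, map_mul, map_mul, hφ.mul, ha.mul]; ring⟩

namespace Ab

variable {P : Ideal (𝓞 L)} {A A' : Ideal (𝓞 K)} {Q Q' : Ideal (𝓞 M)}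

omit [NumberField K] in
theorem symm (h : Ab P A A' Q Q') : Ab P A' A Q' Q :=
  ⟨h.m', h.m, h.mul.trans (mul_comm _ _), h.n', h.n, h.l', h.l, h.k', h.k⟩

omit [NumberField K] in
theorem rl (h : Ab P A A' Q Q') : relNorm (𝓞 L) Q = P := by
  rw [rel_pow h.m h.l (f := 1) (by rw [h.n, pow_one]), pow_one]

theorem rk (h : Ab P A A' Q Q') {p f : ℕ} (n : absNorm A = p) (e : absNorm P = p ^ f) :
    relNorm (𝓞 K) Q = A ^ f := rel_pow h.m h.k (by rw [h.n, e, n])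

theorem val (h : Ab P A A' Q Q') (ha : Cm a) {p f : ℕ} (n : absNorm A = p)
    (e : absNorm P = p ^ f) : cM M φ a Q = φ P * a A ^ f := by
  rw [cM, h.rl, h.rk n e, ha.pow]

omit [NumberField K] in
theorem two (h : Ab P A A' Q Q') {R : Ideal (𝓞 M)} (r : R.IsMaximal) (e : R.under (𝓞 L) = P) :
    R = Q ∨ R = Q' := le_two h.m h.m' r (h.mul ▸ map_le_iff_le_comap.2 e.ge)

end Ab

/-- the Rankin-Selberg polynomial -/
def RR (s t s' t' : ℂ) : ℂ⟦X⟧ := 1 - C (s * s') * X + C (s ^ 2 * t' + s' ^ 2 * t - 2 * t * t') * X ^ 2 -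
  C (s * s' * t * t') * X ^ 3 + C (t ^ 2 * t' ^ 2) * X ^ 4

theorem RR_comm (s t s' t' : ℂ) : RR s t s' t' = RR s' t' s t := by
  simp only [RR, map_mul, map_add, map_sub, map_pow]
  ring

theorem caseB (B : Bq K L M) (hφ : Cm φ) (ha : Cm a) {p f : ℕ} (hp : p.Prime)
    {A A' : Ideal (𝓞 K)} (S : Spl p A A') {P : Ideal (𝓞 L)} (m : P.IsMaximal) (hP : (p : 𝓞 L) ∈ P)
    (e : absNorm P = p ^ f) (u : ∀ R, R.IsMaximal → (p : 𝓞 L) ∈ R → R = P) :
    ser p (cM M φ a) * ((1 - C (φ P * a A ^ f) * X ^ f) * (1 - C (φ P * a A' ^ f) * X ^ f)) = 1 := by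
  obtain ⟨Q, Q', h⟩ := B.ab S m hP
  rw [← h.val ha S.n e, ← h.symm.val ha S.n' e]
  exact gen2 (cM_cm hφ ha) hp h.m h.m' (fun x => S.ne (by rw [← h.k, ← h.k', x])) (h.n.trans e)
    (h.n'.trans e) fun R r x => h.two r (u _ inferInstance (mem_und x))

theorem caseA (B : Bq K L M) (hφ : Cm φ) (ha : Cm a) {p : ℕ} (hp : p.Prime)
    {A A' : Ideal (𝓞 K)} (S : Spl p A A') {P P' : Ideal (𝓞 L)} (T : Spl p P P') :
    ser p (cM M φ a) * ((1 - C (φ P * a A) * X) * ((1 - C (φ P * a A') * X) *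
      ((1 - C (φ P' * a A) * X) * (1 - C (φ P' * a A') * X)))) = 1 := by
  obtain ⟨Q, Q', h⟩ := B.ab S T.m T.mem
  obtain ⟨R, R', k⟩ := B.ab S T.m' T.symm.mem
  have e := T.n.trans (pow_one p).symm
  have e' := T.n'.trans (pow_one p).symm
  have d : ∀ {U V : Ideal (𝓞 M)}, U.under (𝓞 L) = P → V.under (𝓞 L) = P' → U ≠ V :=
    fun a b x => T.ne (by rw [← a, ← b, x])
  have d' : ∀ {U V : Ideal (𝓞 M)}, U.under (𝓞 K) = A → V.under (𝓞 K) = A' → U ≠ V :=
    fun a b x => S.ne (by rw [← a, ← b, x])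
  refine Eq.trans ?_ (gen hp (fun _ => 1) {Q, Q', R, R'} _ (cM_cm hφ ha) (fun U r x _ => ?_)
    fun U hU => ?_)
  · rw [Finset.prod_insert (by simp [d' h.k h.k', d h.l k.l, d h.l k.l']),
      Finset.prod_insert (by simp [d h.l' k.l, d h.l' k.l']), Finset.prod_pair (d' k.k k.k'),
      h.val ha S.n e, h.symm.val ha S.n' e, k.val ha S.n e', k.symm.val ha S.n' e']
    simp only [pow_one]
  · rcases T.two (IsMaximal.under (𝓞 L) U) (mem_und x) with y | y
    · rcases h.two r y with rfl | rfl <;> simp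
    · rcases k.two r y with rfl | rfl <;> simp
  · simp only [Finset.mem_insert, Finset.mem_singleton] at hU
    rcases hU with rfl | rfl | rfl | rfl
    exacts [⟨h.m, h.n.trans e⟩, ⟨h.m', h.n'.trans e⟩, ⟨k.m, k.n.trans e'⟩, ⟨k.m', k.n'.trans e'⟩]

theorem caseK (B : Bq K L M) (hφ : Cm φ) (ha : Cm a) {p : ℕ} (hp : p.Prime)
    {A A' : Ideal (𝓞 K)} (S : Spl p A A') {s t : ℂ} (e : Ep φ p s t) :
    ser p (cM M φ a) * RR s t (a A + a A') (a A * a A') = 1 := by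
  rcases e with ⟨P, P', k, rfl, rfl⟩ | ⟨k, rfl, rfl⟩ | ⟨P, k, rfl, rfl⟩
  · refine Eq.trans ?_ (caseA B hφ ha hp S k)
    simp only [RR, map_mul, map_add, map_sub, map_pow, map_ofNat]
    ring
  · refine Eq.trans ?_ (caseB B hφ ha hp S k (mem_span_singleton_self _) (nm_span B.l p)
      fun R r x => ine_one k r x)
    simp only [RR, map_mul, map_add, map_sub, map_pow, map_ofNat, map_neg, map_zero]
    ring
  · refine Eq.trans ?_ (caseB B hφ ha hp S k.m k.mem (k.n.trans (pow_one p).symm)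
      fun R r x => k.one r x)
    simp only [RR, map_mul, map_add, map_sub, map_pow, map_ofNat, map_zero]
    ring

omit [NumberField L] [NumberField M] in
theorem map_p (p : ℕ) : (span {(p : 𝓞 L)}).map (algebraMap _ (𝓞 M)) = span {(p : 𝓞 M)} := by
  rw [map_span, Set.image_singleton, map_natCast]

theorem caseC (B : Bq K L M) (hφ : Cm φ) (ha : Cm a) {p : ℕ} (hp : p.Prime)
    (k : (span {(p : 𝓞 L)}).IsMaximal) {A : Ideal (𝓞 K)} (r : Ram p A) :
    ser p (cM M φ a) * RR 0 (-φ (span {(p : 𝓞 L)})) (a A) 0 = 1 := by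
  set Q := A.map (algebraMap _ (𝓞 M)) with hQ
  have e : span {(p : 𝓞 M)} = Q * Q := by rw [← map_p (L := K), r.mul, Ideal.map_mul]
  have n : absNorm Q = p ^ 2 := by rw [hQ, absNorm_algebraMap, rk B.km, r.n]
  have q : Q.IsMaximal := by
    rcases tri_rel B.lm k with h | ⟨U, U', u, -, x, y, -⟩
    · rw [map_p] at h
      have l : Q ≤ span {(p : 𝓞 M)} := (h.isPrime.mul_le.1 e.ge).elim id id
      have := absNorm_dvd_absNorm_of_le l
      rw [e, map_mul, n, ← pow_add, Nat.pow_dvd_pow_iff_le_right hp.one_lt] at this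
      omega
    · rw [map_p, e] at x
      rw [nm_span B.l] at y
      rwa [eq_nm ((u.isPrime.mul_le.1 (x.le.trans mul_le_left)).elim id id) (n.trans y.symm)
        (y ▸ pow_ne_zero _ hp.ne_zero)]
  have pQ : (p : 𝓞 M) ∈ Q := (e.le.trans mul_le_left) (mem_span_singleton_self _)
  have v : cM M φ a Q = φ (span {(p : 𝓞 L)}) * a A ^ 2 := by
    rw [cM, rel_pow q (ine_one k inferInstance (mem_und pQ)) (f := 1)
      (by rw [n, nm_span B.l, pow_one]), pow_one, hQ, relNorm_algebraMap, rk B.km, ha.pow]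
  refine Eq.trans ?_ (gen hp (fun _ => 2) {Q} _ (cM_cm hφ ha) (fun U u x _ => ?_) fun U hU => ?_)
  · rw [Finset.prod_singleton, v]
    simp only [RR, map_mul, map_add, map_sub, map_pow, map_ofNat, map_neg, map_zero]
    ring
  · exact Finset.mem_singleton.2
      ((le_two q q u (e ▸ (span_singleton_le_iff_mem _).2 x)).elim id id)
  · rw [Finset.mem_singleton.1 hU]
    exact ⟨q, n⟩

theorem ex_sq (h2 : finrank ℚ L = 2) {p : ℕ} (hp : p.Prime) (o : Odd p)
    (k : (span {(p : 𝓞 L)}).IsMaximal) {z : ℤ} (hz : ¬ (p : ℤ) ∣ z) :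
    ∃ y : 𝓞 L, y * y - z ∈ span {(p : 𝓞 L)} := by
  let := Ideal.Quotient.field (span {(p : 𝓞 L)})
  have c1 : Nat.card (𝓞 L ⧸ span {(p : 𝓞 L)}) = p ^ 2 := nm_span h2 p
  have : Finite (𝓞 L ⧸ span {(p : 𝓞 L)}) := Nat.finite_of_card_ne_zero (c1 ▸ pow_ne_zero _ hp.ne_zero)
  have := Fintype.ofFinite (𝓞 L ⧸ span {(p : 𝓞 L)})
  have i : ∀ w : ℤ, (w : 𝓞 L ⧸ span {(p : 𝓞 L)}) = 0 ↔ (p : ℤ) ∣ w := fun w => by
    rw [← map_intCast (Ideal.Quotient.mk (span {(p : 𝓞 L)})), Quotient.eq_zero_iff_mem]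
    refine ⟨int_dvd hp k.ne_top (mem_span_singleton_self _), fun ⟨r, e⟩ => ?_⟩
    rw [e]
    push_cast
    exact mul_mem_right _ _ (mem_span_singleton_self _)
  obtain ⟨r, hr⟩ := o
  have ch : ringChar (𝓞 L ⧸ span {(p : 𝓞 L)}) ≠ 2 := fun e => by
    have := (i 2).1 (by simpa [e] using ringChar.Nat.cast_ringChar (R := 𝓞 L ⧸ span {(p : 𝓞 L)}))
    have := (Nat.prime_dvd_prime_iff_eq hp Nat.prime_two).1 (by exact_mod_cast this)
    omega
  obtain ⟨y, hy⟩ := (FiniteField.isSquare_iff ch ((i z).not.2 hz)).2 (by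
    have e : Fintype.card (𝓞 L ⧸ span {(p : 𝓞 L)}) / 2 = (p - 1) * (r + 1) := by
      rw [← Nat.card_eq_fintype_card, c1, hr, Nat.add_sub_cancel]
      exact Nat.div_eq_of_lt_le (by nlinarith) (by nlinarith)
    have f := (i _).2 (Int.ModEq.pow_card_sub_one_eq_one hp
      ((Nat.prime_iff_prime_int.1 hp).irreducible.coprime_iff_not_dvd.2 hz).symm).dvd
    push_cast at f
    rw [e, pow_mul, ← sub_eq_zero.1 f, one_pow])
  obtain ⟨y, rfl⟩ := Ideal.Quotient.mk_surjective y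
  exact ⟨y, Ideal.Quotient.eq.1 (by rw [map_mul, ← hy, map_intCast])⟩

variable {J : K →+* ℂ} {D : ℕ} {θ : 𝓞 K}

theorem caseD (B : Bq K L M) (h : Kd J D θ) (hφ : Cm φ) (ha : Cm a) {p : ℕ} (hp : p.Prime)
    (k : (span {(p : 𝓞 L)}).IsMaximal) (k' : (span {(p : 𝓞 K)}).IsMaximal) :
    ser p (cM M φ a) * RR 0 (-φ (span {(p : 𝓞 L)})) 0 (-a (span {(p : 𝓞 K)})) = 1 := by
  obtain ⟨σ, s1, s2, -, s4⟩ := B.pair
  obtain ⟨Q, q, ⟨u⟩⟩ := exists_maximal_ideal_liesOver_of_isIntegral (S := 𝓞 M) (span {(p : 𝓞 L)})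
  have q' := comap_isMaximal_of_surjective σ s1 (K := Q)
  have u' : (Q.comap σ).under (𝓞 L) = span {(p : 𝓞 L)} := by
    ext y
    rw [u, mem_comap, mem_comap, mem_comap, s2]
  have pq : ∀ {R : Ideal (𝓞 M)}, R.under (𝓞 L) = span {(p : 𝓞 L)} → (p : 𝓞 M) ∈ R := fun e =>
    of_und (F := L) (e ▸ mem_span_singleton_self (p : 𝓞 L))
  obtain ⟨d, j⟩ := ine_jac h hp k'
  have o : Odd p := hp.eq_two_or_odd'.resolve_left fun e => by
    have := h.md
    rw [e, Nat.cast_ofNat, jacobiSym.at_two (Nat.odd_iff.2 (by omega)),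
      ZMod.χ₈_nat_eq_if_mod_eight, if_neg (by omega), if_pos (Or.inr this)] at j
    omega
  have ne : Q ≠ Q.comap σ := fun e => by
    have b : ∀ x, σ x ∈ Q ↔ x ∈ Q := fun x => by rw [← mem_comap, ← e]
    obtain ⟨y, hy⟩ := ex_sq B.l hp o k (z := -D) (by rwa [Int.dvd_neg, Int.natCast_dvd_natCast])
    have w : σ (algebraMap _ _ θ) = -algebraMap _ _ θ := neg_of h (σ.comp (algebraMap _ _)) _ (s4 θ)
    have sq : algebraMap (𝓞 K) (𝓞 M) θ ^ 2 = -D := by rw [← map_pow, h.sq]; simp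
    have z := mem_comap.1 (u.le hy)
    generalize algebraMap (𝓞 K) (𝓞 M) θ = τ at *
    have sy : σ (τ - algebraMap _ _ y) = -τ - algebraMap _ _ y := by rw [map_sub, w, s2]
    rw [map_sub, map_mul, map_intCast] at z
    generalize algebraMap (𝓞 L) (𝓞 M) y = η at *
    have t1 : τ - η ∈ Q := (q.isPrime.mem_or_mem (show (τ - η) * (-τ - η) ∈ Q by
      convert z using 1
      push_cast
      linear_combination -sq)).elim id fun x => (b _).1 (sy ▸ x)
    have t2 := sub_mem t1 (sy ▸ (b _).2 t1)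
    have t3 : ((4 * D : ℤ) : 𝓞 M) ∈ Q := by
      convert neg_mem (mul_mem_left _ (τ - η - (-τ - η)) t2) using 1
      push_cast
      linear_combination 4 * sq
    rcases (Nat.Prime.dvd_mul hp).1 (Int.natCast_dvd_natCast.1
      (by exact_mod_cast int_dvd hp q.ne_top (pq u.symm) t3) : p ∣ 4 * D) with d' | d'
    · have := (Nat.prime_dvd_prime_iff_eq hp Nat.prime_two).1
        (hp.dvd_of_dvd_pow (show p ∣ 2 ^ 2 from d'))
      exact absurd (this ▸ o) (by decide)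
    · exact d d'
  obtain ⟨e, n, n'⟩ := two_spl B.lm k q q' ne u.symm u'
  have v : ∀ {R : Ideal (𝓞 M)}, R.IsMaximal → R.under (𝓞 L) = span {(p : 𝓞 L)} →
      absNorm R = absNorm (span {(p : 𝓞 L)}) →
      cM M φ a R = φ (span {(p : 𝓞 L)}) * a (span {(p : 𝓞 K)}) := fun r x y => by
    rw [cM, rel_pow r x (f := 1) (by rw [y, pow_one]), rel_pow r
      (ine_one k' inferInstance (mem_und (pq x))) (f := 1)
      (by rw [y, pow_one, nm_span B.l, nm_span B.k]), pow_one, pow_one]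
  refine Eq.trans ?_ (gen2 (cM_cm hφ ha) hp q q' ne (n.trans (nm_span B.l p))
    (n'.trans (nm_span B.l p)) fun R r x => le_two q q' r ?_)
  · rw [v q u.symm n, v q' u' n']
    simp only [RR, map_mul, map_add, map_sub, map_pow, map_ofNat, map_neg, map_zero]
    ring
  · rw [← e, map_p, span_singleton_le_iff_mem]
    exact x

/-- **the Euler factor of `M`** -/
theorem loc (B : Bq K L M) (h : Kd J D θ) (hφ : Cm φ) (ha : Cm a) {p : ℕ} (hp : p.Prime)
    (hx : ∀ P : Ideal (𝓞 L), Ram p P → ∃ A A' : Ideal (𝓞 K), Spl p A A') {s t s' t' : ℂ}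
    (e : Ep φ p s t) (e' : Ep a p s' t') : ser p (cM M φ a) * RR s t s' t' = 1 := by
  rcases id e' with ⟨A, A', k', rfl, rfl⟩ | r
  · exact caseK B hφ ha hp k' e
  rcases e with ⟨P, P', k, rfl, rfl⟩ | ⟨k, rfl, rfl⟩ | ⟨P, k, -⟩
  · rw [cM_comm, RR_comm]
    exact caseK B.symm ha hφ hp k e'
  · rcases r with ⟨k', rfl, rfl⟩ | ⟨A, k', rfl, rfl⟩
    · exact caseD B h hφ ha hp k k'
    · exact caseC B hφ ha hp k k'
  · obtain ⟨A, A', S⟩ := hx P k
    rcases r with ⟨k', -⟩ | ⟨U, k', -⟩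
    · exact absurd ((ine_one k' S.m S.mem).trans (ine_one k' S.m' S.symm.mem).symm) S.ne
    · exact absurd ((k'.one S.m S.mem).trans (k'.one S.m' S.symm.mem).symm) S.ne

end Vale.Agent.P004C.Wa.Re0
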