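import Vale.Agent.P014A.Bes
import Vale.Agent.P004H.H2.Theta2

/-!
# P004 C, block WA: the Gaussian kernel of weight one (after the files of P014 A)
-/

open MeasureTheory Set Complex Filter
open UpperHalfPlane hiding I
open scoped Real Classical Topology

namespace Vale.Agent.P004C.Wa.Sk

open Vale.Agent.P014A

/-- the Gaussian kernel of weight one attached to the row `w` -/
noncomputable def kk (t : ℝ) (w : ℤ × ℤ) (z : ℂ) : ℂ :=
  (starRingEnd ℂ) (w.1 * z + w.2) / z.im *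
    (Real.exp (-(π * t * normSq (w.1 * z + w.2) / z.im)) : ℝ)

/-- the kernel summed against a function on the rows -/
noncomputable def PsiK (φ : ℤ × ℤ → ℂ) (t : ℝ) (z : ℂ) : ℂ := ∑' w : ℤ × ℤ, φ w * kk t w z

/-- bounded functions on the rows which are periodic modulo `N` -/
def PerB (N : ℕ) (φ : ℤ × ℤ → ℂ) : Prop :=
  (∀ w, ‖φ w‖ ≤ 1) ∧ ∀ w u : ℤ × ℤ, φ (w.1 + N * u.1, w.2 + N * u.2) = φ w

theorem mul_exp_le {a u : ℝ} (ha : 0 < a) :
    u * Real.exp (-(a * u ^ 2)) ≤ (1 + 2 / a) * Real.exp (-(a * u ^ 2 / 2)) := by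
  have h1 : u ≤ (1 + 2 / a) * Real.exp (a * u ^ 2 / 2) := by
    have h2 := Real.add_one_le_exp (a * u ^ 2 / 2)
    have h3 : (1 + 2 / a) * (a * u ^ 2 / 2 + 1) = 1 + u ^ 2 + (2 / a + a * u ^ 2 / 2) := by
      field_simp
      ring
    have h4 : 0 ≤ 2 / a + a * u ^ 2 / 2 := by positivity
    have h5 := mul_le_mul_of_nonneg_left h2 (show 0 ≤ 1 + 2 / a by positivity)
    nlinarith [sq_nonneg (u - 1)]
  refine (mul_le_mul_of_nonneg_right h1 (Real.exp_pos _).le).trans (le_of_eq ?_)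
  rw [mul_assoc, ← Real.exp_add]
  congr 2
  ring

theorem norm_kk_le {t : ℝ} (ht : 0 < t) (w : ℤ × ℤ) {z : ℂ} (hz : 0 < z.im) :
    ‖kk t w z‖ ≤ (1 / z.im + 2 / (π * t)) *
      Real.exp (-(π * t * ‖(w.1 : ℂ) * z + w.2‖ ^ 2 / (2 * z.im))) := by
  have h := mul_exp_le (a := π * t / z.im) (u := ‖(w.1 : ℂ) * z + w.2‖) (by positivity)
  unfold kk
  rw [norm_mul, norm_div, norm_conj, norm_real, norm_real, Real.norm_of_nonneg hz.le,
    Real.norm_of_nonneg (Real.exp_pos _).le, normSq_eq_norm_sq]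
  have h2 := div_le_div_of_nonneg_right h hz.le
  refine le_of_eq_of_le ?_ (h2.trans (le_of_eq ?_))
  · rw [div_mul_eq_mul_div]
    congr 3
    ring
  · rw [mul_div_right_comm]
    congr 1
    · field_simp
    · congr 1
      ring

theorem summ_gauss {a : ℝ} (ha : 0 < a) {z : ℂ} (hz : 0 < z.im) :
    Summable fun w : ℤ × ℤ => Real.exp (-(a * ‖(w.1 : ℂ) * z + w.2‖ ^ 2)) := by
  refine (Vale.Agent.P004H.H2.theta_summable (x := z.re) hz
    (t := a * z.im / π) (by positivity)).congr fun w => ?_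
  rw [← normSq_eq_norm_sq, normSq_apply]
  congr 1
  simp only [add_re, mul_re, intCast_re, intCast_im, add_im, mul_im]
  field_simp
  ring

theorem summ_kk {t : ℝ} (ht : 0 < t) {z : ℂ} (hz : 0 < z.im) :
    Summable fun w : ℤ × ℤ => ‖kk t w z‖ := by
  refine Summable.of_nonneg_of_le (fun _ => norm_nonneg _) (fun w => norm_kk_le ht w hz)
    (Summable.mul_left _ ((summ_gauss (a := π * t / (2 * z.im)) (by positivity) hz).congr
      fun w => ?_))
  congr 1
  ring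

theorem cont_Psi {φ : ℤ × ℤ → ℂ} (h : ∀ w, ‖φ w‖ ≤ 1) :
    ContinuousOn (fun p : ℝ × ℍ => PsiK φ p.1 p.2) (Ioi 0 ×ˢ univ) := by
  rintro ⟨t₀, z₀⟩ ⟨ht₀, -⟩
  have ht : 0 < t₀ := ht₀
  have hy : 0 < (z₀ : ℂ).im := z₀.im_pos
  set y := (z₀ : ℂ).im with hyd
  set S : Set (ℝ × ℍ) := {p | t₀ / 2 < p.1 ∧ ‖(p.2 : ℂ) - z₀‖ < y / 2} with hS
  have hcoe : Continuous fun p : ℝ × ℍ => (p.2 : ℂ) := continuous_coe.comp continuous_snd
  have hSo : IsOpen S := (isOpen_lt continuous_const continuous_fst).inter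
    (isOpen_lt (hcoe.sub continuous_const).norm continuous_const)
  have hm : (t₀, z₀) ∈ S := ⟨half_lt_self ht, by simpa using hy⟩
  refine ((continuousOn_tsum (s := S) (u := fun w : ℤ × ℤ => (2 / y + 4 / (π * t₀)) *
    Real.exp (-(π * t₀ / (24 * y) * ‖(w.1 : ℂ) * z₀ + w.2‖ ^ 2))) (fun w => ?_)
    ((summ_gauss (by positivity) hy).mul_left _) ?_).continuousAt
      (hSo.mem_nhds hm)).continuousWithinAt
  · refine Continuous.continuousOn (continuous_const.mul ?_)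
    have him : Continuous fun p : ℝ × ℍ => (p.2 : ℂ).im := continuous_im.comp hcoe
    have hu : Continuous fun p : ℝ × ℍ => (w.1 : ℂ) * (p.2 : ℂ) + w.2 :=
      (continuous_const.mul hcoe).add continuous_const
    have hne : ∀ p : ℝ × ℍ, (p.2 : ℂ).im ≠ 0 := fun p => p.2.im_pos.ne'
    unfold kk
    refine ((continuous_conj.comp hu).div (continuous_ofReal.comp him) fun p => ?_).mul
      (continuous_ofReal.comp (Real.continuous_exp.comp (Continuous.neg
        (((continuous_const.mul continuous_fst).mul (continuous_normSq.comp hu)).div him hne))))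
    exact ofReal_ne_zero.mpr (hne p)
  · rintro w ⟨t, z⟩ ⟨h1, h2⟩
    simp only at h1 h2 ⊢
    have ht' : 0 < t := by linarith
    have hz : 0 < (z : ℂ).im := z.im_pos
    have h3 : |(z : ℂ).im - y| < y / 2 := by
      rw [hyd, ← sub_im]
      exact (abs_im_le_norm _).trans_lt h2
    obtain ⟨h4, h5⟩ := abs_lt.mp h3
    have h6 : ‖(w.1 : ℂ)‖ * y ≤ ‖(w.1 : ℂ) * z₀ + w.2‖ := by
      refine le_of_eq_of_le ?_ (abs_im_le_norm _)
      rw [norm_intCast, add_im, mul_im, intCast_im, intCast_im, intCast_re, zero_mul, add_zero,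
        add_zero, abs_mul, abs_of_pos hy]
    have h7 : ‖(w.1 : ℂ) * z₀ + w.2‖ ≤ 2 * ‖(w.1 : ℂ) * z + w.2‖ := by
      have e : (w.1 : ℂ) * z₀ + w.2 = (w.1 * z + w.2) - w.1 * ((z : ℂ) - z₀) := by ring
      have h8 := norm_sub_le ((w.1 : ℂ) * z + w.2) (w.1 * ((z : ℂ) - z₀))
      rw [← e, norm_mul] at h8
      have h9 := mul_le_mul_of_nonneg_left h2.le (norm_nonneg (w.1 : ℂ))
      linarith
    rw [norm_mul]
    refine (mul_le_of_le_one_left (norm_nonneg _) (h w)).trans ((norm_kk_le ht' w hz).trans ?_)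
    refine mul_le_mul (add_le_add ?_ ?_) (Real.exp_le_exp.mpr (neg_le_neg ?_))
      (Real.exp_pos _).le (by positivity)
    · rw [div_le_div_iff₀ hz hy]
      linarith
    · rw [div_le_div_iff₀ (by positivity) (by positivity)]
      nlinarith [Real.pi_pos]
    · have h8 : ‖(w.1 : ℂ) * z₀ + w.2‖ ^ 2 ≤ 4 * ‖(w.1 : ℂ) * z + w.2‖ ^ 2 := by
        nlinarith [norm_nonneg ((w.1 : ℂ) * z₀ + w.2), norm_nonneg ((w.1 : ℂ) * z + w.2)]
      have h9 : π * t₀ / (6 * y) ≤ π * t / (2 * (z : ℂ).im) := by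
        rw [div_le_div_iff₀ (by positivity) (by positivity)]
        have : t₀ * (z : ℂ).im ≤ 3 * (t * y) := by nlinarith
        nlinarith [Real.pi_pos]
      calc π * t₀ / (24 * y) * ‖(w.1 : ℂ) * z₀ + w.2‖ ^ 2
          ≤ π * t₀ / (24 * y) * (4 * ‖(w.1 : ℂ) * z + w.2‖ ^ 2) :=
            mul_le_mul_of_nonneg_left h8 (by positivity)
        _ = π * t₀ / (6 * y) * ‖(w.1 : ℂ) * z + w.2‖ ^ 2 := by ring
        _ ≤ π * t / (2 * (z : ℂ).im) * ‖(w.1 : ℂ) * z + w.2‖ ^ 2 :=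
            mul_le_mul_of_nonneg_right h9 (by positivity)
        _ = _ := by ring

/-! ### Poisson summation in the rows -/

/-- the finite Fourier transform in the second variable -/
noncomputable def hat (N : ℕ) [NeZero N] (φ : ℤ × ℤ → ℂ) (c k : ℤ) : ℂ :=
  (∑ r : ZMod N, φ (c, r.val) * cexp (2 * π * I * (r.val * k) / N)) / N

theorem norm_hat {N : ℕ} [NeZero N] {φ : ℤ × ℤ → ℂ} (h : ∀ w, ‖φ w‖ ≤ 1) (c k : ℤ) :
    ‖hat N φ c k‖ ≤ 1 := by
  have hN : (0 : ℝ) < N := by exact_mod_cast NeZero.pos N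
  unfold hat
  rw [norm_div, norm_natCast, div_le_one hN]
  refine (norm_sum_le _ _).trans ((Finset.sum_le_card_nsmul _ _ 1 fun r _ => ?_).trans ?_)
  · rw [norm_mul, show 2 * π * I * (r.val * k) / N = ((2 * π * (r.val * k) / N : ℝ) : ℂ) * I by
      push_cast; ring, norm_exp_ofReal_mul_I, mul_one]
    exact h _
  · simp

theorem row_sum {N : ℕ} [NeZero N] {φ : ℤ × ℤ → ℂ} (h : PerB N φ) {t : ℝ} (ht : 0 < t) {z : ℂ}
    (hz : 0 < z.im) (c : ℤ) :
    HasSum (fun k : ℤ => ((z.im⁻¹ : ℝ) : ℂ) *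
      (-I * hat N φ c k * cexp (2 * π * I * (c * k * z.re / N)) * bk (c * z.im) (k / N) (z.im⁻¹ * t)))
      (∑' d : ℤ, φ (c, d) * kk t (c, d) z) := by
  have hN : 0 < N := NeZero.pos N
  have hNc : (N : ℂ) ≠ 0 := by exact_mod_cast hN.ne'
  have hs : Summable fun d : ℤ => φ (c, d) * kk t (c, d) z := by
    refine Summable.of_norm_bounded ((summ_kk ht hz).prod_factor c) fun d => ?_
    rw [norm_mul]
    exact mul_le_of_le_one_left (norm_nonneg _) (h.1 _)
  rw [tsum_mod N hs]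
  have h1 : ∀ r : ZMod N, HasSum (fun k : ℤ => φ (c, r.val) * ((z.im⁻¹ : ℝ) : ℂ) *
      (-I / N * cexp (2 * π * I * ((c * z.re + r.val) / N : ℝ) * k) *
        bk (c * z.im) (k / N) (z.im⁻¹ * t)))
      (∑' j : ℤ, φ (c, r.val + N * j) * kk t (c, r.val + N * j) z) := by
    intro r
    have h2 := (poisson_cls hN (c * z.re + r.val) (c * z.im)
      (s := z.im⁻¹ * t) (by positivity)).mul_left (φ (c, r.val) * ((z.im⁻¹ : ℝ) : ℂ))
    rw [← tsum_mul_left] at h2
    refine (congrArg (HasSum _) (tsum_congr fun j => ?_)).mp h2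
    have h3 := h.2 (c, r.val) (0, j)
    simp only [mul_zero, add_zero] at h3
    rw [h3, mul_assoc]
    congr 1
    unfold kk
    simp only
    rw [← mul_assoc]
    congr 1
    · generalize r.val = m
      apply Complex.ext <;> simp <;> ring
    · congr 2
      rw [normSq_apply]
      simp only [add_re, mul_re, intCast_re, intCast_im, add_im, mul_im]
      push_cast
      field_simp
      ring
  refine (hasSum_sum fun r _ => h1 r).congr_fun fun k => ?_
  unfold hat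
  rw [Finset.sum_div, Finset.mul_sum, Finset.sum_mul, Finset.sum_mul, Finset.mul_sum]
  refine Finset.sum_congr rfl fun r _ => ?_
  rw [show 2 * π * I * ((c * z.re + r.val) / N : ℝ) * k =
    2 * π * I * (r.val * k) / N + 2 * π * I * (c * k * z.re / N) by push_cast; ring, Complex.exp_add]
  ring



variable {N : ℕ} [NeZero N] {φ : ℤ × ℤ → ℂ}

/-- the terms with `c k ≠ 0` -/
noncomputable def UU (N : ℕ) [NeZero N] (φ : ℤ × ℤ → ℂ) (z : ℂ) (i : ℤ × ℤ) (s : ℝ) : ℂ :=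
  if i.1 ≠ 0 ∧ i.2 ≠ 0 then
    -I * hat N φ i.1 i.2 * cexp (2 * π * I * (i.1 * i.2 * z.re / N)) *
      bk (i.1 * z.im) (i.2 / N) s else 0

/-- the terms with `k = 0` -/
noncomputable def hh (N : ℕ) [NeZero N] (φ : ℤ × ℤ → ℂ) (s : ℝ) : ℂ :=
  thO (fun c => hat N φ c 0) s / (√s : ℝ)

/-- the integrals of the terms with `c k ≠ 0` -/
noncomputable def WW (N : ℕ) [NeZero N] (φ : ℤ × ℤ → ℂ) (z : ℂ) (i : ℤ × ℤ) : ℂ :=
  if i.1 ≠ 0 ∧ i.2 ≠ 0 then
    -I * hat N φ i.1 i.2 * ((sg i.1 + sg i.2 : ℝ) : ℂ) * cexp (2 * π * I * (i.1 * i.2 * z / N))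
  else 0

theorem psi_dec (h : PerB N φ) {t : ℝ} (ht : 0 < t) {z : ℂ} (hz : 0 < z.im)
    (hs : Summable fun i => ((z.im⁻¹ : ℝ) : ℂ) * UU N φ z i (z.im⁻¹ * t)) :
    PsiK φ t z = ((z.im⁻¹ : ℝ) : ℂ) * thO (fun d => φ (0, d)) (z.im⁻¹ * t) +
      -I * ((z.im : ℂ) * hh N φ (z.im * t)) +
      ∑' i, ((z.im⁻¹ : ℝ) : ℂ) * UU N φ z i (z.im⁻¹ * t) := by
  have h0 : Summable fun w : ℤ × ℤ => φ w * kk t w z := by
    refine Summable.of_norm_bounded (summ_kk ht hz) fun d => ?_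
    rw [norm_mul]
    exact mul_le_of_le_one_left (norm_nonneg _) (h.1 _)
  have hyt : 0 < z.im * t := mul_pos hz ht
  have hy : (z.im : ℂ) ≠ 0 := ofReal_ne_zero.mpr hz.ne'
  have hsq : ((√(z.im * t) : ℝ) : ℂ) ≠ 0 := ofReal_ne_zero.mpr (Real.sqrt_pos.mpr hyt).ne'
  have h1 := (summ_thO (fun c => norm_hat (N := N) h.1 c 0) hyt).hasSum
  have h2 : HasSum (fun c : ℤ => -I * ((z.im : ℂ) * (hat N φ c 0 *
      ((c * Real.exp (-(π * (z.im * t) * c ^ 2)) : ℝ) : ℂ) / (√(z.im * t) : ℝ))))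
      (-I * ((z.im : ℂ) * hh N φ (z.im * t))) :=
    ((h1.div_const _).mul_left _).mul_left _
  have h3 := hasSum_ite_eq (0 : ℤ) (((z.im⁻¹ : ℝ) : ℂ) * thO (fun d => φ (0, d)) (z.im⁻¹ * t))
  have h4 := hs.prod.hasSum
  rw [← hs.tsum_prod] at h4
  unfold PsiK
  rw [h0.tsum_prod, ← ((h3.add h2).add h4).tsum_eq]
  refine tsum_congr fun c => ?_
  by_cases hc : c = 0
  · subst hc
    rw [if_pos rfl]
    simp only [UU, ne_eq, not_true_eq_false, false_and, if_false, mul_zero, tsum_zero,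
      Int.cast_zero, zero_mul, ofReal_zero, zero_div, add_zero]
    unfold thO
    rw [← tsum_mul_left]
    refine tsum_congr fun d => ?_
    unfold kk
    simp only [Int.cast_zero, zero_mul, zero_add, map_intCast, normSq_intCast]
    rw [show -(π * t * ((d : ℝ) * d) / z.im) = -(π * (z.im⁻¹ * t) * (d : ℝ) ^ 2) by ring]
    push_cast
    ring
  · have h5 := row_sum h ht hz c
    rw [if_neg hc, zero_add, ← h5.tsum_eq, h5.summable.tsum_eq_add_tsum_ite 0]
    congr 1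
    · unfold bk
      have e1 : √(z.im * t) = z.im * √(z.im⁻¹ * t) := by
        rw [show z.im * t = z.im ^ 2 * (z.im⁻¹ * t) by field_simp, Real.sqrt_mul (sq_nonneg _),
          Real.sqrt_sq hz.le]
      have e2 : ((√(z.im⁻¹ * t) : ℝ) : ℂ) ≠ 0 :=
        ofReal_ne_zero.mpr (Real.sqrt_pos.mpr (by positivity)).ne'
      rw [e1, show -(π * ((c * z.im) ^ 2 * (z.im⁻¹ * t) + (((0 : ℤ) : ℝ) / N) ^ 2 / (z.im⁻¹ * t))) =
        -(π * (z.im * t) * (c : ℝ) ^ 2) by push_cast; field_simp; ring]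
      simp only [Int.cast_zero, mul_zero, zero_mul, zero_div, Complex.exp_zero, add_zero]
      push_cast
      field_simp
    · refine tsum_congr fun k => ?_
      unfold UU
      by_cases hk : k = 0
      · simp [hk]
      · rw [if_neg hk, if_pos ⟨hc, hk⟩]

theorem summ_exp_abs {a : ℝ} (ha : 0 < a) : Summable fun c : ℤ => Real.exp (-(a * |(c : ℝ)|)) := by
  have h := Real.summable_exp_nat_mul_iff.mpr (neg_lt_zero.mpr ha)
  refine Summable.of_nat_of_neg (h.congr fun n => ?_) (h.congr fun n => ?_)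
  · rw [Int.cast_natCast, Nat.abs_cast]
    congr 1
    ring
  · rw [Int.cast_neg, Int.cast_natCast, abs_neg, Nat.abs_cast]
    congr 1
    ring

/-- the majorant -/
noncomputable def bb (a : ℝ) (i : ℤ × ℤ) : ℝ :=
  2 * (Real.exp (-(a * |(i.1 : ℝ)|)) * Real.exp (-(a * |(i.2 : ℝ)|)))

theorem summ_bb {a : ℝ} (ha : 0 < a) : Summable (bb a) :=
  (Summable.mul_of_nonneg (summ_exp_abs ha) (summ_exp_abs ha) (fun _ => (Real.exp_pos _).le)
    fun _ => (Real.exp_pos _).le).mul_left 2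

theorem UU_int (h : ∀ w, ‖φ w‖ ≤ 1) {z : ℂ} (hz : 0 < z.im) (i : ℤ × ℤ) :
    IntegrableOn (UU N φ z i) (Ioi 0) ∧ ∫ s in Ioi (0 : ℝ), UU N φ z i s = WW N φ z i ∧
      ∀ a : ℝ, 0 < a → a ≤ π * z.im / N → ∫ s in Ioi (0 : ℝ), ‖UU N φ z i s‖ ≤ bb a i := by
  have hN : (0 : ℝ) < N := by exact_mod_cast NeZero.pos N
  unfold UU WW
  split_ifs with hi
  · have c0 : (i.1 : ℝ) ≠ 0 := by exact_mod_cast hi.1
    have k0 : (i.2 : ℝ) ≠ 0 := by exact_mod_cast hi.2
    have ha : (i.1 : ℝ) * z.im ≠ 0 := mul_ne_zero c0 hz.ne'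
    have hb : (i.2 : ℝ) / N ≠ 0 := div_ne_zero k0 hN.ne'
    obtain ⟨h1, h2⟩ := bk_int ha hb
    refine ⟨h1.ofReal.const_mul _, ?_, fun a a0 a1 => ?_⟩
    · rw [integral_const_mul, integral_complex_ofReal, h2]
      have s1 : sg (i.1 * z.im) = sg i.1 := by
        unfold sg
        simp only [mul_pos_iff_of_pos_right hz]
      have s2 : sg (i.2 / N) = sg i.2 := by
        unfold sg
        simp only [div_pos_iff_of_pos_right hN]
      rw [s1, s2, show 2 * π * I * (i.1 * i.2 * z / N) = 2 * π * I * (i.1 * i.2 * z.re / N) +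
        ((-(2 * π * (i.1 * z.im) * (i.2 / N)) : ℝ) : ℂ) by
          conv_lhs => rw [← re_add_im z]
          push_cast
          linear_combination (2 * π * i.1 * i.2 * z.im / N) * I_mul_I, Complex.exp_add]
      push_cast
      ring
    · simp only [norm_mul, norm_real, Real.norm_eq_abs]
      rw [integral_const_mul, norm_neg, norm_I, one_mul,
        show 2 * π * I * (i.1 * i.2 * z.re / N) = ((2 * π * (i.1 * i.2 * z.re / N) : ℝ) : ℂ) * I by
          push_cast; ring, norm_exp_ofReal_mul_I, mul_one]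
      refine (mul_le_of_le_one_left (integral_nonneg fun _ => abs_nonneg _)
        (norm_hat h _ _)).trans ((bk_norm ha hb).trans ?_)
      unfold bb
      rw [← Real.exp_add, abs_mul, abs_div, abs_of_pos hz, abs_of_pos hN]
      refine mul_le_mul_of_nonneg_left (Real.exp_le_exp.mpr ?_) two_pos.le
      have c1 : (1 : ℝ) ≤ |(i.1 : ℝ)| := by exact_mod_cast Int.one_le_abs hi.1
      have k1 : (1 : ℝ) ≤ |(i.2 : ℝ)| := by exact_mod_cast Int.one_le_abs hi.2
      have e : 2 * π * (|(i.1 : ℝ)| * z.im) * (|(i.2 : ℝ)| / N) =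
          π * z.im / N * (2 * (|(i.1 : ℝ)| * |(i.2 : ℝ)|)) := by ring
      rw [e]
      have h3 : |(i.1 : ℝ)| + |(i.2 : ℝ)| ≤ 2 * (|(i.1 : ℝ)| * |(i.2 : ℝ)|) := by nlinarith
      have h4 := mul_le_mul a1 h3 (by positivity) (by positivity)
      linarith
  · refine ⟨integrableOn_zero, integral_zero _ _, fun a _ _ => ?_⟩
    rw [norm_zero, integral_zero]
    unfold bb
    positivity

theorem psi_int (h : PerB N φ) {z : ℂ} (hz : 0 < z.im) :
    IntegrableOn (fun t => PsiK φ t z) (Ioi 0) ∧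
      (∀ a : ℝ, 0 < a → a ≤ π * z.im / N → ∫ t in Ioi (0 : ℝ), ‖PsiK φ t z‖ ≤
        (∫ s in Ioi (0 : ℝ), ‖thO (fun d => φ (0, d)) s‖) + (∫ s in Ioi (0 : ℝ), ‖hh N φ s‖) +
          ∑' i, bb a i) ∧
      HasSum (WW N φ z) ((∫ t in Ioi (0 : ℝ), PsiK φ t z) -
        ((∫ s in Ioi (0 : ℝ), thO (fun d => φ (0, d)) s) + -I * ∫ s in Ioi (0 : ℝ), hh N φ s)) := by
  have hN0 : 0 < N := NeZero.pos N
  have hN : (0 : ℝ) < N := by exact_mod_cast hN0
  have hy' : 0 < z.im⁻¹ := inv_pos.mpr hz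
  obtain ⟨a1, a2, a3⟩ := scale (thO_int hN0 (ψ := fun d => φ (0, d)) (fun d => h.1 _)
    fun d j => by simpa using h.2 (0, d) (0, j)).1 hy'
  have hhI : IntegrableOn (hh N φ) (Ioi 0) :=
    (thO_int hN0 (ψ := fun c => hat N φ c 0) (fun c => norm_hat h.1 c 0) fun d j => by
      unfold hat
      congr 1
      refine Finset.sum_congr rfl fun r _ => ?_
      have := h.2 (d, r.val) (j, 0)
      simp only [mul_zero, add_zero] at this
      rw [this]).2
  obtain ⟨b1, b2, b3⟩ := scale hhI hz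
  have u := fun i => scale (UU_int (N := N) h.1 hz i).1 hy'
  have hsum : ∀ a : ℝ, 0 < a → a ≤ π * z.im / N → ∀ i, ∫ t in Ioi (0 : ℝ),
      ‖((z.im⁻¹ : ℝ) : ℂ) * UU N φ z i (z.im⁻¹ * t)‖ ≤ bb a i := fun a a0 a1 i =>
    (u i).2.2.trans_le ((UU_int h.1 hz i).2.2 a a0 a1)
  have hs : Summable fun i => ∫ t in Ioi (0 : ℝ),
      ‖((z.im⁻¹ : ℝ) : ℂ) * UU N φ z i (z.im⁻¹ * t)‖ :=
    Summable.of_nonneg_of_le (fun i => integral_nonneg fun _ => norm_nonneg _)
      (hsum _ (by positivity) le_rfl) (summ_bb (by positivity))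
  obtain ⟨c1, c2, c3⟩ := tsum_facts (fun i => (u i).1) hs
  have c4 := hasSum_integral_of_summable_integral_norm (fun i => (u i).1) hs
  have e : (fun t => PsiK φ t z) =ᵐ[volume.restrict (Ioi 0)] fun t =>
      ((z.im⁻¹ : ℝ) : ℂ) * thO (fun d => φ (0, d)) (z.im⁻¹ * t) +
      -I * ((z.im : ℂ) * hh N φ (z.im * t)) +
      ∑' i, ((z.im⁻¹ : ℝ) : ℂ) * UU N φ z i (z.im⁻¹ * t) := by
    filter_upwards [c1, ae_restrict_mem measurableSet_Ioi] with t t1 t2
    exact psi_dec h t2 hz t1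
  have b1' := b1.const_mul (-I)
  have i1 := (a1.add b1').add c2
  refine ⟨i1.congr e.symm, fun a a0 ha => ?_, ?_⟩
  · have e2 : (fun t => ‖PsiK φ t z‖) ≤ᵐ[volume.restrict (Ioi 0)] fun t =>
        ‖((z.im⁻¹ : ℝ) : ℂ) * thO (fun d => φ (0, d)) (z.im⁻¹ * t)‖ +
        ‖(z.im : ℂ) * hh N φ (z.im * t)‖ +
        ‖∑' i, ((z.im⁻¹ : ℝ) : ℂ) * UU N φ z i (z.im⁻¹ * t)‖ := by
      filter_upwards [e] with t ht
      rw [ht]
      refine (norm_add₃_le).trans (le_of_eq ?_)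
      rw [norm_mul (-I), norm_neg, norm_I, one_mul]
    refine (integral_mono_ae (i1.congr e.symm).norm
      ((a1.norm.fun_add b1.norm).fun_add c2.norm) e2).trans ?_
    rw [integral_add (a1.norm.fun_add b1.norm) c2.norm, integral_add a1.norm b1.norm, a3, b3]
    exact add_le_add le_rfl (c3.trans (hs.tsum_le_tsum (hsum a a0 ha) (summ_bb a0)))
  · rw [integral_congr_ae e, integral_add (Integrable.fun_add a1 b1') c2, integral_add a1 b1', a2,
      integral_const_mul, b2, add_sub_cancel_left]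
    exact c4.congr_fun fun i => ((u i).2.1.trans (UU_int h.1 hz i).2.1).symm

/-! ### the Eisenstein series attached to the Jacobi symbol -/

theorem regroup' {α : Type*} {f : α → ℂ} {a : ℂ} (hf : HasSum f a) (lev : α → ℕ)
    (F : ℕ → Finset α) (h1 : ∀ m, ∀ x ∈ F m, lev x = m) (h2 : ∀ x, f x ≠ 0 → x ∈ F (lev x)) :
    HasSum (fun m => ∑ x ∈ F m, f x) a := by
  refine (HasSum.tsum_fiberwise hf lev).congr_fun fun m => ?_
  rw [tsum_subtype (lev ⁻¹' {m}) f, tsum_eq_sum (s := F m)]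
  · refine Finset.sum_congr rfl fun x hx => ?_
    rw [Set.indicator_of_mem]
    exact h1 m x hx
  · intro x hx
    rw [Set.indicator_apply_eq_zero]
    intro h3
    by_contra h4
    have h5 : lev x = m := h3
    exact hx (h5 ▸ h2 x h4)

end Vale.Agent.P004C.Wa.Sk
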