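import Vale.Agent.P004C.Wa.Sw0
import Vale.Agent.P004C.Wa.St
import Vale.Agent.P004Z.Th.Gs

/-!
# P004 C, block WA: the expansion of the Eisenstein series of weight one
-/

open MeasureTheory Set Complex Filter
open scoped Real Classical Topology

namespace Vale.Agent.P004C.Wa.Sk

open Vale.Agent.P014A

theorem norm_jac (a : ℤ) (n : ℕ) : ‖(jacobiSym a n : ℂ)‖ ≤ 1 := by
  rcases jacobiSym.trichotomy a n with h | h | h <;> simp [h]

theorem jac_congr {a b : ℤ} {n : ℕ} (h : (n : ℤ) ∣ a - b) : jacobiSym a n = jacobiSym b n :=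
  jacobiSym.mod_left' (Int.emod_eq_emod_iff_emod_sub_eq_zero.mpr (Int.emod_eq_zero_of_dvd h))

/-- the Gauss sum with its sign -/
theorem gauss_val {n : ℕ} [hn : NeZero n] (hs : Squarefree n) (h4 : n % 4 = 3) (k : ℤ) :
    ∑ u : ZMod n, (jacobiSym u.val n : ℂ) * cexp (2 * π * I * (u.val * k) / n) =
      jacobiSym k n * (I * (√(n : ℝ) : ℝ)) := by
  have ho : Odd n := Nat.odd_iff.mpr (by omega)
  have h1 := P004Z.Gq.gk_eq ho hs k
  rw [P004Z.Gq.gs_val ho hs, P004Z.Gq.e4, if_neg (by omega), P004Z.Gq.gk] at h1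
  rw [← h1, ← P004Z.Gq.sum_zmod]
  refine Finset.sum_congr rfl fun x hx => ?_
  rw [ZMod.val_cast_of_lt (Finset.mem_range.1 hx), P004Z.ee]
  congr 2
  push_cast
  ring

/-- the function on the rows which gives the Eisenstein series of level `n` -/
noncomputable def ph (n : ℕ) (χ : ℤ → ℂ) (w : ℤ × ℤ) : ℂ := if (n : ℤ) ∣ w.1 then χ w.2 else 0

theorem ph_per (n : ℕ) : PerB n (ph n fun d => (jacobiSym d n : ℂ)) := by
  refine ⟨fun w => ?_, fun w u => ?_⟩
  · simp only [ph]
    split_ifs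
    · exact norm_jac _ _
    · simp
  · simp only [ph]
    rw [if_congr (dvd_add_left (dvd_mul_right _ _)) rfl rfl, jacobiSym.mod_left,
      Int.add_mul_emod_self_left, ← jacobiSym.mod_left]

theorem eis {n : ℕ} (hs : Squarefree n) (h4 : n % 4 = 3) : ∃ C₀ : ℂ, ∀ z : ℂ, 0 < z.im →
      HasSum (fun m : ℕ => (if m = 0 then C₀ else ((4 / √(n : ℝ) : ℝ) : ℂ) *
        ∑ d ∈ m.divisors, (jacobiSym d n : ℂ)) * ee (m * z))
        (∫ t in Ioi (0 : ℝ), PsiK (ph n fun d => (jacobiSym d n : ℂ)) t z) := by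
  have hn : NeZero n := ⟨by omega⟩
  have ho : Odd n := Nat.odd_iff.mpr (by omega)
  have hn0 : (n : ℤ) ≠ 0 := by omega
  have hnc : (n : ℂ) ≠ 0 := by exact_mod_cast hn.ne
  set φ : ℤ × ℤ → ℂ := ph n fun d => (jacobiSym d n : ℂ) with hφ
  have hP : PerB n φ := ph_per n
  have hg := gauss_val hs h4
  refine ⟨(∫ s in Ioi (0 : ℝ), thO (fun d => φ (0, d)) s) + -I * ∫ s in Ioi (0 : ℝ), hh n φ s,
    fun z hz => ?_⟩
  have h1 := (psi_int hP hz).2.2
  have hinj : Function.Injective fun p : ℤ × ℤ => ((n : ℤ) * p.1, p.2) := by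
    intro p p' h
    simp only [Prod.mk.injEq] at h
    exact Prod.ext (mul_left_cancel₀ hn0 h.1) h.2
  rw [← hinj.hasSum_iff (by
    rintro ⟨c, k⟩ hc
    have : ¬ (n : ℤ) ∣ c := fun ⟨a, ha⟩ => hc ⟨(a, k), by simp [ha]⟩
    simp [WW, hat, hφ, ph, this])] at h1
  have hW : ∀ a k : ℤ, a ≠ 0 → k ≠ 0 → WW n φ z ((n : ℤ) * a, k) =
      ((1 / √(n : ℝ) : ℝ) : ℂ) * jacobiSym k n * ((sg a + sg k : ℝ) : ℂ) *
        cexp (2 * π * I * z * (a * k : ℤ)) := by
    intro a k ha hk
    have s1 : sg (((n : ℤ) * a : ℤ) : ℝ) = sg a := by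
      unfold sg
      have : (0 : ℝ) < n := by exact_mod_cast hn.pos
      push_cast
      simp only [mul_pos_iff_of_pos_left this]
    unfold WW hat
    rw [if_pos ⟨mul_ne_zero hn0 ha, hk⟩]
    simp only [hφ, ph, dvd_mul_right, if_true]
    rw [hg, s1]
    have e : ((√(n : ℝ) : ℝ) : ℂ) * (√(n : ℝ) : ℝ) = n := by
      rw [← ofReal_mul, Real.mul_self_sqrt (Nat.cast_nonneg n), ofReal_natCast]
    have e0 : ((√(n : ℝ) : ℝ) : ℂ) ≠ 0 := fun h => hnc (by rw [← e, h, mul_zero])
    congr 1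
    · congr 1
      rw [ofReal_div, ofReal_one]
      field_simp
      linear_combination -(jacobiSym k n : ℂ) * (√(n : ℝ) : ℝ) ^ 2 * I_mul_I +
        (jacobiSym k n : ℂ) * e
    · congr 1
      push_cast
      field_simp
  have h2 := regroup' h1 (fun p => (p.1 * p.2).toNat) (fun m => Int.divisorsAntidiag m)
    (fun m x hx => by rw [(Int.mem_divisorsAntidiag.mp hx).1, Int.toNat_natCast]) (by
      rintro ⟨a, k⟩ h
      simp only [Function.comp] at h
      have ha : a ≠ 0 := by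
        rintro rfl
        simp [WW] at h
      have hk : k ≠ 0 := by
        rintro rfl
        simp [WW] at h
      rw [hW a k ha hk] at h
      have h3 : sg a + sg k ≠ 0 := fun e => h (by rw [e]; simp)
      have h5 : 0 < a * k := by
        unfold sg at h3
        simp only [Int.cast_pos] at h3
        split_ifs at h3 with p1 p2 p2
        · exact mul_pos p1 p2
        · simp at h3
        · simp at h3
        · exact mul_pos_of_neg_of_neg (by omega) (by omega)
      rw [Int.mem_divisorsAntidiag, Int.toNat_of_nonneg h5.le]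
      exact ⟨rfl, h5.ne'⟩)
  have h3 := (hasSum_ite_eq (0 : ℕ) ((∫ s in Ioi (0 : ℝ), thO (fun d => φ (0, d)) s) +
    -I * ∫ s in Ioi (0 : ℝ), hh n φ s)).add h2
  rw [add_sub_cancel] at h3
  refine h3.congr_fun fun m => ?_
  split_ifs with hm
  · subst hm
    simp [ee]
  · rw [zero_add, Int.divisorsAntidiag_natCast, Finset.sum_disjUnion, Finset.sum_map,
      Finset.sum_map, ← Finset.sum_add_distrib,
      ← Nat.sum_divisorsAntidiagonal' (fun _ d => (jacobiSym d n : ℂ)), Finset.mul_sum,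
      Finset.sum_mul]
    refine Finset.sum_congr rfl fun p hp => ?_
    obtain ⟨e, -⟩ := Nat.mem_divisorsAntidiagonal.mp hp
    have p1 : 0 < p.1 := Nat.pos_of_ne_zero fun h => hm (by rw [← e, h, zero_mul])
    have p2 : 0 < p.2 := Nat.pos_of_ne_zero fun h => hm (by rw [← e, h, mul_zero])
    have r1 : (0 : ℝ) < p.1 := by exact_mod_cast p1
    have r2 : (0 : ℝ) < p.2 := by exact_mod_cast p2
    change _ = WW n φ z ((n : ℤ) * (p.1 : ℤ), (p.2 : ℤ)) +
      WW n φ z ((n : ℤ) * (-(p.1 : ℤ)), -(p.2 : ℤ))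
    rw [hW _ _ (by omega) (by omega), hW _ _ (by omega) (by omega), neg_mul_neg,
      jacobiSym.neg _ ho, ZMod.χ₄_nat_three_mod_four h4]
    have q1 : cexp (2 * π * I * z * (((p.1 : ℤ) * p.2 : ℤ) : ℂ)) = ee (m * z) := by
      unfold ee
      rw [← e]
      congr 1
      push_cast
      ring
    rw [q1]
    unfold sg
    simp only [Int.cast_natCast, Int.cast_neg, r1, r2, if_true, Left.neg_pos_iff, r1.not_gt,
      r2.not_gt, if_false]
    push_cast
    ring

end Vale.Agent.P004C.Wa.Sk
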