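import Vale.Agent.P004C.Wa.Tg
import Vale.Agent.P022.H626.Fdk
import Vale.Agent.P022.H477.Cusp
import Vale.Agent.P022.H527.Rmft
import Vale.Agent.P022.H443.RunfL
import Vale.Agent.P022.H352.Law
import Vale.Agent.P022.H118.Rpo
import Vale.Agent.P022.H138.LawG
import Vale.Agent.P022.H724.IB

/-!
# P004 C, block WA: theta series of ideals of a quadratic field, real or imaginary
-/

set_option linter.all false
set_option autoImplicit false

open NumberField Module Ideal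
open UpperHalfPlane hiding I
open scoped Classical MatrixGroups Real Manifold ModularForm NumberTheorySymbols

noncomputable section

namespace Vale.Agent.P004C.Wa.Tb

open Vale.Agent.P022 Vale.Agent.P022.H724 Vale.Agent.P022.H352 Vale.Agent.P022.H477

variable {L : Type} [Field L] [NumberField L]

section

variable (B : QB L)

theorem tr_eq (a b : ℤ) : (Algebra.trace ℤ (𝓞 L) ((a : 𝓞 L) + (b : 𝓞 L) * B.ω) : 𝓞 L) -
    ((a : 𝓞 L) + (b : 𝓞 L) * B.ω) = ((a + B.q * b : ℤ) : 𝓞 L) + ((-b : ℤ) : 𝓞 L) * B.ω := by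
  rw [B.trace_eq]
  push_cast
  ring

/-- the conjugation -/
def cj : 𝓞 L →+* 𝓞 L where
  toFun x := (Algebra.trace ℤ (𝓞 L) x : 𝓞 L) - x
  map_one' := by simpa using tr_eq B 1 0
  map_zero' := by simp
  map_add' x y := by
    rw [map_add]
    push_cast
    ring
  map_mul' x y := by
    obtain ⟨a, b, rfl⟩ := B.gen x
    obtain ⟨c, d, rfl⟩ := B.gen y
    have e : ((a : 𝓞 L) + (b : 𝓞 L) * B.ω) * ((c : 𝓞 L) + (d : 𝓞 L) * B.ω) =
        ((a * c + b * d * B.p : ℤ) : 𝓞 L) + ((a * d + b * c + b * d * B.q : ℤ) : 𝓞 L) * B.ω := by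
      push_cast
      linear_combination (b * d : 𝓞 L) * B.rel
    rw [e, tr_eq, tr_eq, tr_eq]
    push_cast
    linear_combination (-(b * d) : 𝓞 L) * B.rel

theorem cj_eq (a b : ℤ) : cj B ((a : 𝓞 L) + (b : 𝓞 L) * B.ω) =
    ((a + B.q * b : ℤ) : 𝓞 L) + ((-b : ℤ) : 𝓞 L) * B.ω := tr_eq B a b

theorem cj_cj (x : 𝓞 L) : cj B (cj B x) = x := by
  obtain ⟨a, b, rfl⟩ := B.gen x
  rw [cj_eq, cj_eq]
  push_cast
  ring

theorem mul_cj (x : 𝓞 L) : x * cj B x = (Algebra.norm ℤ x : 𝓞 L) := by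
  obtain ⟨a, b, rfl⟩ := B.gen x
  rw [cj_eq, B.norm_eq]
  push_cast
  linear_combination (-(b * b) : 𝓞 L) * B.rel

theorem cj_ne {x : 𝓞 L} (h : x ≠ 0) : cj B x ≠ 0 := fun e => h (by rw [← cj_cj B x, e, map_zero])

include B in
theorem norm_per (x y : 𝓞 L) (m : ℤ) : m ∣ Algebra.norm ℤ (x + m * y) - Algebra.norm ℤ x := by
  obtain ⟨a, b, rfl⟩ := B.gen x
  obtain ⟨c, d, rfl⟩ := B.gen y
  have e : (a : 𝓞 L) + (b : 𝓞 L) * B.ω + m * ((c : 𝓞 L) + (d : 𝓞 L) * B.ω) =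
      ((a + m * c : ℤ) : 𝓞 L) + ((b + m * d : ℤ) : 𝓞 L) * B.ω := by
    push_cast
    ring
  rw [e, B.norm_eq, B.norm_eq]
  exact ⟨2 * a * c + m * c ^ 2 + B.q * (a * d + c * b + m * c * d) - B.p * (2 * b * d + m * d ^ 2),
    by ring⟩

/-- the form `Tr (t / δ)` -/
theorem ex_T (σ : L →+* ℂ) {δ : ℂ} (hδ : δ ^ 2 = discr L) : ∃ T : 𝓞 L →+ ℤ,
    (∀ t : 𝓞 L, σ t - σ (cj B t) = δ * T t) ∧
      ∀ (k : ℤ) t, (∀ y, k ∣ T (t * y)) → (k : 𝓞 L) ∣ t := by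
  have h1 : σ B.δ ^ 2 = δ ^ 2 := by
    rw [hδ, ← map_pow]
    simpa using congrArg (fun x : 𝓞 L => σ x) B.δ_sq
  obtain ⟨e, he, h2⟩ : ∃ e : ℤ, e * e = 1 ∧ σ B.δ = δ * e := by
    rcases sq_eq_sq_iff_eq_or_eq_neg.1 h1 with h | h
    exacts [⟨1, rfl, by simp [h]⟩, ⟨-1, rfl, by simp [h]⟩]
  let T : 𝓞 L →+ ℤ := e • (B.basis.coord 1).toAddMonoidHom
  have hT : ∀ a b : ℤ, T ((a : 𝓞 L) + (b : 𝓞 L) * B.ω) = e * b := fun a b => by
    show e * B.basis.repr _ 1 = _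
    rw [B.repr_eq]
    simp
  refine ⟨T, fun t => ?_, fun k t h => ?_⟩
  · obtain ⟨a, b, rfl⟩ := B.gen t
    rw [hT, cj_eq]
    have h3 : σ B.δ = 2 * σ B.ω - B.q := by simp [QB.δ, map_ofNat]
    simp only [map_add, map_mul, map_intCast]
    push_cast
    linear_combination (b : ℂ) * (h2 - h3)
  · obtain ⟨a, b, rfl⟩ := B.gen t
    have k1 := h 1
    have k2 := h B.ω
    have e2 : ((a : 𝓞 L) + (b : 𝓞 L) * B.ω) * B.ω =
        ((b * B.p : ℤ) : 𝓞 L) + ((a + b * B.q : ℤ) : 𝓞 L) * B.ω := by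
      push_cast
      linear_combination (b : 𝓞 L) * B.rel
    rw [mul_one, hT] at k1
    rw [e2, hT] at k2
    have u : IsUnit e := IsUnit.of_mul_eq_one e he
    obtain ⟨b, rfl⟩ := u.dvd_mul_left.1 k1
    obtain ⟨c, hc⟩ := u.dvd_mul_left.1 k2
    obtain rfl : a = k * (c - b * B.q) := by linear_combination hc
    exact ⟨((c - b * B.q : ℤ) : 𝓞 L) + b * B.ω, by push_cast; ring⟩

theorem tb {σ : L →+* ℂ} {δ ρ : ℂ} {T : 𝓞 L →+ ℤ} (hδ : δ ^ 2 = discr L)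
    (hT : ∀ t : 𝓞 L, σ t - σ (cj B t) = δ * T t) {a b c : ℤ} (ha : 0 < a)
    (hd : b ^ 2 - 4 * a * c = discr L) {𝔟 : Ideal (𝓞 L)} {φ : ℤ × ℤ ≃+ 𝔟} (hρ : ρ ≠ 0)
    (h : ∀ v, σ (φ v : 𝓞 L) = ρ * (a * v.1 + (b + δ) / 2 * v.2) ∧
      Algebra.norm ℤ (φ v : 𝓞 L) = Qf a b c v * absNorm 𝔟) (v w : ℤ × ℤ) :
    T (cj B (φ v) * φ w) = absNorm 𝔟 * (v.1 * w.2 - v.2 * w.1) := by
  have a0 : (a : ℂ) ≠ 0 := by exact_mod_cast ha.ne'
  have hd' : (b : ℂ) ^ 2 - 4 * a * c = δ ^ 2 := by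
    rw [hδ]
    exact_mod_cast hd
  have δ0 : δ ≠ 0 := fun e => discr_ne_zero L (by
    rw [e] at hδ
    exact_mod_cast (hδ.symm.trans (by simp) : ((discr L : ℤ) : ℂ) = 0))
  have k : ∀ v, a * ρ * σ (cj B (φ v)) = absNorm 𝔟 * (a * v.1 + (b - δ) / 2 * v.2) := fun v => by
    rcases eq_or_ne v 0 with rfl | v0
    · simp
    have x0 : σ (φ v : 𝓞 L) ≠ 0 := by simpa using v0
    have e := congrArg (fun x : 𝓞 L => σ x) (mul_cj B (φ v))
    simp only [map_mul, map_intCast, (h v).2, Qf] at e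
    push_cast at e
    refine mul_left_cancel₀ x0 ?_
    have e1 := (h v).1
    linear_combination a * ρ * e - absNorm 𝔟 * (a * v.1 + (b - δ) / 2 * v.2) * e1 -
      absNorm 𝔟 * ρ * v.2 ^ 2 / 4 * hd'
  have e := hT (cj B (φ v) * φ w)
  simp only [map_mul, cj_cj] at e
  have e1 := (h v).1
  have e2 := (h w).1
  have : (T (cj B (φ v) * φ w) : ℂ) = absNorm 𝔟 * (v.1 * w.2 - v.2 * w.1) := by
    refine mul_left_cancel₀ (mul_ne_zero a0 δ0) ?_
    linear_combination -a * e + (a * w.1 + (b + δ) / 2 * w.2) * k v -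
      (a * v.1 + (b + δ) / 2 * v.2) * k w + a * σ (cj B (φ v)) * e2 - a * σ (cj B (φ w)) * e1
  exact_mod_cast this

end

/-- the general term -/
def tT (𝔟 : Ideal (𝓞 L)) (G : 𝓞 L → ℂ) (w : ℂ) (x : 𝔟) : ℂ :=
  G x * ee ((absNorm (span {(x : 𝓞 L)}) : ℂ) / absNorm 𝔟 * w)

/-- the theta series of an ideal -/
def tI (𝔟 : Ideal (𝓞 L)) (G : 𝓞 L → ℂ) (w : ℂ) : ℂ := ∑' x, tT 𝔟 G w x

/-- the weights -/
def W (s : 𝓞 L → ℂ) (D : Set (𝓞 L)) (F : 𝓞 L → ℂ) : 𝓞 L → ℂ := D.indicator fun x => F x * s x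

/-- the laws -/
structure TS (B : QB L) (sg : L → ℂ) (u₀ : (𝓞 L)ˣ) (D : Set (𝓞 L)) (T : 𝓞 L →+ ℤ) (c : ℂ) :
    Prop where
  eta : sg (u₀ : 𝓞 L) = 1
  dom : ∀ x : 𝓞 L, x ≠ 0 → ∃! g : Subgroup.zpowers u₀, (g.1 : 𝓞 L) * x ∈ D
  nd : ∀ (k : ℤ) t, (∀ y, k ∣ T (t * y)) → (k : 𝓞 L) ∣ t
  c4 : c ^ 4 = 1
  sum : ∀ 𝔟 : Ideal (𝓞 L), 𝔟 ≠ ⊥ → ∀ w : ℂ, 0 < w.im → Summable (tT 𝔟 (W (sg ·) D 1) w)
  bas : ∀ 𝔟 : Ideal (𝓞 L), 𝔟 ≠ ⊥ → ∃ φ : ℤ × ℤ ≃+ 𝔟,
    (∀ v w, T (cj B (φ v) * φ w) = absNorm 𝔟 * (v.1 * w.2 - v.2 * w.1)) ∧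
    ∀ M : ℕ, 0 < M → ∀ F F' : 𝓞 L → ℂ, PerO M F → (∀ x, F (u₀ * x) = F x) →
      (∀ v, F' (φ v) = hatF M (fun v => F (φ v)) v) → ∀ w : ℂ, 0 < w.im →
      tI 𝔟 (W (sg ·) D F) w = c / ((√(discr L).natAbs : ℝ) * M ^ 2 * w) *
        tI 𝔟 (W (fun x => sg (cj B x)) D F') (-1 / ((discr L).natAbs * M ^ 2 * w))
  mf : ∀ 𝔟 : Ideal (𝓞 L), 𝔟 ≠ ⊥ → ∀ M : ℕ, 0 < M → ∀ F : 𝓞 L → ℂ, PerO M F →
    (∀ x, F (u₀ * x) = F x) →
    MDifferentiable 𝓘(ℂ) 𝓘(ℂ) (fun τ : ℍ => tI 𝔟 (W (sg ·) D F) τ) ∧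
    (∀ γ : SL(2, ℤ), IsBoundedAtImInfty ((fun τ : ℍ => tI 𝔟 (W (sg ·) D F) τ) ∣[(1 : ℤ)] γ)) ∧
    ∀ x y z d : ℤ, x * d - y * z = 1 → (((discr L).natAbs * M ^ 2 : ℕ) : ℤ) ∣ z → Odd d →
      ∀ w : ℂ, 0 < w.im → tI 𝔟 (W (sg ·) D F) ((x * w + y) / (z * w + d)) =
        ((d.sign * J(discr L | d.natAbs) : ℤ) : ℂ) * sg d * (z * w + d) *
          tI 𝔟 (W (sg ·) D fun t => F (d * t)) w

theorem phi_smul {𝔟 : Ideal (𝓞 L)} (φ : ℤ × ℤ ≃+ 𝔟) (d : ℤ) (v : ℤ × ℤ) :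
    (φ (d • v) : 𝓞 L) = d * φ v := by
  rw [map_zsmul]
  simp

theorem per_phi {𝔟 : Ideal (𝓞 L)} (φ : ℤ × ℤ ≃+ 𝔟) {M : ℕ} {F : 𝓞 L → ℂ} (h : PerO M F) :
    Per M fun v => F (φ v) := fun v w => by
  beta_reduce
  rw [map_add, AddMemClass.coe_add, phi_smul, Int.cast_natCast]
  exact h _ _

theorem N0 {𝔟 : Ideal (𝓞 L)} (h : 𝔟 ≠ ⊥) : (absNorm 𝔟 : ℂ) ≠ 0 :=
  Nat.cast_ne_zero.2 (mt absNorm_eq_zero_iff.1 h)

theorem ts_im (B : QB L) (h2 : finrank ℚ L = 2) (hi : IsEmpty (L →+* ℝ)) :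
    ∃ T, TS B (fun _ => 1) 1 Set.univ T Complex.I := by
  have : Algebra.IsQuadraticExtension ℚ L := { finrank_eq_two' := h2 }
  have : IsTotallyComplex L := ⟨fun w => InfinitePlace.not_isReal_iff_isComplex.1 fun h =>
    hi.false (InfinitePlace.embedding_of_isReal h)⟩
  have d0 : discr L < 0 := by
    have := IsTotallyComplex.finrank L
    rw [← Int.sign_eq_neg_one_iff_neg, sign_discr, show InfinitePlace.nrComplexPlaces L = 1 by omega,
      pow_one]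
  obtain ⟨D, hD⟩ : ∃ D : ℕ, discr L = -(D : ℤ) := ⟨(discr L).natAbs, by omega⟩
  have D0 : 0 < D := by omega
  have eD : (discr L).natAbs = D := by omega
  obtain ⟨σ⟩ : Nonempty (L →+* ℂ) := inferInstance
  have hδ : (Complex.I * √D) ^ 2 = discr L := by
    rw [mul_pow, ← Complex.ofReal_pow, Real.sq_sqrt D.cast_nonneg, hD]
    simp
  obtain ⟨T, hT, nd⟩ := ex_T B σ hδ
  have key : ∀ 𝔟 : Ideal (𝓞 L), 𝔟 ≠ ⊥ → ∃ (a b c : ℤ) (φ : ℤ × ℤ ≃+ 𝔟), 0 < a ∧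
      b ^ 2 - 4 * a * c = -(D : ℤ) ∧
      (∀ v w, T (cj B (φ v) * φ w) = absNorm 𝔟 * (v.1 * w.2 - v.2 * w.1)) ∧
      (∀ F w v, tT 𝔟 (W (fun _ => 1) Set.univ F) w (φ v) = thT a b c D 0 (fun v => F (φ v)) w v) ∧
      ∀ F w, tI 𝔟 (W (fun _ => 1) Set.univ F) w = th a b c D 0 (fun v => F (φ v)) w := by
    intro 𝔟 hb
    obtain ⟨a, b, c, φ, ρ, ha, hd, hρ, h⟩ := IB L D hD σ 𝔟 hb
    have e : ∀ F w v, tT 𝔟 (W (fun _ => 1) Set.univ F) w (φ v) =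
        thT a b c D 0 (fun v => F (φ v)) w v := fun F w v => by
      have k : (absNorm (span {(φ v : 𝓞 L)}) : ℂ) = Qf a b c v * absNorm 𝔟 := by
        exact_mod_cast (h v).2
      rw [tT, k, mul_div_cancel_right₀ _ (N0 hb)]
      simp [W, thT, ee, mul_assoc]
    refine ⟨a, b, c, φ, ha, hd, tb B hδ hT ha (hd.trans hD.symm) hρ fun v => ⟨(h v).1, ?_⟩, e,
      fun F w => (φ.toEquiv.tsum_eq _).symm.trans (tsum_congr (e F w))⟩
    rw [← (h v).2, absNorm_span_singleton, Int.natAbs_of_nonneg]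
    obtain ⟨s, r, k⟩ := B.gen (φ v)
    have := B.discr_eq
    rw [k, B.norm_eq]
    nlinarith [sq_nonneg (2 * s + B.q * r), sq_nonneg r]
  refine ⟨T, rfl, fun x _ => ⟨1, trivial, fun g _ => ?_⟩, nd, Complex.I_pow_four, fun 𝔟 hb w hw => ?_,
    fun 𝔟 hb => ?_, fun 𝔟 hb M hM F hF _ => ?_⟩
  · obtain ⟨_, n, rfl⟩ := g
    exact Subtype.ext (one_zpow n)
  · obtain ⟨a, b, c, φ, ha, hd, -, e, -⟩ := key 𝔟 hb
    exact φ.toEquiv.summable_iff.1 ((H964.summable_thT ha D0 hd 0 one_pos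
      (f := fun _ => 1) (fun _ _ => rfl) hw).congr fun v => (e 1 w v).symm)
  · obtain ⟨a, b, c, φ, ha, hd, t, -, e⟩ := key 𝔟 hb
    refine ⟨φ, t, fun M hM F F' hF _ h w hw => ?_⟩
    rw [e, e, (H118.PO a b c D ha D0 hd 0 M hM _ (per_phi φ hF) w hw).2, funext h, eD]
    simp
  · obtain ⟨a, b, c, φ, ha, hd, -, -, e⟩ := key 𝔟 hb
    have p := per_phi φ hF
    have e1 : (fun τ : ℍ => tI 𝔟 (W (fun _ => 1) Set.univ F) τ) =
        H964.Th a b c D 0 1 fun v => F (φ v) := funext fun τ => by simp [e, H964.Th]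
    rw [e1]
    refine ⟨H964.mdiff_Th ha D0 hd 0 one_pos hM p, fun γ => ?_, fun x y z d k1 k2 k3 w hw => ?_⟩
    · simpa using H964.bdd_all H118.PO ha D0 hd 0 ⟨1, 1, _, M, one_pos, hM, p, by simp⟩ γ
    · rw [e, e, H138.LAWG H118.PO a b c D ha D0 hd 0 M hM _ p x y z d k1 (eD ▸ k2) k3 w hw, hD]
      simp only [phi_smul]
      simp [X.chiD]

theorem sgc (x : ℝ) : (((SignType.sign x : ℤ) : ℂ)) = ((SignType.sign x : ℝ) : ℂ) := by
  rcases lt_trichotomy x 0 with h | rfl | h <;> simp [*]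

theorem ts_re (B : QB L) (h2 : finrank ℚ L = 2) (σ : L →+* ℝ) :
    ∃ u₀ D T, TS B (fun x => (SignType.sign (σ x) : ℝ)) u₀ D T 1 := by
  have inj : Function.Injective (σ.comp ((algebraMap (𝓞 L) L).comp (cj B))) :=
    σ.injective.comp (RingOfIntegers.coe_injective.comp (Function.LeftInverse.injective (cj_cj B)))
  let σ' : L →+* ℝ := IsFractionRing.lift inj
  have h' : ∀ x : 𝓞 L, σ' x = σ (cj B x) := fun x => IsFractionRing.lift_algebraMap inj x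
  have ne : σ ≠ σ' := fun e => by
    have e1 : B.ω = cj B B.ω :=
      RingOfIntegers.coe_injective (σ.injective ((RingHom.congr_fun e _).trans (h' _)))
    have e2 := cj_eq B 0 1
    simp only [Int.cast_zero, Int.cast_one, zero_add, one_mul, mul_one, ← e1] at e2
    have := (B.ind (-B.q) 2 (by push_cast at e2 ⊢; linear_combination e2)).2
    omega
  have d0 := H626.discr_pos h2 ne
  obtain ⟨D, hD⟩ : ∃ D : ℕ, discr L = D := ⟨(discr L).natAbs, by omega⟩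
  have eD : (discr L).natAbs = D := by omega
  have ns : ¬ IsSquare D := fun ⟨r, hr⟩ => H626.not_sq h2 ⟨r, by rw [hD, hr]; simp⟩
  obtain ⟨u₀, u1, u2⟩ := H626.exists_unit h2 ne
  set u := σ (u₀ : 𝓞 L)
  have hδ : ((√D : ℝ) : ℂ) ^ 2 = discr L := by
    rw [← Complex.ofReal_pow, Real.sq_sqrt D.cast_nonneg, hD]
    simp
  obtain ⟨T, hT, nd⟩ := ex_T B (Complex.ofRealHom.comp σ) hδ
  let S : Set (𝓞 L) := {x | |σ' x| ≤ |σ x| ∧ |σ x| < u ^ 2 * |σ' x|}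
  have key : ∀ 𝔟 : Ideal (𝓞 L), 𝔟 ≠ ⊥ → ∃ (a b c : ℤ) (φ : ℤ × ℤ ≃+ 𝔟) (A : ℤ × ℤ ≃+ ℤ × ℤ),
      0 < a ∧ b ^ 2 - 4 * a * c = D ∧ Unt a b D u A ∧ (∀ v, (φ (A v) : 𝓞 L) = u₀ * φ v) ∧
      (∀ v w, T (cj B (φ v) * φ w) = absNorm 𝔟 * (v.1 * w.2 - v.2 * w.1)) ∧
      ∀ (M : ℕ) (F : 𝓞 L → ℂ) (w : ℂ), 0 < M → Per M (fun v => F (φ v)) → 0 < w.im →
        HasSum (tT 𝔟 (W (fun x => (SignType.sign (σ x) : ℝ)) S F) w)
          (hR a b c D u 1 (fun v => F (φ v)) w + hR a b c D u (-1) (fun v => F (φ v)) w) ∧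
        HasSum (tT 𝔟 (W (fun x => (SignType.sign (σ (cj B x)) : ℝ)) S F) w)
          (hR a b c D u 1 (fun v => F (φ v)) w - hR a b c D u (-1) (fun v => F (φ v)) w) := by
    intro 𝔟 hb
    obtain ⟨a, b, c, φ, ρ, ha, hd, hρ, -, h⟩ := H626.rib h2 D hD σ σ' ne 𝔟 hb
    obtain ⟨A, hA⟩ := H626.unit_act 𝔟 φ u₀
    have n0 : (0 : ℤ) < absNorm 𝔟 := by
      exact_mod_cast Nat.pos_of_ne_zero (mt absNorm_eq_zero_iff.1 hb)
    refine ⟨a, b, c, φ, A, ha, hd, ⟨u1, fun v => mul_left_cancel₀ hρ.ne' ?_,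
      fun v => mul_left_cancel₀ hρ.ne' ?_⟩, hA, tb B (ρ := ρ) hδ hT ha (hd.trans hD.symm)
      (by exact_mod_cast hρ.ne') fun v => ⟨?_, (h v).2.2⟩, fun M F w hM hF hw => ?_⟩
    · rw [← (h _).1, hA, mul_left_comm, ← (h _).1]
      simp [u]
    · rw [← (h _).2.1, hA, mul_left_comm, ← (h _).2.1, ← eq_inv_of_mul_eq_one_right u2]
      simp
    · show ((σ _ : ℝ) : ℂ) = _
      rw [(h v).1, e1]
      push_cast
      rfl
    have s1 := (summable_hR ha ns hd u (Or.inl rfl) hM hF hw).hasSum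
    have s2 := (summable_hR ha ns hd u (Or.inr rfl) hM hF hw).hasSum
    have mem : ∀ s v, v ∈ FD a b c D u s ↔ 0 < s * Qf a b c v ∧ (φ v : 𝓞 L) ∈ S := fun s v => by
      rw [H626.mem_FD_iff hb hρ h, H626.FDK, Set.mem_setOf_eq, (h v).2.2, ← mul_assoc,
        mul_pos_iff_of_pos_right n0]
      rfl
    have sg : ∀ v, SignType.sign (e1 a b D v) = SignType.sign (σ (φ v : 𝓞 L)) := fun v => by
      rw [(h v).1, sign_mul, sign_pos hρ, one_mul]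
    have tm : ∀ v, ∃ e : ℂ, tT 𝔟 (W (fun x => (SignType.sign (σ x) : ℝ)) S F) w (φ v) = e ∧
        ((hC a b c D u 1 (fun v => F (φ v)) v *
            Complex.exp (2 * π * Complex.I * ((1 * Qf a b c v : ℤ) : ℂ) * w) = e ∧
          hC a b c D u (-1) (fun v => F (φ v)) v = 0 ∧
          tT 𝔟 (W (fun x => (SignType.sign (σ (cj B x)) : ℝ)) S F) w (φ v) = e) ∨
        (hC a b c D u (-1) (fun v => F (φ v)) v *
            Complex.exp (2 * π * Complex.I * ((-1 * Qf a b c v : ℤ) : ℂ) * w) = e ∧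
          hC a b c D u 1 (fun v => F (φ v)) v = 0 ∧
          tT 𝔟 (W (fun x => (SignType.sign (σ (cj B x)) : ℝ)) S F) w (φ v) = -e)) := fun v => by
      refine ⟨_, rfl, ?_⟩
      by_cases m : (φ v : 𝓞 L) ∈ S
      swap
      · simp [tT, W, hC, mem, m]
      have k : (absNorm (span {(φ v : 𝓞 L)}) : ℂ) / absNorm 𝔟 = (|Qf a b c v| : ℤ) := by
        rw [div_eq_iff (N0 hb), absNorm_span_singleton, (h v).2.2, Int.natAbs_mul,
          Int.natAbs_natCast, Nat.cast_mul, ← Int.natCast_natAbs, Int.cast_natCast]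
      have p := H626.emb_norm h2 ne (φ v)
      have n1 : (0 : ℝ) < absNorm 𝔟 := by exact_mod_cast n0
      rw [(h v).2.2, h', Int.cast_mul, Int.cast_natCast] at p
      have p' := congrArg SignType.sign p
      rw [sign_mul, sign_mul, sign_pos n1, mul_one] at p'
      rcases lt_trichotomy (Qf a b c v) 0 with q | q | q
      · rw [sign_neg (Int.cast_lt_zero.2 q)] at p'
        have : SignType.sign (σ (cj B (φ v))) = -SignType.sign (σ (φ v : 𝓞 L)) := by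
          revert p'
          generalize SignType.sign (σ (cj B (φ v))) = s, SignType.sign (σ (φ v : 𝓞 L)) = t
          revert s t
          decide
        right
        simp only [tT, W, hC, k, Set.indicator_apply, mem, m, this, sg, sgc, ee, abs_of_neg q]
        simp [q, q.le, mul_assoc]
      · have m2 := m.2
        have m1 := m.1
        rw [q, Int.cast_zero, zero_mul, ← h', mul_eq_zero] at p
        rcases p with p | p <;> rw [p, abs_zero] at m1 m2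
        · rw [le_antisymm m1 (abs_nonneg _)] at m2
          simp at m2
        · exact absurd m2 (by simp)
      · rw [sign_pos (Int.cast_pos.2 q)] at p'
        have : SignType.sign (σ (cj B (φ v))) = SignType.sign (σ (φ v : 𝓞 L)) := by
          revert p'
          generalize SignType.sign (σ (cj B (φ v))) = s, SignType.sign (σ (φ v : 𝓞 L)) = t
          revert s t
          decide
        left
        simp only [tT, W, hC, k, Set.indicator_apply, mem, m, this, sg, sgc, ee, abs_of_pos q]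
        simp [q, q.le, mul_assoc]
    refine ⟨φ.toEquiv.hasSum_iff.1 ((s1.add s2).congr_fun fun v => ?_),
      φ.toEquiv.hasSum_iff.1 ((s1.sub s2).congr_fun fun v => ?_)⟩ <;>
    obtain ⟨e, k, ⟨k1, k2, k3⟩ | ⟨k1, k2, k3⟩⟩ := tm v <;> rw [k1, k2] <;> simpa
  refine ⟨u₀, S, T, by rw [sign_pos (zero_lt_one.trans u1)]; simp, fun x hx => ?_, nd, one_pow _,
    fun 𝔟 hb w hw => ?_, fun 𝔟 hb => ?_, fun 𝔟 hb M hM F hF hu => ?_⟩
  · obtain ⟨n, k, l⟩ := H626.orbit u₀ u1 u2 hx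
    refine ⟨⟨u₀ ^ n, n, rfl⟩, k, ?_⟩
    rintro ⟨_, n', rfl⟩ k'
    rw [← l n' k']
  · obtain ⟨a, b, c, φ, A, -, -, -, -, -, e⟩ := key 𝔟 hb
    exact (e 1 1 w one_pos (fun _ _ => rfl) hw).1.summable
  · obtain ⟨a, b, c, φ, A, ha, hd, hA, k, t, e⟩ := key 𝔟 hb
    refine ⟨φ, t, fun M hM F F' hF hu h w hw => ?_⟩
    have p := per_phi φ hF
    have s := fun s => S_law H118.RPO H443.RUNF ha ns hd hA hM p (fun v => by rw [k, hu]) hw (s := s)
    have D0 : (0 : ℝ) < D * M ^ 2 := by have := pos_of_ns ns; positivity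
    have w' : 0 < (-1 / (D * M ^ 2 * w) : ℂ).im := by
      have := (H527.im_mob (x := 0) (y := -1) (z := 1) (d := 0) rfl
        (w := ((D * M ^ 2 : ℝ) : ℂ) * w) (by rw [Complex.im_ofReal_mul]; positivity)).2.1
      simpa using this
    rw [tI, tI, (e M F w hM p hw).1.tsum_eq, eD, (e M F' _ hM (by
      rw [funext h]; exact H964.per_hatF M hM _) w').2.tsum_eq, s 1 (Or.inl rfl), s (-1) (Or.inr rfl),
      funext h, neg_neg]
    push_cast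
    ring
  · obtain ⟨a, b, c, φ, A, ha, hd, hA, k, -, e⟩ := key 𝔟 hb
    have p := per_phi φ hF
    have i : ∀ v, F (φ (A v)) = F (φ v) := fun v => by rw [k, hu]
    have e1 : (fun τ : ℍ => tI 𝔟 (W (fun x => (SignType.sign (σ x) : ℝ)) S F) τ) =
        HR a b c D u 1 1 (fun v => F (φ v)) + HR a b c D u (-1) 1 fun v => F (φ v) :=
      funext fun τ => by simpa [HR, tI] using (e M F τ hM p τ.im_pos).1.tsum_eq
    rw [e1]
    refine ⟨(mdiff_HR ha ns hd u (Or.inl rfl) one_pos hM p).add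
      (mdiff_HR ha ns hd u (Or.inr rfl) one_pos hM p), fun γ => ?_,
      fun x y z d k1 k2 k3 w hw => ?_⟩
    · rw [SlashAction.add_slash]
      exact (bdd_all H118.RPO H443.RUNF ha ns hd hA
        ⟨1, 1, 1, _, M, one_pos, Or.inl rfl, hM, p, i, by simp [HR]⟩ γ).add
        (bdd_all H118.RPO H443.RUNF ha ns hd hA
          ⟨1, 1, -1, _, M, one_pos, Or.inr rfl, hM, p, i, by simp [HR]⟩ γ)
    · have o := H776.odd_oddP (pos_of_ns ns).ne'
      have l := H527.law (RLAW1 H118.RPO) H443.RUNF ha (H776.oddP_mul D).symm o ns hd hA hM p i k3 k1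
        (eD ▸ k2) hw
      have j : krP (D.factorization 2) (H776.oddP D) d = J(discr L | d.natAbs) := by
        rw [hD, ← H776.oddP_mul D, jac_eq_krP o (Int.natAbs_odd.2 k3), H776.oddP_mul]
        rcases Int.natAbs_eq d with q | q
        · rw [← q]
        · rw [q, Int.natAbs_neg, Int.natAbs_natCast, ← neg_one_mul, krP_mul, krP_neg_one _ o, one_mul]
      have j2 : (d.sign : ℂ) * (SignType.sign (σ d) : ℝ) = 1 := by
        rcases lt_trichotomy d 0 with q | rfl | q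
        · simp [Int.sign_eq_neg_one_of_neg q, q]
        · simp at k3
        · simp [Int.sign_eq_one_of_pos q, q]
      rw [tI, tI, (e M F _ hM p (H527.im_mob k1 hw).2.1).1.tsum_eq, (e M (fun t => F (d * t)) w hM
        (by simpa only [phi_smul] using H527.per_smul p d) hw).1.tsum_eq, l.1, l.2, j]
      simp only [phi_smul]
      push_cast
      linear_combination -(J(discr L | d.natAbs) * (z * w + d) *
        (hR a b c D u 1 (fun v => F (d * φ v)) w + hR a b c D u (-1) (fun v => F (d * φ v)) w)) * j2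

theorem ts (h2 : finrank ℚ L = 2) {sg : L → ℂ} (h : Sg sg) : ∃ B u₀ D T c, TS B sg u₀ D T c := by
  obtain ⟨B⟩ := exists_qb h2
  rcases h with ⟨hi, e⟩ | ⟨σ, e⟩ <;> obtain rfl := funext e
  · exact (ts_im B h2 hi).imp' (fun _ => B) fun T h => ⟨_, _, T, _, h⟩
  · obtain ⟨u, D, T, h⟩ := ts_re B h2 σ
    exact ⟨B, u, D, T, _, h⟩

end Vale.Agent.P004C.Wa.Tb
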