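import Vale.Agent.P004C.Wa.Tb
import Vale.Agent.P022.H545.Core
import Vale.Agent.P022.H494.Cls

/-!
# P004 C, block WA: ray class characters, sums over ideals as theta series
-/

set_option linter.all false
set_option autoImplicit false

open NumberField Module Ideal
open scoped Classical Real ComplexConjugate

noncomputable section

namespace Vale.Agent.P004C.Wa.Tb

open Vale.Agent.P022 Vale.Agent.P022.H724

variable {L : Type} [Field L] [NumberField L] {sg : L → ℂ} {f : Ideal (𝓞 L)}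
  {ψ : Ideal (𝓞 L) → ℂ}

theorem sg_mul (h : Sg sg) (x y : L) : sg (x * y) = sg x * sg y := by
  rcases h with ⟨-, e⟩ | ⟨σ, e⟩ <;> simp [e, sign_mul]

theorem sg_sq (h : Sg sg) {x : L} (hx : x ≠ 0) : sg x * sg x = 1 := by
  rcases h with ⟨-, e⟩ | ⟨σ, e⟩
  · simp [e]
  · rcases lt_or_gt_of_ne ((map_ne_zero σ).2 hx) with k | k <;> simp [e, k]

theorem sg_nat (h : Sg sg) {n : ℕ} (hn : 0 < n) : sg n = 1 := by
  rcases h with ⟨-, e⟩ | ⟨σ, e⟩ <;> simp [e, hn]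

theorem sg_norm (h : Sg sg) {x : L} (hx : x ≠ 0) : ‖sg x‖ = 1 :=
  Complex.norm_eq_one_of_pow_eq_one ((sq _).trans (sg_sq h hx)) two_ne_zero

/-- the finite part -/
def chi (sg : L → ℂ) (ψ : Ideal (𝓞 L) → ℂ) (x : 𝓞 L) : ℂ := ψ (span {x}) * sg x

section

variable (hS : Sg sg) (h : RC sg f ψ)
include hS h

theorem psi_bot : ψ ⊥ = 0 := (h.zero _).2 (Or.inl rfl)

theorem chi_mul (x y : 𝓞 L) : chi sg ψ (x * y) = chi sg ψ x * chi sg ψ y := by
  rw [chi, chi, chi, ← span_singleton_mul_span_singleton, h.mul,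
    show ((x * y : 𝓞 L) : L) = x * y from rfl, sg_mul hS]
  ring

theorem chi_unit {u : (𝓞 L)ˣ} (hu : sg (u : 𝓞 L) = 1) (x : 𝓞 L) :
    chi sg ψ (u * x) = chi sg ψ x := by
  rw [chi_mul hS h, chi, span_singleton_eq_top.2 u.isUnit, ← one_eq_top, h.one, hu]
  ring

theorem psi_pow (I : Ideal (𝓞 L)) (n : ℕ) : ψ (I ^ n) = ψ I ^ n := by
  induction n with
  | zero => simpa using h.one
  | succ n ih => rw [pow_succ, h.mul, ih, pow_succ]

variable (hf : f ≠ ⊤)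
include hf

theorem chi_one {x : 𝓞 L} (hx : x - 1 ∈ f) : chi sg ψ x = 1 := by
  have x0 : x ≠ 0 := by
    rintro rfl
    exact hf ((eq_top_iff_one f).2 (by simpa using hx))
  rw [chi, h.prn x x0 hx, sg_sq hS (by simpa using x0)]

theorem chi_ne {x : 𝓞 L} : chi sg ψ x ≠ 0 ↔ ∃ y, x * y - 1 ∈ f := by
  refine ⟨fun k => ?_, fun ⟨y, k⟩ e => ?_⟩
  · have := mt (h.zero _).2 (left_ne_zero_of_mul k)
    rw [not_or, not_not, eq_top_iff_one, Submodule.mem_sup] at this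
    obtain ⟨-, a, ha, b, hb, e⟩ := this
    obtain ⟨y, rfl⟩ := mem_span_singleton.1 ha
    exact ⟨y, by rw [← e]; simpa using hb⟩
  · have := chi_one hS h hf k
    rw [chi_mul hS h, e, zero_mul] at this
    exact zero_ne_one this

theorem chi_per {x y : 𝓞 L} (k : x - y ∈ f) : chi sg ψ x = chi sg ψ y := by
  have key : ∀ x y : 𝓞 L, x - y ∈ f → chi sg ψ y ≠ 0 → chi sg ψ x = chi sg ψ y := fun x y k e => by
    obtain ⟨z, hz⟩ := (chi_ne hS h hf).1 e
    have e1 := chi_one hS h hf hz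
    have e2 := chi_one hS h hf (x := x * z) (by
      convert f.add_mem hz (f.mul_mem_right z k) using 1; ring)
    rw [chi_mul hS h] at e1 e2
    exact mul_right_cancel₀ (right_ne_zero_of_mul_eq_one e1) (e2.trans e1.symm)
  by_cases e : chi sg ψ y = 0
  · by_contra e'
    exact e' (key y x (by simpa using f.neg_mem k) (e ▸ e')).symm
  · exact key x y k e

theorem chi_fin {x : 𝓞 L} (k : chi sg ψ x ≠ 0) : ∃ n, 0 < n ∧ chi sg ψ x ^ n = 1 := by
  have := finiteQuotientOfFreeOfNeBot f h.ne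
  obtain ⟨y, hy⟩ := (chi_ne hS h hf).1 k
  have e : Ideal.Quotient.mk f x * Ideal.Quotient.mk f y = 1 := by
    rw [← map_mul, ← map_one (Ideal.Quotient.mk f)]
    exact Ideal.Quotient.eq.2 hy
  obtain ⟨n, n0, hn⟩ := (isOfFinOrder_of_finite (Units.mkOfMulEqOne _ _ e)).exists_pow_eq_one
  have e2 : x ^ n - 1 ∈ f := Ideal.Quotient.eq.1 (by simpa using congrArg Units.val hn)
  refine ⟨n, n0, Eq.trans ?_ (chi_one hS h hf e2)⟩
  clear hn e2 n0
  induction n with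
  | zero => simpa using (chi_one hS h hf (x := 1) (by simp)).symm
  | succ n ih => rw [pow_succ, pow_succ, chi_mul hS h, ih]

theorem psi_fin (I : Ideal (𝓞 L)) : ψ I = 0 ∨ ∃ k, 0 < k ∧ ψ I ^ k = 1 := by
  refine or_iff_not_imp_left.2 fun k => ?_
  have I0 : I ≠ ⊥ := fun e => k (e ▸ psi_bot hS h)
  have m := mem_nonZeroDivisors_of_ne_zero I0
  obtain ⟨n, n0, hn⟩ := (isOfFinOrder_of_finite (ClassGroup.mk0 ⟨I, m⟩)).exists_pow_eq_one
  rw [← map_pow] at hn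
  obtain ⟨x, hx⟩ := (ClassGroup.mk0_eq_one_iff (pow_mem m n)).1 hn
  have x0 : x ≠ 0 := by
    rintro rfl
    exact pow_ne_zero n I0 (by simpa using hx)
  have x1 : (x : L) ≠ 0 := by simpa using x0
  have e : chi sg ψ x = ψ I ^ n * sg x := by rw [chi, ← psi_pow hS h, hx, submodule_span_eq]
  obtain ⟨l, l0, hl⟩ := chi_fin hS h hf (x := x) (e ▸ mul_ne_zero (pow_ne_zero n k)
    (left_ne_zero_of_mul_eq_one (sg_sq hS x1)))
  refine ⟨n * (2 * l), by positivity, ?_⟩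
  have := congrArg (· ^ 2) hl
  rwa [e, ← pow_mul, mul_comm l, mul_pow, pow_mul (sg x), sq, sg_sq hS x1, one_pow, one_pow, mul_one,
    ← pow_mul] at this

theorem psi_norm {I : Ideal (𝓞 L)} (k : ψ I ≠ 0) : ‖ψ I‖ = 1 := by
  obtain ⟨n, n0, e⟩ := (psi_fin hS h hf I).resolve_left k
  exact Complex.norm_eq_one_of_pow_eq_one e n0.ne'

theorem psi_le (I : Ideal (𝓞 L)) : ‖ψ I‖ ≤ 1 := by
  by_cases k : ψ I = 0
  · simp [k]
  · exact (psi_norm hS h hf k).le

theorem psi_conj {I : Ideal (𝓞 L)} (k : ψ I ≠ 0) : ψ I * conj (ψ I) = 1 := by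
  rw [Complex.mul_conj', psi_norm hS h hf k]
  simp

end

/-- systems of representatives of the classes -/
def Sys {ι : Type} (R : ι → Ideal (𝓞 L)) : Prop :=
  (∀ i, R i ≠ ⊥) ∧ ∀ I, I ≠ ⊥ → ∃! i, (R i * I).IsPrincipal

theorem ex_sys {n : ℕ} (hn : n ≠ 0) : ∃ R : ClassGroup (𝓞 L) → Ideal (𝓞 L),
    Sys R ∧ ∀ i, IsCoprime (R i) (span {(n : 𝓞 L)}) := by
  obtain ⟨R, a, b, c⟩ := H545.reps H494.cls L n hn
  exact ⟨R, ⟨b, c⟩, a⟩

theorem Sys.mul {ι : Type} {R : ι → Ideal (𝓞 L)} (h : Sys R) {A : Ideal (𝓞 L)} (hA : A ≠ ⊥) :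
    Sys fun i => R i * A :=
  ⟨fun i => mul_ne_zero (h.1 i) hA, fun I k => by
    simpa only [mul_assoc] using h.2 (A * I) (mul_ne_zero hA k)⟩

theorem tI_mul (𝔟 : Ideal (𝓞 L)) (s F : 𝓞 L → ℂ) (D : Set (𝓞 L)) (c w : ℂ) :
    tI 𝔟 (W s D fun x => c * F x) w = c * tI 𝔟 (W s D F) w := by
  rw [tI, tI, ← tsum_mul_left]
  refine tsum_congr fun x => ?_
  simp only [tT, W, Set.indicator_apply]
  split_ifs <;> ring

variable {B : QB L} {u : (𝓞 L)ˣ} {D : Set (𝓞 L)} {T : 𝓞 L →+ ℤ} {c : ℂ}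

theorem TS.card (H : TS B sg u D T c) {x : 𝓞 L} (hx : x ≠ 0) :
    Nat.card {v : (𝓞 L)ˣ | (v : 𝓞 L) * x ∈ D} = (Subgroup.zpowers u).index := by
  refine Subgroup.IsComplement.card_right
    (Subgroup.isComplement_iff_existsUnique_inv_mul_mem.2 fun g => ?_)
  obtain ⟨s, k, l⟩ := H.dom (g * x) (mul_ne_zero g.ne_zero hx)
  refine ⟨s⁻¹, by simpa [mul_assoc] using k, fun t k' => ?_⟩
  rw [← l t⁻¹ (by simpa [mul_assoc] using k'), inv_inv]

theorem TS.idx (H : TS B sg u D T c) (hS : Sg sg) : (Subgroup.zpowers u).index ≠ 0 := by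
  rw [← H.card one_ne_zero]
  obtain ⟨s, k, -⟩ := H.dom 1 one_ne_zero
  refine Nat.card_ne_zero.2 ⟨⟨s.1, k⟩, ?_⟩
  have k := (H.sum ⊤ top_ne_bot Complex.I (by simp)).tendsto_cofinite_zero.norm
  rw [norm_zero] at k
  have p : 0 < ‖ee Complex.I‖ := norm_pos_iff.2 (Complex.exp_ne_zero _)
  have k2 := Filter.eventually_cofinite.1 (k.eventually (gt_mem_nhds p))
  refine (k2.preimage (f := fun v : (𝓞 L)ˣ => ⟨v, trivial⟩) fun a _ b _ e =>
    Units.ext (congrArg Subtype.val e)).subset fun v hv => ?_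
  have hv : (v : 𝓞 L) ∈ D := by simpa using hv
  simp [tT, W, hv, span_singleton_eq_top.2 v.isUnit, sg_norm hS, -absNorm_span_singleton]

theorem TS.fib (H : TS B sg u D T c) (hS : Sg sg) {𝔟 : Ideal (𝓞 L)} (hb : 𝔟 ≠ ⊥)
    {s F : 𝓞 L → ℂ} {h : Ideal (𝓞 L) → ℂ} {C : ℝ} (h0 : h ⊥ = 0) (hC : ∀ I, ‖h I‖ ≤ C)
    (e : ∀ x I, 𝔟 * I = span {x} → F x * s x = h I) {w : ℂ} (hw : 0 < w.im) :
    HasSum (fun I => if (𝔟 * I).IsPrincipal then
      ((Subgroup.zpowers u).index : ℂ) * (h I * ee (absNorm I * w)) else 0) (tI 𝔟 (W s D F) w) := by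
  have ex : ∀ x : 𝔟, ∃ I, span {(x : 𝓞 L)} = 𝔟 * I := fun x =>
    dvd_iff_le.2 ((span_singleton_le_iff_mem _).2 x.2)
  choose p hp using ex
  have tm : ∀ x : 𝔟, tT 𝔟 (W s D F) w x =
      D.indicator (fun _ => h (p x) * ee (absNorm (p x) * w)) x := fun x => by
    rw [tT, W, hp x, map_mul, Nat.cast_mul, mul_div_cancel_left₀ _ (N0 hb), ← e x _ (hp x).symm]
    simp only [Set.indicator_apply]
    split_ifs <;> simp
  have sm : Summable (tT 𝔟 (W s D F) w) := by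
    refine Summable.of_norm_bounded ((H.sum 𝔟 hb w hw).norm.mul_left C) fun x => ?_
    rw [tT, tT, norm_mul, norm_mul, ← mul_assoc, W, W]
    refine mul_le_mul_of_nonneg_right ?_ (norm_nonneg _)
    have C0 := (norm_nonneg _).trans (hC ⊥)
    simp only [Set.indicator_apply, e x _ (hp x).symm]
    split_ifs
    · rcases eq_or_ne (x : 𝓞 L) 0 with k | k
      · have := hp x
        rw [k, span_singleton_zero, eq_comm, Ideal.mul_eq_bot] at this
        rw [this.resolve_left hb, h0, norm_zero]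
        positivity
      · rw [Pi.one_apply, one_mul, sg_norm hS (by simpa using k), mul_one]
        exact hC _
    · simp
  refine (sm.hasSum.tsum_fiberwise p).congr_fun fun I => ?_
  rw [tsum_congr fun x : p ⁻¹' {I} => tm x]
  rcases eq_or_ne I ⊥ with rfl | I0
  · rw [h0, zero_mul, mul_zero, ite_self, eq_comm]
    refine (tsum_congr fun x => ?_).trans tsum_zero
    rw [show p x = ⊥ from x.2, h0]
    simp
  split_ifs with k
  · obtain ⟨y, hy⟩ := k
    rw [submodule_span_eq] at hy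
    have y0 : y ≠ 0 := by
      rintro rfl
      exact mul_ne_zero hb I0 (by simpa using hy)
    have m : ∀ v : (𝓞 L)ˣ, span {(v : 𝓞 L) * y} = 𝔟 * I := fun v => by
      rw [span_singleton_mul_left_unit v.isUnit, hy]
    have m' : ∀ v : (𝓞 L)ˣ, (v : 𝓞 L) * y ∈ 𝔟 := fun v =>
      (Ideal.mul_le_left : 𝔟 * I ≤ 𝔟) ((m v).le (mem_span_singleton_self _))
    let g : (𝓞 L)ˣ → p ⁻¹' {I} := fun v => ⟨⟨v * y, m' v⟩,
      mul_left_cancel₀ hb ((hp ⟨v * y, m' v⟩).symm.trans (m v))⟩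
    have bj : Function.Bijective g := by
      refine ⟨fun a b e => Units.ext (mul_right_cancel₀ y0 (congrArg (fun z => z.1.1) e)),
        fun x => ?_⟩
      obtain ⟨v, hv⟩ := span_singleton_eq_span_singleton.1
        (hy.symm.trans ((show p x = I from x.2) ▸ (hp x).symm))
      exact ⟨v, Subtype.ext (Subtype.ext ((mul_comm _ _).trans hv))⟩
    rw [← (Equiv.ofBijective g bj).tsum_eq, ← H.card y0, ← nsmul_eq_mul, ← tsum_const,
      tsum_subtype _ fun _ => h I * ee (absNorm I * w)]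
    refine tsum_congr fun v => ?_
    rw [show p (Equiv.ofBijective g bj v) = I from (g v).2]
    rfl
  · have : IsEmpty (p ⁻¹' {I}) := ⟨fun x => k ⟨(x.1 : 𝓞 L), by
      rw [submodule_span_eq, hp x.1, show p x = I from x.2]⟩⟩
    exact tsum_empty.symm

theorem TS.dec (H : TS B sg u D T c) (hS : Sg sg) {ι : Type} [Fintype ι] {R : ι → Ideal (𝓞 L)}
    (hR : Sys R) {s : 𝓞 L → ℂ} {F : ι → 𝓞 L → ℂ} {h : Ideal (𝓞 L) → ℂ} {C : ℝ} (h0 : h ⊥ = 0)
    (hC : ∀ I, ‖h I‖ ≤ C) (e : ∀ i x I, R i * I = span {x} → F i x * s x = h I) {w : ℂ}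
    (hw : 0 < w.im) : HasSum (fun I => h I * ee (absNorm I * w))
      (((Subgroup.zpowers u).index : ℂ)⁻¹ * ∑ i, tI (R i) (W s D (F i)) w) := by
  refine ((hasSum_sum (s := Finset.univ) fun i _ =>
    H.fib hS (hR.1 i) h0 hC (e i) hw).mul_left _).congr_fun fun I => ?_
  rcases eq_or_ne I ⊥ with rfl | I0
  · simp [h0]
  obtain ⟨i, k, l⟩ := hR.2 I I0
  rw [Finset.sum_eq_single i (fun j _ n => if_neg (mt (l j) n)) (by simp), if_pos k,
    inv_mul_cancel_left₀ (Nat.cast_ne_zero.2 (H.idx hS))]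

end Vale.Agent.P004C.Wa.Tb
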