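import Vale.Agent.P004C.Wa.St

/-!
# P004 C, block WA: Hecke relations and the Hecke operators on expansions
-/

open UpperHalfPlane Finset
open scoped Classical Real

noncomputable section

namespace Vale.Agent.P004C.Wa.Th

/-- multiplicative coefficients with the recurrence at every prime -/
structure Hd (e A : ℕ → ℂ) : Prop where
  e1 : e 1 = 1
  em : ∀ a b, e (a * b) = e a * e b
  zero : A 0 = 0
  one : A 1 = 1
  mul : ∀ k n, k.Coprime n → A (k * n) = A k * A n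
  rc : ∀ p j, p.Prime → A (p ^ (j + 2)) = A p * A (p ^ (j + 1)) - e p * A (p ^ j)

/-- the coefficient of the Hecke operator -/
def hs (e A : ℕ → ℂ) (k n : ℕ) : ℂ :=
  ∑ a ∈ k.divisors, if a ∣ n then e a * A (k / a * (n / a)) else 0

variable {e A : ℕ → ℂ}

theorem Hd.key (h : Hd e A) {p : ℕ} (hp : p.Prime) (i j : ℕ) :
    A (p ^ (i + 1)) * A (p ^ (j + 1)) = A (p ^ (i + j + 2)) + e p * (A (p ^ i) * A (p ^ j)) := by
  induction i generalizing j with
  | zero =>
    rw [zero_add, zero_add, pow_one, pow_zero, h.one, h.rc p j hp]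
    ring
  | succ i ih =>
    have h1 := ih (j + 1)
    rw [show i + (j + 1) + 2 = i + 1 + j + 2 by ring, h.rc p j hp] at h1
    rw [h.rc p i hp]
    linear_combination h1

theorem fil_dvd {p k : ℕ} (hp : p.Prime) (hk : k ≠ 0) :
    (p * k).divisors.filter (p ∣ ·) = k.divisors.image (p * ·) := by
  ext a
  simp only [mem_filter, Nat.mem_divisors, mem_image]
  constructor
  · rintro ⟨⟨h1, -⟩, b, rfl⟩
    exact ⟨b, ⟨Nat.dvd_of_mul_dvd_mul_left hp.pos h1, hk⟩, rfl⟩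
  · rintro ⟨b, ⟨h1, -⟩, rfl⟩
    exact ⟨⟨Nat.mul_dvd_mul_left p h1, mul_ne_zero hp.ne_zero hk⟩, dvd_mul_right _ _⟩

theorem dvd_pow_mul {p k a : ℕ} (i : ℕ) (hp : p.Prime) (ha : ¬ p ∣ a) : a ∣ p ^ i * k ↔ a ∣ k :=
  ⟨fun h => (Nat.Coprime.pow_right i ((Nat.Prime.coprime_iff_not_dvd hp).2 ha).symm).dvd_of_dvd_mul_left h,
    fun h => h.mul_left _⟩

theorem fil_not {p k : ℕ} (i : ℕ) (hp : p.Prime) (hk : ¬ p ∣ k) :
    (p ^ i * k).divisors.filter (fun a => ¬ p ∣ a) = k.divisors := by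
  have hk0 : k ≠ 0 := fun h => hk (h ▸ dvd_zero p)
  ext a
  simp only [mem_filter, Nat.mem_divisors]
  constructor
  · rintro ⟨⟨h1, -⟩, h2⟩
    exact ⟨(dvd_pow_mul i hp h2).1 h1, hk0⟩
  · rintro ⟨h1, -⟩
    exact ⟨⟨h1.mul_left _, mul_ne_zero (pow_ne_zero _ hp.ne_zero) hk0⟩, fun h => hk (h.trans h1)⟩

/-- the Hecke relation -/
theorem Hd.rel (h : Hd e A) (k : ℕ) (hk : k ≠ 0) (n : ℕ) : hs e A k n = A k * A n := by
  induction k using Nat.strong_induction_on generalizing n with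
  | _ k ih =>
  rcases eq_or_ne n 0 with rfl | hn
  · simp [hs, h.zero]
  by_cases hc : k.Coprime n
  · unfold hs
    rw [sum_eq_single 1]
    · simp [h.e1, h.mul k n hc]
    · intro a ha h1
      rw [if_neg]
      exact fun h2 => h1 (Nat.eq_one_of_dvd_coprimes hc (Nat.dvd_of_mem_divisors ha) h2)
    · intro h1
      exact absurd (Nat.one_mem_divisors.2 hk) h1
  obtain ⟨p, hp, h1, h2⟩ := Nat.Prime.not_coprime_iff_dvd.1 hc
  obtain ⟨i, k0, hk0, rfl⟩ := Nat.exists_eq_pow_mul_and_not_dvd hk p hp.ne_one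
  obtain ⟨j, n0, hn0, rfl⟩ := Nat.exists_eq_pow_mul_and_not_dvd hn p hp.ne_one
  obtain ⟨i, rfl⟩ : ∃ i', i = i' + 1 := by
    rcases i with _ | i
    · exact absurd (by simpa using h1) hk0
    · exact ⟨i, rfl⟩
  obtain ⟨j, rfl⟩ : ∃ j', j = j' + 1 := by
    rcases j with _ | j
    · exact absurd (by simpa using h2) hn0
    · exact ⟨j, rfl⟩
  have k0z : k0 ≠ 0 := fun h => hk0 (h ▸ dvd_zero p)
  have kz : p ^ i * k0 ≠ 0 := mul_ne_zero (pow_ne_zero _ hp.ne_zero) k0z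
  have cp : ∀ (t x : ℕ), ¬ p ∣ x → A (p ^ t * x) = A (p ^ t) * A x := fun t x hx =>
    h.mul _ _ (Nat.Coprime.pow_left t ((Nat.Prime.coprime_iff_not_dvd hp).2 hx))
  have e1 : p ^ (i + 1) * k0 = p * (p ^ i * k0) := by ring
  have e2 : p ^ (j + 1) * n0 = p * (p ^ j * n0) := by ring
  have l1 : p ^ i * k0 < p ^ (i + 1) * k0 := by
    rw [e1]
    exact lt_mul_of_one_lt_left (Nat.pos_of_ne_zero kz) hp.one_lt
  have l2 : k0 < p ^ (i + 1) * k0 :=
    lt_of_le_of_lt (Nat.le_mul_of_pos_left _ (pow_pos hp.pos _)) l1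
  have a1 : ∑ a ∈ (p ^ (i + 1) * k0).divisors.filter (p ∣ ·), (if a ∣ p ^ (j + 1) * n0 then
      e a * A (p ^ (i + 1) * k0 / a * (p ^ (j + 1) * n0 / a)) else 0) =
      e p * hs e A (p ^ i * k0) (p ^ j * n0) := by
    rw [e1, e2, fil_dvd hp kz, sum_image fun a _ b _ hab => Nat.eq_of_mul_eq_mul_left hp.pos hab,
      hs, mul_sum]
    refine sum_congr rfl fun a _ => ?_
    rw [Nat.mul_div_mul_left _ _ hp.pos, Nat.mul_div_mul_left _ _ hp.pos, h.em]
    by_cases h3 : a ∣ p ^ j * n0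
    · rw [if_pos h3, if_pos (Nat.mul_dvd_mul_left p h3), mul_assoc]
    · rw [if_neg h3, if_neg fun h4 => h3 (Nat.dvd_of_mul_dvd_mul_left hp.pos h4), mul_zero]
  have a2 : ∑ a ∈ (p ^ (i + 1) * k0).divisors.filter (fun a => ¬ p ∣ a), (if a ∣ p ^ (j + 1) * n0 then
      e a * A (p ^ (i + 1) * k0 / a * (p ^ (j + 1) * n0 / a)) else 0) =
      A (p ^ (i + j + 2)) * hs e A k0 n0 := by
    rw [fil_not _ hp hk0, hs, mul_sum]
    refine sum_congr rfl fun a ha => ?_
    have h4 := Nat.dvd_of_mem_divisors ha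
    have h5 : ¬ p ∣ a := fun h => hk0 (h.trans h4)
    by_cases h3 : a ∣ n0
    · rw [if_pos h3, if_pos (h3.mul_left _), Nat.mul_div_assoc _ h4, Nat.mul_div_assoc _ h3,
        show p ^ (i + 1) * (k0 / a) * (p ^ (j + 1) * (n0 / a)) =
          p ^ (i + j + 2) * (k0 / a * (n0 / a)) by ring, cp]
      · ring
      · intro h6
        rcases (Nat.Prime.dvd_mul hp).1 h6 with h7 | h7
        · exact hk0 (h7.trans (Nat.div_dvd_of_dvd h4))
        · exact hn0 (h7.trans (Nat.div_dvd_of_dvd h3))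
    · rw [if_neg h3, if_neg fun h6 => h3 ((dvd_pow_mul _ hp h5).1 h6), mul_zero]
  unfold hs at a1 a2 ⊢
  rw [← sum_filter_add_sum_filter_not _ (p ∣ ·), a1, a2]
  have i1 := ih _ l1 kz (p ^ j * n0)
  have i2 := ih _ l2 k0z n0
  unfold hs at i1 i2
  rw [i1, i2, cp _ _ hk0, cp _ _ hk0, cp _ _ hn0, cp _ _ hn0]
  linear_combination -(A k0 * A n0) * h.key hp i j

theorem ee_add (x y : ℂ) : ee (x + y) = ee x * ee y := by
  unfold ee
  rw [mul_add, Complex.exp_add]

theorem root_sum {d : ℕ} (hd : d ≠ 0) (n : ℕ) :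
    ∑ b ∈ range d, ee (n * (b / d)) = if d ∣ n then (d : ℂ) else 0 := by
  have hd' : (d : ℂ) ≠ 0 := Nat.cast_ne_zero.2 hd
  have h1 : ∀ b : ℕ, ee (n * (b / d)) = Complex.exp (2 * π * Complex.I * n / d) ^ b := fun b => by
    rw [← Complex.exp_nat_mul, ee]
    congr 1
    ring
  simp_rw [h1]
  split_ifs with h
  · rw [(Complex.exp_two_pi_mul_I_mul_div_eq_one_iff hd).2 h]
    simp
  · rw [geom_sum_eq fun h2 => h ((Complex.exp_two_pi_mul_I_mul_div_eq_one_iff hd).1 h2),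
      ← Complex.exp_nat_mul, show (d : ℂ) * (2 * π * Complex.I * n / d) = n * (2 * π * Complex.I) by
        field_simp, Complex.exp_nat_mul_two_pi_mul_I, sub_self, zero_div]

theorem term {F : ℍ → ℂ} (hF : QE F A) {a d : ℕ} (ha : a ≠ 0) (hd : d ≠ 0) (τ : ℍ) :
    HasSum (fun n : ℕ => (if a ∣ n then A (d * (n / a)) else 0) * ee (n * τ))
      (∑ b ∈ range d, F (ofComplex ((a * τ + b) / d)) / d) := by
  have hd' : (d : ℂ) ≠ 0 := Nat.cast_ne_zero.2 hd
  have h1 : ∀ b : ℕ, ((ofComplex ((a * τ + b) / d) : ℍ) : ℂ) = (a * τ + b) / d := fun b => by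
    rw [ofComplex_apply_of_im_pos]
    have : ((a * τ + b) / d : ℂ).im = a * τ.im / d := by
      rw [← Complex.ofReal_natCast d, Complex.div_ofReal_im]
      simp
    rw [this]
    have := τ.im_pos
    have := Nat.pos_of_ne_zero ha
    have := Nat.pos_of_ne_zero hd
    positivity
  have h2 := hasSum_sum fun b (_ : b ∈ range d) => (hF (ofComplex ((a * τ + b) / d))).div_const d
  have h3 : ∀ n : ℕ, ∑ b ∈ range d, A n * ee (n * (ofComplex ((a * τ + b) / d) : ℍ)) / d =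
      if d ∣ n then A n * ee (n / d * (a * τ)) else 0 := fun n => by
    have : ∀ b : ℕ, A n * ee (n * (ofComplex ((a * τ + b) / d) : ℍ)) / d =
        A n * ee (n / d * (a * τ)) / d * ee (n * (b / d)) := fun b => by
      rw [h1, show (n : ℂ) * ((a * τ + b) / d) = n / d * (a * τ) + n * (b / d) by ring, ee_add]
      ring
    simp_rw [this]
    rw [← mul_sum, root_sum hd]
    split_ifs
    · field_simp
    · rw [mul_zero]
  simp_rw [h3] at h2
  have i1 : Function.Injective fun n : ℕ => d * n := mul_right_injective₀ hd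
  have i2 : Function.Injective fun n : ℕ => a * n := mul_right_injective₀ ha
  rw [← i1.hasSum_iff fun n hn => if_neg fun ⟨c, hc⟩ => hn ⟨c, hc.symm⟩] at h2
  rw [← i2.hasSum_iff fun n hn => by rw [if_neg fun ⟨c, hc⟩ => hn ⟨c, hc.symm⟩, zero_mul]]
  refine (congrArg (HasSum · _) (funext fun n => ?_)).mpr h2
  simp only [Function.comp, if_pos (dvd_mul_right _ _),
    Nat.mul_div_cancel_left _ (Nat.pos_of_ne_zero ha)]
  congr 2
  push_cast
  field_simp

/-- an expansion with Hecke coefficients is an eigenform -/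
theorem Hd.hk {ε : ℤ → ℂ} (h : Hd (fun a => ε a) A) {F : ℍ → ℂ} (hF : QE F A) {k : ℕ} (hk : k ≠ 0) :
    Hk ε F k (A k) := fun τ => by
  have h1 := hasSum_sum fun x (hx : x ∈ k.divisorsAntidiagonal) =>
    (term hF (Nat.left_ne_zero_of_mem_divisorsAntidiagonal hx)
      (Nat.right_ne_zero_of_mem_divisorsAntidiagonal hx) τ).mul_left (ε x.1)
  refine h1.unique ?_
  convert (hF τ).mul_left (A k) using 2 with n
  rw [← mul_assoc, ← h.rel k hk n, hs, sum_mul,
    Nat.sum_divisorsAntidiagonal fun a d => ε a * ((if a ∣ n then A (d * (n / a)) else 0) * ee (n * τ))]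
  refine sum_congr rfl fun a _ => ?_
  split_ifs
  · ring
  · simp

end Vale.Agent.P004C.Wa.Th
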