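import Vale.Agent.P004C.Wa.ThaC
import Vale.Agent.P004C.Wa.ThaH
import Vale.Agent.P022.H724.Jac
import Vale.Agent.P022.H220.Ser

/-!
# P004 C, block WA: the coefficients of the theta series at the unramified primes
-/

open NumberField Module Finset
open scoped Classical NumberTheorySymbols

noncomputable section

namespace Vale.Agent.P004C.Wa.Th

open Vale.Agent.P022

theorem hd_of {e A : ℕ → ℂ} (e1 : e 1 = 1) (em : ∀ a b, e (a * b) = e a * e b) (a0 : A 0 = 0)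
    (a1 : A 1 = 1) (h : ∀ p n, p.Prime →
      A p * A n = A (p * n) + if p ∣ n then e p * A (n / p) else 0) : Hd e A := by
  have rc : ∀ p j n, p.Prime →
      A (p ^ (j + 2) * n) = A p * A (p ^ (j + 1) * n) - e p * A (p ^ j * n) := fun p j n hp => by
    rw [h p _ hp, show p ^ (j + 1) * n = p * (p ^ j * n) by ring, if_pos (dvd_mul_right _ _),
      Nat.mul_div_cancel_left _ hp.pos, show p * (p * (p ^ j * n)) = p ^ (j + 2) * n by ring]
    ring
  have pw : ∀ p n, p.Prime → ¬ p ∣ n → ∀ j, A (p ^ j * n) = A (p ^ j) * A n := fun p n hp hn j => by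
    induction j using Nat.twoStepInduction with
    | zero => rw [pow_zero, one_mul, a1, one_mul]
    | one => rw [pow_one, h p n hp, if_neg hn, add_zero]
    | more j i0 i1 =>
      have := rc p j 1 hp
      simp only [mul_one] at this
      rw [rc p j n hp, i0, i1, this]
      ring
  refine ⟨e1, em, a0, a1, fun k => ?_, fun p j hp => by simpa using rc p j 1 hp⟩
  induction k using Nat.recOnPrimePow with
  | zero => intro n hn; rw [zero_mul, a0, zero_mul]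
  | one => intro n _; rw [one_mul, a1, one_mul]
  | prime_pow_mul a p j hp ha hj ih =>
    intro n hn
    have h1 : ¬ p ∣ n := (Nat.Prime.coprime_iff_not_dvd hp).1
      (hn.coprime_dvd_left ((dvd_pow_self p hj.ne').mul_right a))
    rw [mul_assoc, pw p _ hp fun k => ((Nat.Prime.dvd_mul hp).1 k).elim ha h1, pw p a hp ha,
      ih n (hn.coprime_dvd_left (dvd_mul_left _ _)), mul_assoc]

variable {L : Type} [Field L] [NumberField L] {c : Ideal (𝓞 L) → ℂ}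

theorem co_eq (c : Ideal (𝓞 L) → ℂ) (n : ℕ) : co c n = ∑ I ∈ H220.Pl (𝓞 L) n, c I :=
  finsum_mem_eq_finite_toFinset_sum _ _

theorem shift (hc : ∀ I J, c (I * J) = c I * c J) {B : Ideal (𝓞 L)} (hB : B ≠ ⊥) (n : ℕ) :
    ∑ I ∈ H220.Pl (𝓞 L) (Ideal.absNorm B * n), (if B ∣ I then c I else 0) = c B * co c n := by
  rw [← sum_filter, co_eq, mul_sum]
  symm
  refine sum_bij (fun I _ => B * I) (fun I hI => ?_) (fun I _ J _ e => mul_left_cancel₀ hB e)
    (fun I hI => ?_) fun I _ => (hc B I).symm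
  · rw [mem_filter, H220.mem_Pl, map_mul, H220.mem_Pl.1 hI]
    exact ⟨rfl, dvd_mul_right _ _⟩
  · obtain ⟨h1, J, rfl⟩ := mem_filter.1 hI
    rw [H220.mem_Pl, map_mul] at h1
    exact ⟨J, H220.mem_Pl.2 (mul_left_cancel₀ (mt Ideal.absNorm_eq_zero_iff.1 hB) h1), rfl⟩

theorem rank_int (h2 : finrank ℚ L = 2) : finrank ℤ (𝓞 L) = 2 := by rw [RingOfIntegers.rank, h2]

theorem unr (h2 : finrank ℚ L = 2) {p : ℕ} (hp : p.Prime) (p2 : p ≠ 2) (hd : ¬ (p : ℤ) ∣ discr L) :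
    H220.Unram (𝓞 L) p ∧ H220.chi (𝓞 L) p = J(discr L | p) := by
  have : Fact p.Prime := ⟨hp⟩
  obtain ⟨B⟩ := H724.exists_qb h2
  refine ⟨fun P hP => B.sq_ne p2 hd P hP, ?_⟩
  have h1 := B.ncard_norm_eq p2 hd
  have h3 : {P : Ideal (𝓞 L) | Ideal.absNorm P = p} = (H220.Pl (𝓞 L) p : Set _) := by
    ext P
    simp
  rw [h3, Set.ncard_coe_finset, jacobiSym.legendreSym.to_jacobiSym] at h1
  rw [H220.chi, h1]
  ring

/-- the relation at an unramified odd prime -/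
theorem co_rel (h2 : finrank ℚ L = 2) (hc : ∀ I J, c (I * J) = c I * c J) {p : ℕ} (hp : p.Prime)
    (p2 : p ≠ 2) (hd : ¬ (p : ℤ) ∣ discr L) (n : ℕ) : co c p * co c n = co c (p * n) +
      if p ∣ n then J(discr L | p) * c (Ideal.span {(p : 𝓞 L)}) * co c (n / p) else 0 := by
  obtain ⟨hu, hx⟩ := unr h2 hp p2 hd
  have r2 := rank_int h2
  have h1 : co c p * co c n = ∑ P ∈ H220.Pl (𝓞 L) p, ∑ I ∈ H220.Pl (𝓞 L) (p * n),
      (if P ∣ I then c I else 0) := by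
    rw [co_eq c p, sum_mul]
    refine sum_congr rfl fun P hP => ?_
    have e := H220.mem_Pl.1 hP
    rw [← shift hc (fun k => hp.ne_zero (by rw [← e, k, Ideal.absNorm_bot])) n, e]
  have h3 : ∀ I ∈ H220.Pl (𝓞 L) (p * n), ∑ P ∈ H220.Pl (𝓞 L) p, (if P ∣ I then c I else 0) =
      c I + J(discr L | p) * (if Ideal.span {(p : 𝓞 L)} ∣ I then c I else 0) := fun I hI => by
    have e := congrArg (Int.cast : ℤ → ℂ)
      (H220.card_dvd r2 hp hu (a := I) (by rw [H220.mem_Pl.1 hI]; exact dvd_mul_right _ _))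
    rw [← sum_filter, sum_const, nsmul_eq_mul, ← Int.cast_natCast, e, hx]
    split_ifs <;> push_cast <;> ring
  rw [h1, sum_comm, sum_congr rfl h3, sum_add_distrib, ← co_eq, ← mul_sum]
  congr 1
  have hn := H220.norm_l (R := 𝓞 L) (l := p) r2
  split_ifs with k
  · obtain ⟨n, rfl⟩ := k
    rw [Nat.mul_div_cancel_left _ hp.pos, mul_assoc, ← shift hc (B := Ideal.span {(p : 𝓞 L)})
      (by simpa using hp.ne_zero) n, hn, sq, mul_assoc]
  · rw [sum_eq_zero fun I hI => if_neg fun d => k ?_, mul_zero]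
    have := map_dvd Ideal.absNorm d
    rw [hn, H220.mem_Pl.1 hI, sq] at this
    exact Nat.dvd_of_mul_dvd_mul_left hp.pos this

theorem dich (h2 : finrank ℚ L = 2) {p : ℕ} (hp : p.Prime) (p2 : p ≠ 2)
    (hd : ¬ (p : ℤ) ∣ discr L) :
    (J(discr L | p) = 1 ∧ ¬ (Ideal.span {(p : 𝓞 L)}).IsPrime ∧ ∃ P Q : Ideal (𝓞 L), P ≠ Q ∧
      P * Q = Ideal.span {(p : 𝓞 L)} ∧ H220.Pl (𝓞 L) p = {P, Q}) ∨
    (J(discr L | p) = -1 ∧ (Ideal.span {(p : 𝓞 L)}).IsPrime ∧ H220.Pl (𝓞 L) p = ∅) := by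
  obtain ⟨hu, hx⟩ := unr h2 hp p2 hd
  have r2 := rank_int h2
  have hn := H220.norm_l (R := 𝓞 L) (l := p) r2
  have p0 : Ideal.span {(p : 𝓞 L)} ≠ ⊥ := by simpa using hp.ne_zero
  rcases H220.split_or_inert r2 hp hu with ⟨P, Q, ne, hP, hQ, e, k⟩ | k
  · refine Or.inl ⟨by rw [← hx, H220.chi, k, card_pair ne]; rfl, fun h => ?_, P, Q, ne, e, k⟩
    have := (Ideal.prime_of_isPrime p0 h).irreducible.isUnit_or_isUnit e.symm
    rcases this with u | u <;> rw [Ideal.isUnit_iff, ← Ideal.absNorm_eq_one_iff] at u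
    · exact hp.ne_one (hP ▸ u)
    · exact hp.ne_one (hQ ▸ u)
  · refine Or.inr ⟨by rw [← hx, H220.chi, k]; rfl, ?_, k⟩
    obtain ⟨P, hP, le⟩ := Ideal.exists_le_maximal (Ideal.span {(p : 𝓞 L)}) fun e => by
      rw [← Ideal.absNorm_eq_one_iff, hn] at e
      exact hp.ne_one (by simpa using e)
    have d1 := map_dvd Ideal.absNorm (Ideal.dvd_iff_le.2 le)
    rw [hn] at d1
    obtain ⟨i, hi, e⟩ := (Nat.dvd_prime_pow hp).1 d1
    have d2 : p ∣ Ideal.absNorm P := by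
      rcases i with _ | i
      · exact absurd (Ideal.absNorm_eq_one_iff.1 e) hP.ne_top
      · exact e ▸ dvd_pow_self p i.succ_ne_zero
    rcases H220.exists_dvd r2 hp d2 with ⟨Q, hQ, -⟩ | d
    · exact absurd (k ▸ hQ) (notMem_empty _)
    · rw [le_antisymm le (Ideal.le_of_dvd d)]
      exact hP.isPrime

variable {sg : L → ℂ} {f : Ideal (𝓞 L)} {ψ : Ideal (𝓞 L) → ℂ}

theorem dp_mul (r : RC sg f ψ) (m : ℕ) (I J : Ideal (𝓞 L)) :
    dp m ψ (I * J) = dp m ψ I * dp m ψ J := by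
  simp only [dp, map_mul, Nat.coprime_mul_iff_left, r.mul]
  by_cases h : (Ideal.absNorm I).Coprime m
  · by_cases k : (Ideal.absNorm J).Coprime m
    · rw [if_pos h, if_pos k, if_pos ⟨h, k⟩]
    · rw [if_neg k, if_neg fun e => k e.2, mul_zero]
  · rw [if_neg h, if_neg fun e => h e.1, zero_mul]

theorem co_dp (m : ℕ) (ψ : Ideal (𝓞 L) → ℂ) (k : ℕ) :
    co (dp m ψ) k = if k.Coprime m then co ψ k else 0 := by
  rw [co_eq, co_eq]
  split_ifs with h
  · exact sum_congr rfl fun I hI => if_pos (by rwa [H220.mem_Pl.1 hI])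
  · exact sum_eq_zero fun I hI => if_neg (by rwa [H220.mem_Pl.1 hI])

theorem co_zero (r : RC sg f ψ) : co ψ 0 = 0 := by
  rw [co_eq]
  exact sum_eq_zero fun I hI => (r.zero I).2 (Or.inl (Ideal.absNorm_eq_zero_iff.1 (H220.mem_Pl.1 hI)))

theorem co_one (r : RC sg f ψ) : co ψ 1 = 1 := by
  rw [co_eq, show H220.Pl (𝓞 L) 1 = {1} from ext fun I => by simp, sum_singleton, r.one]

theorem eps_nat (m : ℕ) (ψ : Ideal (𝓞 L) → ℂ) {p : ℕ} (hp : p ≠ 0) (k : p.Coprime m) :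
    eps m ψ p = J(discr L | p) * ψ (Ideal.span {(p : 𝓞 L)}) := by
  rw [eps, if_pos (Nat.isCoprime_iff_coprime.2 k),
    Int.sign_eq_one_of_pos (by exact_mod_cast Nat.pos_of_ne_zero hp), one_mul, Int.natAbs_natCast,
    Int.cast_natCast]

theorem good {m₀ m p : ℕ} (k2 : 2 ∣ m₀) (k : (discr L).natAbs * m₀ ∣ m) (hp : p.Prime)
    (hc : p.Coprime m) : p ≠ 2 ∧ ¬ (p : ℤ) ∣ discr L ∧ p.Coprime m₀ := by
  have h := (Nat.Prime.coprime_iff_not_dvd hp).1 hc
  refine ⟨?_, fun d => h ((Int.natCast_dvd.1 d).trans ((dvd_mul_right _ _).trans k)),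
    hc.coprime_dvd_right ((dvd_mul_left _ _).trans k)⟩
  rintro rfl
  exact h (k2.trans ((dvd_mul_left _ _).trans k))

/-- the depleted coefficients are Hecke data -/
theorem hd_dp (h2 : finrank ℚ L = 2) (h : Sg sg) (r : RC sg f ψ) (hf : f ≠ ⊤) {m₀ m : ℕ}
    (hm : (m₀ : 𝓞 L) ∈ f) (k2 : 2 ∣ m₀) (k : (discr L).natAbs * m₀ ∣ m) :
    Hd (fun a : ℕ => eps m ψ a) (co (dp m ψ)) := by
  have C := chr h2 h r hf hm k2 k
  refine hd_of (by simpa using C.one) (fun a b => by rw [Nat.cast_mul, C.mul]) ?_ ?_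
    fun p n hp => ?_
  · rw [co_dp, co_zero r, ite_self]
  · rw [co_dp, if_pos (Nat.coprime_one_left m), co_one r]
  by_cases hc : p.Coprime m
  · obtain ⟨g1, g2, -⟩ := good k2 k hp hc
    have e : dp m ψ (Ideal.span {(p : 𝓞 L)}) = ψ (Ideal.span {(p : 𝓞 L)}) :=
      if_pos (by rw [H220.norm_l (rank_int h2)]; exact hc.pow_left 2)
    rw [co_rel h2 (dp_mul r m) hp g1 g2, eps_nat m ψ hp.ne_zero hc, e]
  · rw [co_dp m ψ p, co_dp m ψ (p * n), if_neg hc, if_neg fun e => hc e.coprime_mul_right,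
      (C.zero p).2 (mt Nat.isCoprime_iff_coprime.1 hc)]
    simp

/-- the roots at a good prime -/
theorem roots (h2 : finrank ℚ L = 2) (h : Sg sg) (r : RC sg f ψ) {m₀ m : ℕ}
    (hm : (m₀ : 𝓞 L) ∈ f) (k2 : 2 ∣ m₀) (k : (discr L).natAbs * m₀ ∣ m) {p : ℕ} (hp : p.Prime)
    (hc : p.Coprime m) : eps m ψ p =
        (if (Ideal.span {(p : 𝓞 L)}).IsPrime then -1 else 1) * ψ (Ideal.span {(p : 𝓞 L)}) ∧
      ∃ x y : ℂ, ‖x‖ = 1 ∧ ‖y‖ = 1 ∧ x * y = eps m ψ p ∧ x + y = co ψ p := by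
  obtain ⟨g1, g2, g3⟩ := good k2 k hp hc
  have n0 : ψ (Ideal.span {(p : 𝓞 L)}) ≠ 0 := fun e => by
    rcases (r.zero _).1 e with e | e
    · exact hp.ne_zero (by simpa using e)
    · exact e (by simpa using cop_int hm (Nat.isCoprime_iff_coprime.2 g3))
  rw [eps_nat m ψ hp.ne_zero hc, co_eq]
  rcases dich h2 hp g1 g2 with ⟨j, np, P, Q, ne, e, s⟩ | ⟨j, np, s⟩
  · rw [j, if_neg np, s, sum_pair ne, Int.cast_one, one_mul]
    rw [← e, r.mul] at n0 ⊢
    exact ⟨rfl, ψ P, ψ Q, psi_nrm h r (left_ne_zero_of_mul n0),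
      psi_nrm h r (right_ne_zero_of_mul n0), rfl, rfl⟩
  · rw [j, if_pos np, s, sum_empty, Int.cast_neg, Int.cast_one]
    obtain ⟨x, hx⟩ := IsAlgClosed.exists_pow_nat_eq (ψ (Ideal.span {(p : 𝓞 L)})) two_pos
    have nx : ‖x‖ = 1 := (pow_eq_one_iff_of_nonneg (norm_nonneg _) two_ne_zero).1
      (by rw [← norm_pow, hx, psi_nrm h r n0])
    exact ⟨rfl, x, -x, nx, by rwa [norm_neg], by rw [← hx]; ring, add_neg_cancel x⟩

end Vale.Agent.P004C.Wa.Th
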