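import Vale.Agent.P004C.Wa.Cj
import Vale.Agent.P004Z.Kf.Cn1
import Vale.Agent.P022.H724.Bas

/-!
# P004 C, block WA, row THK: discriminant, number of ideals of given norm, classes
-/

open NumberField Module Ideal
open scoped Classical ComplexConjugate NumberTheorySymbols

noncomputable section

namespace Vale.Agent.P004C.Wa.Tk

open Cj Vale.Agent.P004Z.Kf

variable {K : Type} [Field K] [NumberField K] {J : K →+* ℂ} {D : ℕ} {θ : 𝓞 K}
  {s : 𝓞 K ≃+* 𝓞 K}

theorem ex_y (h : Kd J D θ) (c : Cg J θ s) : ∃ (y : 𝓞 K) (e : ℤ), (D : ℤ) = 4 * e - 1 ∧ 1 < e ∧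
    y * y = ((-e : ℤ) : 𝓞 K) + ((1 : ℤ) : 𝓞 K) * y ∧ s y = 1 - y ∧
    (∀ x : 𝓞 K, ∃ a b : ℤ, x = a + b * y) ∧ ∀ a b : ℤ, (a : 𝓞 K) + b * y = 0 → a = 0 ∧ b = 0 := by
  obtain ⟨x, hx⟩ := c.one
  obtain ⟨t, ht⟩ := c.fix (x + s x) (by rw [map_add, c.ss, add_comm])
  obtain ⟨N, hN⟩ := c.fix (x * s x) (by rw [map_mul, c.ss, mul_comm])
  have hm := h.md
  have e1 : t ^ 2 + D = 4 * N := by
    have : ((t ^ 2 + D : ℤ) : 𝓞 K) = (4 * N : ℤ) := by
      push_cast
      linear_combination (-t - (x + s x)) * ht + 4 * hN + h.sq + (θ + (x - s x)) * hx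
    exact_mod_cast this
  obtain ⟨u, rfl⟩ : ∃ u, t = 2 * u + 1 := by
    rcases Int.even_or_odd' t with ⟨u, rfl | rfl⟩
    · have : 4 * (N - u ^ 2) = D := by linear_combination -e1
      omega
    · exact ⟨u, rfl⟩
  have e2 : (D : ℤ) = 4 * (N - u ^ 2 - u) - 1 := by linear_combination e1
  push_cast at ht
  have hs : s (x - u) = 1 - (x - u) := by
    rw [map_sub, map_intCast]
    linear_combination ht
  refine ⟨x - u, N - u ^ 2 - u, e2, by omega, ?_, hs, fun z => ?_, fun a b e => ?_⟩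
  · push_cast
    linear_combination x * ht - hN
  · obtain ⟨k, hk⟩ := c.sub z
    obtain ⟨j, hj⟩ := c.fix (z - k * x) (by
      rw [map_sub, map_mul, map_intCast]
      linear_combination k * hx - hk)
    exact ⟨j + k * u, k, by push_cast; linear_combination hj⟩
  · have e3 := congrArg s e
    rw [map_add, map_mul, map_intCast, map_intCast, map_zero, map_sub, map_intCast] at e3
    have e4 : (b : 𝓞 K) * θ = 0 := by linear_combination e - e3 - b * hx
    have e5 : b = 0 := by exact_mod_cast (mul_eq_zero.1 e4).resolve_right (th_ne h)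
    subst e5
    exact ⟨by simpa using e, rfl⟩

theorem dsc (h : Kd J D θ) : discr K = -(D : ℤ) := by
  obtain ⟨s, c⟩ := ex_cg h
  obtain ⟨y, e, hd, -, rel, -, gen, ind⟩ := ex_y h c
  rw [(⟨y, -e, 1, rel, gen, ind⟩ : P022.H724.QB K).discr_eq, hd]
  ring

theorem tc (h : Kd J D θ) : IsTotallyComplex K := by
  refine ⟨fun w => ?_⟩
  rw [← InfinitePlace.not_isReal_iff_isComplex]
  intro hw
  have := congrArg (fun x : 𝓞 K => InfinitePlace.embedding_of_isReal hw x) h.sq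
  simp only [map_pow, map_neg, map_natCast] at this
  have hD : (0 : ℝ) < D := by
    have := h.md
    exact_mod_cast (by omega : 0 < D)
  nlinarith [sq_nonneg (InfinitePlace.embedding_of_isReal hw θ)]

/-- the Jacobi symbol as a homomorphism -/
def jh (D : ℕ) : ℕ →* ℤ where
  toFun n := J(n | D)
  map_one' := by simp
  map_mul' a b := by rw [Nat.cast_mul, jacobiSym.mul_left]

theorem card_bb {e : ℤ} [Fact (1 < e)] (hd : (D : ℤ) = 4 * e - 1) (hs : Squarefree D) {n : ℕ}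
    (hn : n ≠ 0) : ((Cn.BB e n).card : ℤ) = ∑ d ∈ n.divisors, J(d | D) := by
  have hs' : Squarefree (4 * e - 1) := by
    rw [← hd]
    exact Int.squarefree_natCast.2 hs
  have : Subsingleton (Cn.R e ⧸ (⊤ : Ideal (Cn.R e))) := Ideal.Quotient.subsingleton_iff.2 rfl
  have hι : Cn.Loc (Ideal.Quotient.mk (⊤ : Ideal (Cn.R e))) D := fun p _ =>
    Or.inl (isUnit_of_subsingleton _)
  have hχ : Cn.Gch D 1 (jh D) 1 := fun p hp => by
    refine ⟨one_mul _, one_mul _, fun k => ⟨rfl, k⟩, fun k => ?_, fun k => ?_⟩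
    · show 1 + J(p | D) = 0
      rw [k]
      rfl
    · show 1 + J(p | D) = 1
      rw [jacobiSym.eq_zero_iff.2 ⟨by rintro rfl; omega, by
        simpa [Nat.gcd_eq_left k] using hp.ne_one⟩, add_zero]
  have e1 := Cn.D_eq hd hs' hι hχ n hn (fun _ _ => 1) (fun _ _ _ _ _ => rfl)
  rw [Cn.Dv, Cn.Gv, Finset.sum_congr rfl (g := fun _ => 1) (s₁ := Cn.BB e n) fun b hb => by
    obtain ⟨x, y, g⟩ := Cn.ex_gen hd hs' hι n hn b ((Cn.mem_BB hn).1 hb)
    exact Cn.W_eq ((Cn.mem_BB hn).1 hb) (Int.natCast_ne_zero.2 hn) g (fun _ _ _ _ _ => rfl)] at e1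
  rw [← Nat.sum_divisorsAntidiagonal' (f := fun _ d : ℕ => J(d | D))]
  simpa [jh] using e1.symm

theorem cnt (h : Kd J D θ) {n : ℕ} (hn : 0 < n) :
    co (fun _ : Ideal (𝓞 K) => 1) n = ∑ d ∈ n.divisors, (J(d | D) : ℂ) := by
  obtain ⟨s, c⟩ := ex_cg h
  obtain ⟨y, e, hd, he, rel, hs, gen, ind⟩ := ex_y h c
  have : Fact (1 < e) := ⟨he⟩
  let f0 : Cn.R e →+* 𝓞 K :=
    { toFun := fun z => z.re + z.im * y
      map_one' := by
        show ((1 : ℤ) : 𝓞 K) + ((0 : ℤ) : 𝓞 K) * y = 1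
        simp
      map_zero' := by
        show ((0 : ℤ) : 𝓞 K) + ((0 : ℤ) : 𝓞 K) * y = 0
        simp
      map_add' := fun z w => by
        simp only [QuadraticAlgebra.re_add, QuadraticAlgebra.im_add]
        push_cast
        ring
      map_mul' := fun z w => by
        simp only [QuadraticAlgebra.re_mul, QuadraticAlgebra.im_mul]
        push_cast at rel ⊢
        linear_combination (-(z.im * w.im : 𝓞 K)) * rel }
  have hf : Function.Bijective f0 := by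
    refine ⟨(injective_iff_map_eq_zero f0).2 fun z hz => ?_, fun x => ?_⟩
    · exact QuadraticAlgebra.ext (ind _ _ hz).1 (ind _ _ hz).2
    · obtain ⟨a, b, rfl⟩ := gen x
      exact ⟨⟨a, b⟩, rfl⟩
  have hst : ∀ z, f0 (star z) = s (f0 z) := fun z => by
    show ((star z).re : 𝓞 K) + (star z).im * y = s (z.re + z.im * y)
    rw [map_add, map_mul, map_intCast, map_intCast, hs]
    simp
    ring
  have hcj : ∀ b : Ideal (Cn.R e), (Cn.cj b).map f0 = (b.map f0).map s := fun b => by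
    rw [Cn.cj, Ideal.map_map]
    refine Eq.trans ?_ (Ideal.map_map f0 (s : 𝓞 K →+* 𝓞 K)).symm
    exact congrArg (fun g => Ideal.map g b) (RingHom.ext hst)
  have hinj : Function.Injective (Ideal.map f0) := fun a b e => by
    rw [← Ideal.comap_map_of_bijective f0 hf (I := a), e, Ideal.comap_map_of_bijective f0 hf]
  have key : ∀ b : Ideal (Cn.R e), Cn.Nm b n ↔ absNorm (b.map f0) = n := fun b => by
    rw [Cn.Nm, ← hinj.eq_iff, Ideal.map_mul, hcj, c.nm, Ideal.map_span, Set.image_singleton,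
      map_intCast, Int.cast_natCast]
    refine ⟨fun k => ?_, fun k => by rw [k]⟩
    have := congrArg absNorm k
    rw [absNorm_nat h, absNorm_nat h] at this
    exact Nat.pow_left_injective two_ne_zero this
  have hS : {I : Ideal (𝓞 K) | absNorm I = n} = ↑((Cn.BB e n).image (Ideal.map f0)) := by
    ext I
    simp only [Set.mem_ofPred_eq, Finset.coe_image, Set.mem_image, Finset.mem_coe,
      Cn.mem_BB hn.ne', key]
    refine ⟨fun k => ⟨I.comap f0, ?_⟩, fun ⟨b, k, e⟩ => e ▸ k⟩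
    rw [Ideal.map_comap_of_surjective f0 hf.2]
    exact ⟨k, rfl⟩
  rw [co, hS, finsum_mem_coe_finset, Finset.sum_const, Finset.card_image_of_injective _ hinj,
    nsmul_one]
  exact_mod_cast card_bb hd h.sqf hn.ne'

/-! ### classes -/

omit [NumberField K] in
theorem mne {I I' : Ideal (𝓞 K)} (h : I ≠ ⊥) (h' : I' ≠ ⊥) : I * I' ≠ ⊥ := mul_ne_zero h h'

theorem cl_mul {I I' : Ideal (𝓞 K)} (h : I ≠ ⊥) (h' : I' ≠ ⊥) : cl (I * I') = cl I * cl I' := by
  rw [cl, cl, cl, dif_neg h, dif_neg h', dif_neg (mne h h'), ← map_mul]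
  rfl

theorem cl_one {I : Ideal (𝓞 K)} (h : I ≠ ⊥) : cl I = 1 ↔ ∃ x, I = span {x} := by
  rw [cl, dif_neg h, ClassGroup.mk0_eq_one_iff]
  exact ⟨fun ⟨x, e⟩ => ⟨x, e⟩, fun ⟨x, e⟩ => ⟨x, e⟩⟩

theorem cl_pow {I : Ideal (𝓞 K)} (h : I ≠ ⊥) (k : ℕ) : cl (I ^ k) = cl I ^ k := by
  induction k with
  | zero => rw [pow_zero, pow_zero]; exact (cl_one (by simp)).2 ⟨1, by simp⟩
  | succ k ih => rw [pow_succ, cl_mul (pow_ne_zero k h) h, ih, pow_succ]

theorem ex_rep (C : ClassGroup (𝓞 K)) {f : Ideal (𝓞 K)} (h0 : f ≠ ⊥) (h1 : f ≠ ⊤) :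
    ∃ b : Ideal (𝓞 K), b ≠ ⊥ ∧ b ⊔ f = ⊤ ∧ (cl b)⁻¹ = C := by
  obtain ⟨⟨I, hI⟩, rfl⟩ := ClassGroup.mk0_surjective C
  have h2 : I ≠ ⊥ := nonZeroDivisors.ne_zero hI
  obtain ⟨x, hx⟩ := IsDedekindDomain.exists_sup_span_eq (I := I * f) (J := I) mul_le_left
    (mne h2 h0)
  obtain ⟨b, hb⟩ : I ∣ span {x} := Ideal.dvd_iff_le.2 (le_sup_right.trans hx.le)
  have h3 : b ⊔ f = ⊤ := mul_left_cancel₀ h2 (by rw [Ideal.mul_sup, ← hb, sup_comm, hx, mul_top])
  have h4 : b ≠ ⊥ := fun e => h1 (by simpa [e] using h3)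
  refine ⟨b, h4, h3, inv_eq_of_mul_eq_one_left ?_⟩
  rw [← (cl_one (mne h2 h4)).2 ⟨x, hb.symm⟩, cl_mul h2 h4, cl.eq_1 I, dif_neg h2]

/-- an ideal class is an ideal up to sign -/
theorem fib (hu : ∀ u : (𝓞 K)ˣ, u = 1 ∨ u = -1) {b : Ideal (𝓞 K)} (hb : b ≠ ⊥) {g : Ideal (𝓞 K) → ℂ}
    {t : b → ℂ} {S : ℂ} (hS : HasSum t S)
    (ht : ∀ (x : b) (I : Ideal (𝓞 K)), (x : 𝓞 K) ≠ 0 → span {(x : 𝓞 K)} = b * I → t x = g I) :
    HasSum (fun I => if I ≠ ⊥ ∧ cl I = (cl b)⁻¹ then 2 * g I else 0) (S - t 0) := by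
  have ex : ∀ x : b, ∃ I, span {(x : 𝓞 K)} = b * I := fun x =>
    Ideal.dvd_iff_le.2 ((span_singleton_le_iff_mem _).2 x.2)
  choose lev hl using ex
  have h1 := (Equiv.sigmaFiberEquiv lev).hasSum_iff.2 (hasSum_ite_sub_hasSum hS 0)
  refine h1.sigma fun I => ?_
  show HasSum (fun x : {x // lev x = I} => if x.1 = 0 then 0 else t x.1) _
  split_ifs with k
  · obtain ⟨x, hx⟩ := (cl_one (mne hb k.1)).1 (by rw [cl_mul hb k.1, k.2, mul_inv_cancel])
    have x0 : x ≠ 0 := fun e => mne hb k.1 (by rw [hx, e]; simp)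
    have xb : x ∈ b := (mul_le_left : b * I ≤ b) (hx.ge (mem_span_singleton_self x))
    have l1 : lev ⟨x, xb⟩ = I := mul_left_cancel₀ hb ((hl _).symm.trans hx.symm)
    have hx' : span {-x} = b * I := by rw [span_singleton_neg, hx]
    have l2 : lev ⟨-x, b.neg_mem xb⟩ = I := mul_left_cancel₀ hb ((hl _).symm.trans hx')
    have ne : (⟨⟨x, xb⟩, l1⟩ : {x // lev x = I}) ≠ ⟨⟨-x, b.neg_mem xb⟩, l2⟩ := fun e =>
      x0 (self_eq_neg.1 (congrArg (fun z : {x // lev x = I} => (z.1 : 𝓞 K)) e))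
    have := hasSum_sum_of_ne_finset_zero (L := SummationFilter.unconditional _)
      (f := fun x : {x // lev x = I} => if x.1 = 0 then 0 else t x.1)
      (s := {⟨⟨x, xb⟩, l1⟩, ⟨⟨-x, b.neg_mem xb⟩, l2⟩}) fun z hz => by
        refine absurd ?_ hz
        obtain ⟨u, e⟩ := span_singleton_eq_span_singleton.1 (hx.symm.trans (z.2 ▸ hl z.1).symm)
        rw [Finset.mem_insert, Finset.mem_singleton]
        refine (hu u).imp (fun e1 => ?_) fun e1 => ?_ <;>
          exact Subtype.ext (Subtype.ext (by rw [← e, e1]; simp))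
    rw [Finset.sum_pair ne] at this
    simp only at this
    rwa [if_neg (fun e => x0 (congrArg Subtype.val e)),
      if_neg (fun e => neg_ne_zero.2 x0 (congrArg Subtype.val e)), ht ⟨x, xb⟩ I x0 hx.symm,
      ht ⟨-x, b.neg_mem xb⟩ I (neg_ne_zero.2 x0) hx', ← two_mul] at this
  · refine hasSum_zero.congr_fun ?_
    rintro ⟨⟨x, xb⟩, hx⟩
    refine if_pos ?_
    by_contra x0
    have x1 : x ≠ 0 := fun e => x0 (Subtype.ext e)
    have e : span {x} = b * I := hx ▸ hl ⟨x, xb⟩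
    have I0 : I ≠ ⊥ := fun e1 => x1 (span_singleton_eq_bot.1 (by rw [e, e1, mul_bot]))
    exact k ⟨I0, eq_inv_of_mul_eq_one_right (by
      rw [← cl_mul hb I0, (cl_one (mne hb I0)).2 ⟨_, e.symm⟩])⟩

end Vale.Agent.P004C.Wa.Tk
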