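import Vale.Agent.P004C.Wa.St

/-! # P004 C, block WA: characters, bounds, constant terms -/

open NumberField Module UpperHalfPlane CongruenceSubgroup MeasureTheory
open scoped Classical MatrixGroups Real Manifold ModularForm ComplexConjugate NumberTheorySymbols
  Modular

noncomputable section

namespace Vale.Agent.P004C.Wa.Wd

open Vale.Agent.P004Z.W2

variable {m N D : ℕ} {ε : ℤ → ℂ} {F : ℍ → ℂ}

/-! ### characters -/

theorem chr_one (h : Chr m ε) {a : ℤ} (e : (m : ℤ) ∣ a - 1) : ε a = 1 := (h.per _ _ e).trans h.one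

theorem chr_pow (h : Chr m ε) (a : ℤ) (k : ℕ) : ε (a ^ k) = ε a ^ k := by
  induction k with
  | zero => simpa using h.one
  | succ k ih => rw [pow_succ, h.mul, ih, pow_succ]

theorem chr_norm (h : Chr m ε) (hm : 0 < m) {a : ℤ} (c : IsCoprime a (m : ℤ)) : ‖ε a‖ = 1 := by
  have e := chr_one h (a := a ^ m.totient) ((ZMod.intCast_zmod_eq_zero_iff_dvd _ _).1 (by
    have := congrArg Units.val (ZMod.pow_totient (ZMod.unitOfIsCoprime a c))
    push_cast
    exact sub_eq_zero.2 ((Units.val_pow_eq_pow_val _ _).symm.trans this)))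
  rw [chr_pow h] at e
  have := congrArg norm e
  rw [norm_pow, norm_one] at this
  exact (pow_eq_one_iff_of_nonneg (norm_nonneg _) (Nat.totient_pos.2 hm).ne').1 this

theorem chr_conj (h : Chr m ε) (hm : 0 < m) {a : ℤ} (c : IsCoprime a (m : ℤ)) :
    conj (ε a) * ε a = 1 := by
  rw [mul_comm, Complex.mul_conj, Complex.normSq_eq_norm_sq, chr_norm h hm c]
  simp

theorem chr_sq (h : Chr m ε) : Chr (m ^ 2) ε :=
  ⟨h.one, h.mul, fun a b e => h.per a b ((by push_cast; exact dvd_pow_self _ two_ne_zero :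
    (m : ℤ) ∣ (m ^ 2 : ℕ)).trans e), fun a => by
      rw [h.zero, Nat.cast_pow, IsCoprime.pow_right_iff two_pos], h.odd⟩

theorem j_zero (hD : 0 < D) (a : ℤ) : (J(a | D) : ℂ) = 0 ↔ ¬ IsCoprime a (D : ℤ) := by
  have : NeZero D := ⟨hD.ne'⟩
  rw [Int.cast_eq_zero, jacobiSym.eq_zero_iff_not_coprime, Int.isCoprime_iff_gcd_eq_one]

theorem chr_M (M : ℕ) (hD : D % 4 = 3) :
    Chr (M * D) fun d => if IsCoprime d (M : ℤ) then (J(d | D) : ℂ) else 0 where
  one := by simp [isCoprime_one_left]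
  mul a b := by
    simp only [IsCoprime.mul_left_iff, jacobiSym.mul_left]
    by_cases h : IsCoprime a (M : ℤ) <;> by_cases h' : IsCoprime b (M : ℤ) <;> simp [h, h']
  per a b e := by
    obtain ⟨k, e⟩ := e
    have e1 : a = b + M * (D * k) := by push_cast at e; linear_combination e
    have : J(a | D) = J(b | D) := jacobiSym.mod_left'
      (Int.modEq_iff_dvd.2 ⟨-(M * k), by rw [e1]; ring⟩ : a ≡ b [ZMOD D])
    rw [this, e1]
    simp only [IsCoprime.add_mul_left_left_iff]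
  zero a := by
    rw [Nat.cast_mul, IsCoprime.mul_right_iff]
    by_cases h : IsCoprime a (M : ℤ) <;> simp only [h, if_true, if_false, j_zero (by omega : 0 < D)] <;>
      simp
  odd := by
    rw [if_pos isCoprime_one_left.neg_left, jacobiSym.at_neg_one (Nat.odd_iff.2 (by omega)),
      ZMod.χ₄_nat_three_mod_four hD]
    simp

theorem chr_J (hD : D % 4 = 3) : Chr D fun d => (J(d | D) : ℂ) := by
  simpa [isCoprime_one_right] using chr_M 1 hD

theorem cop_d {γ : SL(2, ℤ)} (h : γ ∈ Gamma0 N) : IsCoprime (γ 1 1) (N : ℤ) := by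
  obtain ⟨c, e⟩ := (ZMod.intCast_zmod_eq_zero_iff_dvd _ _).1 (Gamma0_mem.1 h)
  have := γ.det_coe
  rw [Matrix.det_fin_two, e] at this
  exact ⟨γ 0 0, -(γ 0 1 * c), by linear_combination this⟩

theorem g0_le (d : m ∣ N) : Gamma0 N ≤ Gamma0 m := fun γ h => by
  rw [Gamma0_mem, ZMod.intCast_zmod_eq_zero_iff_dvd] at h ⊢
  exact (Int.natCast_dvd_natCast.2 d).trans h

/-! ### bounds -/

theorem jj_ne (γ : SL(2, ℤ)) (τ : ℍ) : jj γ τ ≠ 0 := denom_ne_zero γ τ

theorem im_sm (γ : SL(2, ℤ)) (τ : ℍ) : (γ • τ).im = τ.im / ‖jj γ τ‖ ^ 2 := by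
  rw [ModularGroup.im_smul_eq_div_normSq, Complex.normSq_eq_norm_sq]
  rfl

theorem sl_one (F : ℍ → ℂ) (γ : SL(2, ℤ)) (τ : ℍ) : (F ∣[(1 : ℤ)] γ) τ = F (γ • τ) / jj γ τ := by
  rw [ModularForm.SL_slash_apply, zpow_neg, zpow_one]
  rfl

theorem mw_bd (h : MW N ε F) (hN : 0 < N) (e : ∀ a : ℤ, (N : ℤ) ∣ a - 1 → ε a = 1) (γ : SL(2, ℤ)) :
    ∃ B : ℝ, ∀ τ : ℍ, 1 / 2 ≤ τ.im → ‖F (γ • τ)‖ ≤ B * ‖jj γ τ‖ := by
  have p : ∀ (k : ℤ) τ, (F ∣[(1 : ℤ)] γ) (ModularGroup.T ^ (N * k) • τ) = (F ∣[(1 : ℤ)] γ) τ := by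
    intro k τ
    have m := Gamma_mem.1 ((Gamma_normal N).conj_mem _
      (ModularGroup_T_pow_mem_Gamma N (N * k) (dvd_mul_right _ _)) γ)
    have a : F ∣[(1 : ℤ)] (γ * ModularGroup.T ^ (N * k) * γ⁻¹) = F := funext fun z => by
      rw [sl_one, h.law _ (Gamma0_mem.2 m.2.2.1), e _ ((ZMod.intCast_zmod_eq_zero_iff_dvd _ _).1
        (by push_cast; rw [m.2.2.2, sub_self])), one_mul, mul_div_cancel_left₀ _ (jj_ne _ _)]
    have b := congrFun (congrArg (· ∣[(1 : ℤ)] γ) a) τ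
    simp only [← SlashAction.slash_mul, inv_mul_cancel_right] at b
    rw [SlashAction.slash_mul, sl_one] at b
    simpa [jj, ModularGroup.coe_T_zpow] using b
  have c : Continuous (F ∣[(1 : ℤ)] γ) := (h.hol.slash 1 (γ : GL (Fin 2) ℝ)).continuous
  obtain ⟨B, A, b⟩ := isBoundedAtImInfty_iff.1 (h.bdd γ)
  have K : IsCompact ((↑) ⁻¹' (Set.Icc (0 : ℝ) N ×ℂ Set.Icc (1 / 2) A) : Set ℍ) :=
    (isOpenEmbedding_coe.isInducing.isCompact_preimage_iff fun z k =>
      ⟨⟨z, lt_of_lt_of_le (by norm_num) k.2.1⟩, rfl⟩).2 (isCompact_Icc.reProdIm isCompact_Icc)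
  obtain ⟨B', b'⟩ := K.exists_bound_of_continuousOn c.continuousOn
  refine ⟨max B B', fun τ k => ?_⟩
  rw [← div_le_iff₀ (norm_pos_iff.2 (jj_ne γ τ)), ← norm_div, ← sl_one]
  rcases le_total A τ.im with k' | k'
  · exact (b τ k').trans (le_max_left _ _)
  have n : (0 : ℝ) < N := by exact_mod_cast hN
  rw [← p (-⌊τ.re / N⌋)]
  refine (b' _ ⟨?_, ?_⟩).trans (le_max_right _ _)
  · have h1 := Int.floor_le (τ.re / N)
    have h2 := Int.lt_floor_add_one (τ.re / N)
    rw [le_div_iff₀ n] at h1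
    rw [div_lt_iff₀ n] at h2
    simp only [Set.mem_preimage, coe_re, ModularGroup.re_T_zpow_smul, Set.mem_Icc]
    push_cast
    constructor <;> linarith
  · simpa only [Set.mem_preimage, coe_im, ModularGroup.im_T_zpow_smul, Set.mem_Icc] using ⟨k, k'⟩

theorem int_bd {Γ : Subgroup SL(2, ℤ)} [Γ.FiniteIndex] (c : Continuous F)
    (h : ∀ γ : SL(2, ℤ), ∃ B : ℝ, ∀ τ : ℍ, 1 / 2 ≤ τ.im → ‖F (γ • τ)‖ ≤ B) : Integrable F (fm Γ) := by
  have := Subgroup.fintypeQuotientOfFiniteIndex (H := Γ)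
  have : IsFiniteMeasure (volume.restrict (𝒟 : Set ℍ)) := ⟨by simpa using P004N.T3.fd_finite⟩
  rw [fm_eq, integrable_finsetSum_measure]
  intro q _
  obtain ⟨B, b⟩ := h q.out⁻¹
  refine (embS _).integrable_map_iff.2 (Integrable.of_bound
    (c.measurable.comp (mpS _).measurable).aestronglyMeasurable B
    ((ae_restrict_iff' meas_fd).2 (.of_forall fun z k => b z ?_)))
  nlinarith [ModularGroup.three_le_four_mul_im_sq_of_mem_fd k, z.im_pos]

theorem sq_exp {c : ℝ} (hc : 0 < c) : ∃ C : ℝ, ∀ y, 0 ≤ y →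
    y ^ 2 * Real.exp (-(c * y)) ≤ C * Real.exp (-(c / 2 * y)) := by
  refine ⟨8 / c ^ 2, fun y hy => ?_⟩
  have := Real.pow_div_factorial_le_exp (c / 2 * y) (by positivity) 2
  rw [show -(c / 2 * y) = c / 2 * y + -(c * y) by ring, Real.exp_add, ← mul_assoc]
  refine mul_le_mul_of_nonneg_right ?_ (Real.exp_pos _).le
  rw [div_mul_eq_mul_div, le_div_iff₀ (by positivity)]
  norm_num [Nat.factorial] at this
  nlinarith

/-! ### constant terms -/

theorem ee_add (z w : ℂ) : ee (z + w) = ee z * ee w := by rw [ee, mul_add, Complex.exp_add, ee, ee]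

theorem norm_ee (z : ℂ) : ‖ee z‖ = Real.exp (-(2 * π * z.im)) := by
  rw [ee, Complex.norm_exp]
  simp

theorem conj_ee (z : ℂ) : conj (ee z) = ee (-conj z) := by
  rw [ee, ee, ← Complex.exp_conj]
  simp [map_ofNat]

theorem int_ee (k : ℤ) : ∫ x in (0 : ℝ)..1, ee (k * x) = if k = 0 then 1 else 0 := by
  split_ifs with h
  · simp [h, ee]
  · have : (2 * π * Complex.I * k : ℂ) ≠ 0 := by simp [h]
    simp only [ee, ← mul_assoc]
    rw [integral_exp_mul_complex this]
    simp [mul_comm _ (k : ℂ), Complex.exp_int_mul_two_pi_mul_I]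

theorem pars {u v : ℕ → ℂ} (hu : Summable u) (hv : Summable v) (D : ℕ) :
    HasSum (fun k => u k * v (D * k)) (∫ x in (0 : ℝ)..1,
      (∑' k : ℕ, u k * ee (k * D * x)) * ∑' n : ℕ, v n * conj (ee (n * x))) := by
  have s := summable_mul_of_summable_norm hu.norm.norm hv.norm.norm
  have n : ∀ (p : ℕ × ℕ) (x : ℝ), ‖u p.1 * ee (p.1 * D * x) * (v p.2 * conj (ee (p.2 * x)))‖ =
      ‖u p.1‖ * ‖v p.2‖ := fun p x => by simp [norm_ee]
  have c : ∀ p : ℕ × ℕ, Continuous fun x : ℝ =>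
      u p.1 * ee (p.1 * D * x) * (v p.2 * conj (ee (p.2 * x))) := fun p => by
    unfold ee
    fun_prop
  have h := hasSum_integral_of_summable_integral_norm (μ := volume.restrict (Set.Ioc (0 : ℝ) 1))
    (fun p => (c p).integrableOn_Ioc) (by simpa only [n, integral_const, MeasurableSet.univ,
      measureReal_restrict_apply, Set.univ_inter, Real.volume_real_Ioc, sub_zero, zero_le_one,
      sup_of_le_left, one_smul] using s)
  simp only [← intervalIntegral.integral_of_le zero_le_one] at h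
  have e : ∀ p : ℕ × ℕ, ∫ x in (0 : ℝ)..1, u p.1 * ee (p.1 * D * x) * (v p.2 * conj (ee (p.2 * x))) =
      if D * p.1 = p.2 then u p.1 * v p.2 else 0 := fun p => by
    rw [intervalIntegral.integral_congr (g := fun x : ℝ => u p.1 * v p.2 *
      ee ((D * p.1 - p.2 : ℤ) * x)) fun x _ => by
        simp only [mul_mul_mul_comm (u p.1), conj_ee, ← ee_add]
        congr 2
        simp
        ring, intervalIntegral.integral_const_mul, int_ee]
    simp only [sub_eq_zero]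
    norm_cast
    split_ifs <;> simp
  simp only [e] at h
  rw [intervalIntegral.integral_congr fun x _ => tsum_mul_tsum_of_summable_norm
    (by simpa [norm_ee] using hu.norm) (by simpa [norm_ee] using hv.norm)]
  simpa [Function.comp_def] using (Function.Injective.hasSum_iff (g := fun k : ℕ => (k, D * k))
    (fun _ _ e => congrArg Prod.fst e) fun p k => if_neg fun e => k ⟨p.1, Prod.ext rfl e⟩).2 h

end Vale.Agent.P004C.Wa.Wd
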