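import Vale.Agent.P004C.Wa.Wald0
import Vale.Agent.P004C.Wa.Cj
import Vale.Agent.P004C.Wa.Per0
import Vale.Agent.P004C.Wa.Lat

/-! # P004 C, block WA: ideals and classes -/

open NumberField Module UpperHalfPlane Ideal
open scoped Classical Real ComplexConjugate NumberTheorySymbols ArithmeticFunction.sigma

noncomputable section

namespace Vale.Agent.P004C.Wa.Wd

set_option linter.unusedSectionVars false

theorem sq_sum {G : Type} [CommGroup G] [Fintype G] (u : G) (g : G → ℂ)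
    (h : ∀ B, ¬ IsSquare (B * u) → g B = 0) :
    ∑ x, g (u * x ^ 2) = Nat.card {C : G // C ^ 2 = 1} * ∑ B, g B := by
  rw [← Finset.sum_fiberwise' Finset.univ (fun x => u * x ^ 2) g, Finset.mul_sum]
  refine Finset.sum_congr rfl fun B _ => ?_
  by_cases k : IsSquare (B * u)
  · obtain ⟨s, e⟩ := k
    rw [Finset.sum_const, nsmul_eq_mul, ← Fintype.card_subtype, ← Nat.card_eq_fintype_card,
      Nat.card_congr ((Equiv.mulRight (u / s)).subtypeEquiv fun x => ?_)]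
    rw [Equiv.coe_mulRight, mul_pow, div_pow, sq s, ← e, ← mul_div_assoc, div_eq_one, sq u,
      ← mul_assoc, mul_left_inj, mul_comm]
  · simp [h B k]

theorem pair_sum {G : Type} [CommGroup G] [Fintype G] (c E : G) (f : G → G → ℂ)
    (h : ∀ A B, ¬ IsSquare (A * B * E) → f A B = 0) :
    ∑ x, ∑ y, f (c ^ 2 * x * y) (E * x⁻¹ * y) =
      Nat.card {C : G // C ^ 2 = 1} * ∑ A, ∑ B, f A B := by
  rw [Finset.sum_comm, Finset.sum_congr rfl fun y _ =>
    (Equiv.sum_comp (Equiv.mulRight (c ^ 2 * y)⁻¹) _).symm, Finset.sum_comm, Finset.mul_sum]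
  refine Finset.sum_congr rfl fun A _ => ?_
  rw [← sq_sum (E * c ^ 2 / A) (f A) fun B k => h A B fun ⟨s, e⟩ => k ⟨s * c / A, by
    rw [div_mul_div_comm, mul_mul_mul_comm, ← e, ← mul_div_assoc, div_eq_div_iff_mul_eq_mul, sq]
    ac_rfl⟩]
  refine Finset.sum_congr rfl fun y _ => ?_
  congr 1
  · simp [mul_assoc, mul_left_comm, mul_comm]
  · simp [mul_assoc, mul_left_comm, mul_comm, sq, div_eq_mul_inv]

variable {K : Type} [Field K] [NumberField K] {J : K →+* ℂ} {D m M : ℕ} {θ : 𝓞 K}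
  {n n' I : Ideal (𝓞 K)} {ε : ℤ → ℂ} {a : Ideal (𝓞 K) → ℂ}

theorem cl_span (x : 𝓞 K) : cl (span {x}) = 1 := by
  unfold cl
  split_ifs with h
  · rfl
  · exact (ClassGroup.mk0_eq_one_iff _).2 ⟨x, rfl⟩

theorem nm_cop {t : ℕ} (h : I ⊔ span {(t : 𝓞 K)} = ⊤) : (absNorm I).Coprime t := by
  refine Nat.coprime_of_dvd fun p hp d ⟨k, e⟩ => ?_
  obtain ⟨P, h1, h2, h3⟩ := exists_isMaximal_dvd_of_dvd_absNorm' hp I d
  have : (p : ℤ) ∈ P.under ℤ := h2 ▸ mem_span_singleton_self _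
  refine h1.ne_top (top_le_iff.1 (h ▸ sup_le (le_of_dvd h3) ((span_singleton_le_iff_mem _).2 ?_)))
  rw [e, Nat.cast_mul]
  exact P.mul_mem_right _ (by simpa using this)

theorem ex_rc (h : Kd J D θ) {t : ℕ} (ht : t ≠ 0) : ∃ R, Rc (K := K) t R := by
  have : ∀ C : ClassGroup (𝓞 K), ∃ I, I ≠ ⊥ ∧ cl I = C ∧ (absNorm I).Coprime t := fun C => by
    obtain ⟨⟨b, hb⟩, e⟩ := ClassGroup.mk0_surjective C⁻¹
    have b0 : b ≠ ⊥ := nonZeroDivisors.ne_zero hb
    have n := Cj.absNorm_nat h (2 * t)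
    obtain ⟨x, k⟩ := IsDedekindDomain.exists_sup_span_eq (I := b * span {((2 * t : ℕ) : 𝓞 K)})
      (J := b) mul_le_left (mul_ne_zero b0 fun z => by
        rw [z, map_zero] at n
        exact absurd n.symm (by positivity))
    obtain ⟨c, e'⟩ := dvd_iff_le.2 (le_sup_right.trans k.le)
    rw [e', ← Ideal.mul_sup, sup_comm] at k
    have k := mul_left_cancel₀ b0 (k.trans (mul_top b).symm)
    have c0 : c ≠ ⊥ := fun z => by
      rw [z, bot_sup_eq] at k
      rw [k, absNorm_top] at n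
      nlinarith [Nat.pos_of_ne_zero ht]
    refine ⟨c, c0, ?_, (nm_cop k).coprime_mul_left_right⟩
    have := cl_span x
    rw [e', Pe.cl_mul b0 c0, cl, dif_neg b0, e] at this
    exact (inv_mul_eq_one.1 this).symm
  choose R h1 h2 h3 using this
  exact ⟨R, h1, h2, h3⟩

theorem cn_sq (c : n ⊔ n' = ⊤) (e : n * n' = span {(m : 𝓞 K)}) (h : ∀ x : 𝓞 K, ∃ k : ℤ, x - k ∈ n)
    (x : 𝓞 K) : ∃ k : ℤ, x - k ∈ n ^ 2 := by
  obtain ⟨k, h1⟩ := h x
  rw [← mul_top n, ← c, Ideal.mul_sup, e, Submodule.mem_sup] at h1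
  obtain ⟨z, hz, w, hw, h1⟩ := h1
  obtain ⟨y, rfl⟩ := mem_span_singleton'.1 hw
  obtain ⟨l, h2⟩ := h y
  refine ⟨k + l * m, ?_⟩
  have : x - (k + l * m : ℤ) = z + (y - l) * m := by
    push_cast
    linear_combination -h1
  rw [this, sq]
  exact add_mem hz (mul_mem_mul h2 ((mul_le_left : n * n' ≤ n) (e ▸ mem_span_singleton_self _)))

theorem sp_sq (h : Sp m n n') : Sp (m ^ 2) (n ^ 2) (n' ^ 2) :=
  ⟨pow_pos h.pos 2, isCoprime_iff_sup_eq.1 (isCoprime_iff_sup_eq.2 h.cop).pow,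
    by rw [← mul_pow, h.mul, span_singleton_pow, Nat.cast_pow], cn_sq h.cop h.mul h.cn,
    cn_sq ((sup_comm _ _).trans h.cop) ((mul_comm _ _).trans h.mul) h.cn', by rw [map_pow, h.nm]⟩

theorem ha_sq (h : Ha J n' ε a) : Ha J (n' ^ 2) ε a :=
  ⟨⟨h.hc.one, h.hc.mul, fun I => by
    rw [h.hc.zero, Ne, Ne, ← isCoprime_iff_sup_eq, ← isCoprime_iff_sup_eq,
      IsCoprime.pow_right_iff two_pos], fun x x0 k => h.hc.prn x x0 (pow_le_self two_ne_zero k)⟩,
    fun x k x0 e => h.fin x k x0 (pow_le_self two_ne_zero e)⟩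

theorem nm_le {e : ℕ} (he : 0 < e) (h : ∀ x : 𝓞 K, ∃ k : ℤ, x - k ∈ n) :
    absNorm (n ⊔ span {(e : 𝓞 K)}) ≤ e := by
  have : NeZero e := ⟨he.ne'⟩
  rw [absNorm_apply, Submodule.cardQuot_apply]
  refine (Nat.card_le_card_of_surjective (fun k : ZMod e => Quotient.mk _ (k.val : 𝓞 K))
    fun y => ?_).trans (Nat.card_zmod e).le
  obtain ⟨x, rfl⟩ := Quotient.mk_surjective y
  obtain ⟨k, l⟩ := h x
  obtain ⟨j, q⟩ := (ZMod.intCast_eq_intCast_iff_dvd_sub ((k : ZMod e).val) k e).1 (by simp)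
  refine ⟨k, (Ideal.Quotient.eq.2 (Submodule.mem_sup.2 ⟨_, l, e * j,
    mul_mem_right _ _ (mem_span_singleton_self _), ?_⟩)).symm⟩
  have := congrArg (Int.cast : ℤ → 𝓞 K) q
  push_cast at this
  linear_combination -this

theorem nm_e (k : Kd J D θ) (h : Sp M n n') {e : ℕ} (d : e ∣ M) :
    absNorm (n' ⊔ span {(e : 𝓞 K)}) = e := by
  have he := Nat.pos_of_dvd_of_pos d h.pos
  have : (n ⊔ span {(e : 𝓞 K)}) * (n' ⊔ span {(e : 𝓞 K)}) = span {(e : 𝓞 K)} := by
    rw [Ideal.sup_mul, Ideal.mul_sup, Ideal.mul_sup, h.mul, mul_comm n, sup_assoc, ← sup_assoc (_ * n),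
      ← Ideal.mul_sup _ n, h.cop, mul_top, sup_eq_left.2 (mul_le_right (I := span {(e : 𝓞 K)})),
      sup_eq_right.2
        (span_singleton_le_span_singleton.2 (Nat.cast_dvd_cast d))]
  have := congrArg absNorm this
  rw [map_mul, Cj.absNorm_nat k] at this
  nlinarith [nm_le he h.cn, nm_le he h.cn']

theorem j_one (k : Kd J D θ) (h : Sp m n n') (c : D.Coprime m) {p : ℕ} (hp : p.Prime) (d : p ∣ m) :
    J(p | D) = 1 := by
  have o : Odd D := Nat.odd_iff.2 (by have := k.md; omega)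
  rcases hp.eq_two_or_odd' with rfl | op
  · rw [Nat.cast_ofNat, jacobiSym.at_two o, ZMod.χ₈_nat_mod_eight, k.md]
    rfl
  obtain ⟨l, e⟩ := h.cn θ
  have : (p : ℤ) ∣ l ^ 2 + D := (Int.natCast_dvd_natCast.2 d).trans (Pe.int_mem h (by
    have := n.mul_mem_left (-(θ + l)) e
    push_cast
    rwa [show -(θ + l) * (θ - l) = l ^ 2 + D by linear_combination -k.sq] at this))
  have e1 : J(-D | p) = 1 := by
    rw [jacobiSym.mod_left' (Int.modEq_iff_dvd.2 (by rwa [sub_neg_eq_add]) : -D ≡ l ^ 2 [ZMOD p])]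
    refine jacobiSym.sq_one' (Int.isCoprime_iff_gcd_eq_one.1 (((Nat.prime_iff_prime_int.1 hp).coprime_iff_not_dvd).2
      fun q => ?_).symm)
    exact hp.one_lt.ne' (Nat.eq_one_of_dvd_coprimes c (Int.natCast_dvd_natCast.1
      ((dvd_add_right (dvd_pow q two_ne_zero)).1 this)) d)
  have d4 : D % 4 = 3 := by have := k.md; omega
  rw [jacobiSym.neg _ op] at e1
  rcases Nat.odd_mod_four_iff.1 (Nat.odd_iff.1 op) with q | q
  · rw [ZMod.χ₄_nat_one_mod_four q, one_mul] at e1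
    rwa [jacobiSym.quadratic_reciprocity_one_mod_four q o]
  · rw [ZMod.χ₄_nat_three_mod_four q] at e1
    rw [jacobiSym.quadratic_reciprocity_three_mod_four q d4]
    linarith

theorem th_dvd (k : Kd J D θ) (h : D ∣ absNorm I) : span {θ} ∣ I := by
  obtain ⟨s, c⟩ := Cj.ex_cg k
  obtain ⟨s', c1, c2⟩ := Pe.ex_cj k
  refine dvd_iff_le.2 fun x hx => mem_span_singleton.2 ?_
  have e := c2 x
  rw [show s' x = s x from Cj.jinj J (by rw [c1, c.cj])] at e
  obtain ⟨l, e1⟩ := c.sub x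
  obtain ⟨u, e2⟩ := c.fix (x + s x) (by rw [map_add, c.ss, add_comm])
  obtain ⟨v, e3⟩ := h.trans (absNorm_dvd_absNorm_of_le ((span_singleton_le_iff_mem _).2 hx))
  have q : u ^ 2 = D * (4 * v - l ^ 2) := Int.cast_injective (α := 𝓞 K) (by
    rw [e3] at e
    push_cast at e ⊢
    linear_combination (-(u : 𝓞 K) - x - s x) * e2 + (x - s x + l * θ) * e1 + 4 * e + l ^ 2 * k.sq)
  obtain ⟨w, rfl⟩ := ((Int.squarefree_natCast.2 k.sqf).dvd_pow_iff_dvd two_ne_zero).1 ⟨_, q⟩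
  obtain ⟨j, e4⟩ : Odd D := Nat.odd_iff.2 (by have := k.md; omega)
  have := k.sq
  rw [e4] at this e2
  push_cast at this e2
  exact ⟨-θ * x - j * (l - θ * w), by linear_combination (x - j * w) * this - j * e1 - j * e2⟩

theorem co_eq (a : Ideal (𝓞 K) → ℂ) (l : ℕ) :
    co a l = ∑ I ∈ (finite_setOfPred_absNorm_eq l).toFinset, a I :=
  finsum_mem_eq_finite_toFinset_sum _ _

theorem co_D (k : Kd J D θ) (h : ∀ I I', a (I * I') = a I * a I') (l : ℕ) :
    co a (D * l) = a (span {θ}) * co a l := by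
  have t : span {θ} ≠ ⊥ := mt span_singleton_eq_bot.1 (Cj.th_ne k)
  rw [co_eq, co_eq, Finset.mul_sum]
  refine (Finset.sum_nbij (span {θ} * ·) (fun I e => ?_) (fun _ _ _ _ => mul_left_cancel₀ t)
    (fun I e => ?_) fun I _ => (h _ _).symm).symm
  · simp only [Set.Finite.mem_toFinset, Set.mem_ofPred_eq] at e ⊢
    rw [map_mul, Pe.nm_θ k, e]
  · simp only [Set.Finite.coe_toFinset, Set.mem_ofPred_eq] at e
    obtain ⟨I, rfl⟩ := th_dvd k ⟨l, e⟩
    rw [map_mul, Pe.nm_θ k] at e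
    exact ⟨I, by simpa using mul_left_cancel₀ k.sqf.ne_zero e, rfl⟩

theorem sum_TA (h : ∀ I, ‖a I‖ ≤ 1) (τ : ℍ) :
    HasSum (fun l : ℕ => l * co a l * conj (ee (l * τ))) (∑ C, TA a C τ) := by
  have s : Summable fun I : Ideal (𝓞 K) => a I * absNorm I * conj (ee (absNorm I * τ)) :=
    .of_norm_bounded (Lt.sum_exp K 1 (c := 2 * π * τ.im) (by have := τ.im_pos; positivity))
      fun I => by
        rw [norm_mul, norm_mul, Complex.norm_conj, norm_ee, mul_assoc]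
        refine (mul_le_of_le_one_left (by positivity) (h I)).trans (le_of_eq ?_)
        simp [mul_comm (absNorm I : ℝ) τ.im, mul_assoc]
  have e : ∑ C, TA a C τ = ∑' I : Ideal (𝓞 K), a I * absNorm I * conj (ee (absNorm I * τ)) := by
    simp only [TA]
    rw [← Summable.tsum_finsetSum fun C _ => .of_norm_bounded s.norm fun I => by
      split_ifs
      exacts [le_rfl, norm_zero.trans_le (norm_nonneg _)]]
    simp
  rw [e]
  refine (s.hasSum.tsum_fiberwise absNorm).congr_fun fun l => ?_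
  rw [mul_comm (l : ℂ), co_eq, Finset.sum_mul, Finset.sum_mul, ← Finset.tsum_subtype',
    Set.Finite.coe_toFinset]
  exact tsum_congr fun I => by rw [I.2]

theorem co_le (h : ∀ I, a I = 0 ∨ ‖a I‖ ^ 2 * absNorm I = 1)
    (c : ∀ l, 0 < l → co (fun _ : Ideal (𝓞 K) => 1) l = ∑ d ∈ l.divisors, (J(d | D) : ℂ))
    {l : ℕ} (hl : 0 < l) : ‖co a l‖ ≤ σ 0 l * (l : ℝ) ^ (-(1 / 2) : ℝ) := by
  have c := congrArg norm (c l hl)
  rw [co_eq, Finset.sum_const, nsmul_eq_mul, mul_one, Complex.norm_natCast] at c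
  have n : (0 : ℝ) < l := by exact_mod_cast hl
  rw [co_eq]
  refine (norm_sum_le _ _).trans ((Finset.sum_le_card_nsmul _ _ ((l : ℝ) ^ (-(1 / 2) : ℝ))
    fun I e => ?_).trans ?_)
  · rcases h I with k | k
    · rw [k, norm_zero]
      positivity
    · rw [(Set.Finite.mem_toFinset _).1 e] at k
      refine le_of_eq ((pow_left_inj₀ (norm_nonneg _) (by positivity) two_ne_zero).1 ?_)
      rw [← Real.rpow_natCast, ← Real.rpow_natCast, ← Real.rpow_mul n.le, Real.rpow_natCast,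
        eq_inv_of_mul_eq_one_left k]
      norm_num [Real.rpow_neg_one]
  · rw [nsmul_eq_mul, c, ArithmeticFunction.sigma_zero_apply]
    refine mul_le_mul_of_nonneg_right ((norm_sum_le _ _).trans ?_) (by positivity)
    refine (Finset.sum_le_card_nsmul _ _ 1 fun d _ => ?_).trans (by simp)
    rcases jacobiSym.trichotomy d D with q | q | q <;> simp [q]

theorem sum_sig : Summable fun l : ℕ => σ 0 l * (l : ℝ) ^ (-(11 / 8) : ℝ) := by
  have z : LSeriesSummable (fun l => (ArithmeticFunction.zeta l : ℂ)) (11 / 8 : ℝ) :=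
    ArithmeticFunction.LSeriesSummable_zeta_iff.2 (by norm_num)
  have := (ArithmeticFunction.LSeriesSummable_mul (f := ArithmeticFunction.zeta)
    (g := ArithmeticFunction.zeta) z z).norm
  refine this.congr fun l => ?_
  rw [LSeries.norm_term_eq, ← ArithmeticFunction.natCoe_mul, ← ArithmeticFunction.zeta_mul_pow_eq_sigma,
    ArithmeticFunction.pow_zero_eq_zeta, ArithmeticFunction.natCoe_apply, Complex.norm_natCast]
  split_ifs with h
  · simp [h]
  · rw [Real.rpow_neg (Nat.cast_nonneg _), div_eq_mul_inv]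
    simp

end Vale.Agent.P004C.Wa.Wd
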